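import Vale.Agent.P353.AN.C.Stmt

/-! # P353, all `N`, block C: test function calculus on the slice (`CalcA`) -/

open MeasureTheory Filter Topology
open scoped ContDiff

namespace Vale.Agent.P353.Z.AN

namespace CA232

section gen

variable {V W F : Type*} [NormedAddCommGroup V] [NormedSpace ℝ V] [NormedAddCommGroup W] [NormedSpace ℝ W]
  [NormedAddCommGroup F] [InnerProductSpace ℂ F]

/-- the function on the product -/
private def un (v : V → W → F) (p : V × W) : F := v p.1 p.2

private lemma hasy {v : V → W → F} (h : ContDiff ℝ ∞ (un v)) (y : V) (w : W) :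
    HasFDerivAt (fun y' => v y' w) ((fderiv ℝ (un v) (y, w)).comp (ContinuousLinearMap.inl ℝ V W)) y := by
  have h1 : HasFDerivAt (un v) (fderiv ℝ (un v) (y, w)) (y, w) :=
    (h.differentiable (by simp) (y, w)).hasFDerivAt
  exact HasFDerivAt.comp (g := un v) (f := fun e : V => (e, w)) y h1 (hasFDerivAt_prodMk_left y w)

private lemma hasw {v : V → W → F} (h : ContDiff ℝ ∞ (un v)) (y : V) (w : W) :
    HasFDerivAt (v y) ((fderiv ℝ (un v) (y, w)).comp (ContinuousLinearMap.inr ℝ V W)) w := by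
  have h1 : HasFDerivAt (un v) (fderiv ℝ (un v) (y, w)) (y, w) :=
    (h.differentiable (by simp) (y, w)).hasFDerivAt
  exact HasFDerivAt.comp (g := un v) (f := fun e : W => (y, e)) w h1 (hasFDerivAt_prodMk_right y w)

private lemma dfy {v : V → W → F} (h : ContDiff ℝ ∞ (un v)) (y : V) (w : W) (e : V) :
    fderiv ℝ (fun y' => v y' w) y e = fderiv ℝ (un v) (y, w) (e, 0) := by
  rw [(hasy h y w).fderiv]
  rfl

private lemma dfw {v : V → W → F} (h : ContDiff ℝ ∞ (un v)) (y : V) (w : W) (e : W) :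
    fderiv ℝ (v y) w e = fderiv ℝ (un v) (y, w) (0, e) := by
  rw [(hasw h y w).fderiv]
  rfl

private lemma smd {u : V × W → F} (h : ContDiff ℝ ∞ u) (e : V × W) :
    ContDiff ℝ ∞ (fun p => fderiv ℝ u p e) :=
  (h.fderiv_right (m := ∞) (by simp)).clm_apply contDiff_const

private lemma ddf {u : V × W → F} (h : ContDiff ℝ ∞ u) (e e' p : V × W) :
    fderiv ℝ (fun q => fderiv ℝ u q e) p e' = fderiv ℝ (fderiv ℝ u) p e' e := by
  have h1 : DifferentiableAt ℝ (fderiv ℝ u) p :=
    (h.fderiv_right (m := ∞) (by simp)).differentiable (by simp) p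
  have h2 := h1.hasFDerivAt.clm_apply (hasFDerivAt_const e p)
  rw [h2.fderiv]
  simp

private lemma symm2 {u : V × W → F} (h : ContDiff ℝ ∞ u) (e e' p : V × W) :
    fderiv ℝ (fun q => fderiv ℝ u q e) p e' = fderiv ℝ (fun q => fderiv ℝ u q e') p e := by
  rw [ddf h, ddf h]
  have h1 : IsSymmSndFDerivAt ℝ u p := (h.contDiffAt (x := p)).isSymmSndFDerivAt (by
    simp only [minSmoothness_of_isRCLikeNormedField]
    exact WithTop.coe_le_coe.2 le_top)
  exact h1 e' e

omit [NormedSpace ℝ V] [NormedSpace ℝ W] [InnerProductSpace ℂ F] in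
private lemma slyc {v : V → W → F} (h : HasCompactSupport (un v)) (w : W) : HasCompactSupport fun y => v y w := by
  refine HasCompactSupport.intro (h.isCompact.image continuous_fst) ?_
  intro y hy
  by_contra h0
  exact hy ⟨(y, w), subset_tsupport _ h0, rfl⟩

omit [NormedSpace ℝ V] [NormedSpace ℝ W] [InnerProductSpace ℂ F] in
private lemma slwc {v : V → W → F} (h : HasCompactSupport (un v)) (y : V) : HasCompactSupport (v y) := by
  refine HasCompactSupport.intro (h.isCompact.image continuous_snd) ?_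
  intro w hw
  by_contra h0
  exact hw ⟨(y, w), subset_tsupport _ h0, rfl⟩

omit [NormedSpace ℝ V] [NormedSpace ℝ W] in
private lemma cmono {G H : Type*} [Zero G] [Zero H] {u : V × W → G} {v : V × W → H} (h : HasCompactSupport u)
    (h0 : ∀ p, u p = 0 → v p = 0) : HasCompactSupport v := by
  refine h.mono ?_
  intro p hp
  simp only [Function.mem_support] at hp ⊢
  exact fun h1 => hp (h0 p h1)

end gen

variable {dh dm : ℕ} {F : Type*} [NormedAddCommGroup F] [InnerProductSpace ℂ F]

private lemma eqy {v : Cfg dh → Wsp dm → F} (h : Tst2 v) (i : Fin 9) (A : Fin dh) (y : Cfg dh) (w : Wsp dm) :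
    py i A v y w = fderiv ℝ (un v) (y, w) (EuclideanSpace.single (i, A) 1, 0) := dfy h.1 y w _

private lemma eqw {v : Cfg dh → Wsp dm → F} (h : Tst2 v) (j : Fin 8) (B : Fin dm) (y : Cfg dh) (w : Wsp dm) :
    pw j B v y w = fderiv ℝ (un v) (y, w) (0, EuclideanSpace.single (j, B) 1) := dfw h.1 y w _

private lemma tpy {v : Cfg dh → Wsp dm → F} (h : Tst2 v) (i : Fin 9) (A : Fin dh) : Tst2 (py i A v) := by
  have h1 : (fun p : Cfg dh × Wsp dm => py i A v p.1 p.2) =
      fun p => fderiv ℝ (un v) p (EuclideanSpace.single (i, A) 1, 0) := funext fun p => eqy h i A p.1 p.2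
  refine ⟨?_, ?_⟩
  · rw [h1]; exact smd h.1 _
  · rw [h1]; exact HasCompactSupport.fderiv_apply (𝕜 := ℝ) h.2 _

private lemma tpw {v : Cfg dh → Wsp dm → F} (h : Tst2 v) (j : Fin 8) (B : Fin dm) : Tst2 (pw j B v) := by
  have h1 : (fun p : Cfg dh × Wsp dm => pw j B v p.1 p.2) =
      fun p => fderiv ℝ (un v) p (0, EuclideanSpace.single (j, B) 1) := funext fun p => eqw h j B p.1 p.2
  refine ⟨?_, ?_⟩
  · rw [h1]; exact smd h.1 _
  · rw [h1]; exact HasCompactSupport.fderiv_apply (𝕜 := ℝ) h.2 _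

omit [InnerProductSpace ℂ F] in
private lemma clos {v : Cfg dh → Wsp dm → F} {Y : Cfg dh} {ε R : ℝ} (hs : Sup2 Y ε R v) (p : Cfg dh × Wsp dm)
    (hp : p ∈ tsupport (un v)) : ‖p.1 - R • Y‖ ≤ ε * R ∧ ‖p.2‖ ≤ ε * R := by
  have hc : IsClosed {p : Cfg dh × Wsp dm | ‖p.1 - R • Y‖ ≤ ε * R ∧ ‖p.2‖ ≤ ε * R} := by
    refine IsClosed.inter ?_ ?_
    · exact isClosed_le (continuous_fst.sub continuous_const).norm continuous_const
    · exact isClosed_le continuous_snd.norm continuous_const
  have h1 : Function.support (un v) ⊆ {p : Cfg dh × Wsp dm | ‖p.1 - R • Y‖ ≤ ε * R ∧ ‖p.2‖ ≤ ε * R} :=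
    fun q hq => hs q.1 q.2 hq
  exact closure_minimal h1 hc hp

private lemma sup_of {v : Cfg dh → Wsp dm → F} {Y : Cfg dh} {ε R : ℝ} (hs : Sup2 Y ε R v) (e : Cfg dh × Wsp dm)
    (p : Cfg dh × Wsp dm) (hp : fderiv ℝ (un v) p e ≠ 0) : ‖p.1 - R • Y‖ ≤ ε * R ∧ ‖p.2‖ ≤ ε * R := by
  apply clos hs p
  apply support_fderiv_subset ℝ
  intro h0
  exact hp (by rw [h0]; rfl)

private lemma dify {v : Cfg dh → Wsp dm → F} (h : Tst2 v) (y : Cfg dh) (w : Wsp dm) :
    DifferentiableAt ℝ (fun y' => v y' w) y := (hasy h.1 y w).differentiableAt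

private lemma difw {v : Cfg dh → Wsp dm → F} (h : Tst2 v) (y : Cfg dh) (w : Wsp dm) :
    DifferentiableAt ℝ (v y) w := (hasw h.1 y w).differentiableAt

/-- coordinate functional -/
private noncomputable def prk (dm : ℕ) (k : Fin 8 × Fin dm) : Wsp dm →L[ℝ] ℝ :=
  EuclideanSpace.proj k

private lemma prk_apply (k : Fin 8 × Fin dm) (w : Wsp dm) : prk dm k w = w k := rfl

private lemma csm {V : Type*} [NormedAddCommGroup V] [NormedSpace ℝ V] (f : V → F) (x e : V) (c : ℂ)
    (h : DifferentiableAt ℝ f x) : fderiv ℝ (fun x => c • f x) x e = c • fderiv ℝ f x e := by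
  have h1 : HasFDerivAt (fun x => c • f x) (c • fderiv ℝ f x) x := h.hasFDerivAt.const_smul c
  rw [h1.fderiv]
  rfl

private lemma ccl {V : Type*} [NormedAddCommGroup V] [NormedSpace ℝ V] (f : V → F) (x e : V) (T : F →L[ℂ] F)
    (h : DifferentiableAt ℝ f x) : fderiv ℝ (fun x => T (f x)) x e = T (fderiv ℝ f x e) := by
  have h1 : HasFDerivAt (fun x => (T.restrictScalars ℝ) (f x)) ((T.restrictScalars ℝ).comp (fderiv ℝ f x)) x :=
    (T.restrictScalars ℝ).hasFDerivAt.comp x h.hasFDerivAt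
  rw [show (fun x => T (f x)) = (fun x => (T.restrictScalars ℝ) (f x)) from rfl, h1.fderiv]
  rfl

private lemma cmu {V : Type*} [NormedAddCommGroup V] [NormedSpace ℝ V] (f : V → F) (c : V → ℝ) (x e : V)
    (hc : DifferentiableAt ℝ c x) (h : DifferentiableAt ℝ f x) :
    fderiv ℝ (fun x => ((c x : ℝ) : ℂ) • f x) x e =
      ((c x : ℝ) : ℂ) • fderiv ℝ f x e + ((fderiv ℝ c x e : ℝ) : ℂ) • f x := by
  have h1 := hc.hasFDerivAt.smul h.hasFDerivAt
  have h2 : (fun x => ((c x : ℝ) : ℂ) • f x) = fun x => c x • f x := by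
    funext x
    rw [Complex.coe_smul]
  rw [h2]
  have h3 := h1.fderiv
  have h4 : fderiv ℝ (fun x => c x • f x) x = c x • fderiv ℝ f x + (fderiv ℝ c x).smulRight (f x) := h3
  rw [h4]
  simp [Complex.coe_smul]

end CA232

open CA232

/-- **C-CalcA** -/
theorem calcA (dh dm : ℕ) (F : Type*) [NormedAddCommGroup F] [InnerProductSpace ℂ F] : CalcA dh dm F where
  sly := fun v h w => ⟨h.1.comp (contDiff_id.prodMk contDiff_const), slyc h.2 w⟩
  slw := fun v h y => ⟨h.1.comp (contDiff_const.prodMk contDiff_id), slwc h.2 y⟩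
  zero := ⟨contDiff_const, HasCompactSupport.zero⟩
  add := fun u v hu hv => ⟨hu.1.add hv.1, hu.2.add hv.2⟩
  sub := fun u v hu hv => ⟨hu.1.sub hv.1, by
    have h := hu.2.add hv.2.neg
    refine cmono h fun p hp => ?_
    have h1 : u p.1 p.2 + -v p.1 p.2 = 0 := hp
    show u p.1 p.2 - v p.1 p.2 = 0
    rw [sub_eq_add_neg, h1]⟩
  smul := fun c v h => ⟨h.1.const_smul c, cmono h.2 fun p hp => by
    show c • v p.1 p.2 = 0
    have : v p.1 p.2 = 0 := hp
    rw [this, smul_zero]⟩
  clm := fun T v h => ⟨(T.restrictScalars ℝ).contDiff.comp h.1, cmono h.2 fun p hp => by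
    show T (v p.1 p.2) = 0
    have : v p.1 p.2 = 0 := hp
    rw [this, map_zero]⟩
  mul := fun c v hc h => ⟨by
    have h2 : (fun p : Cfg dh × Wsp dm => mul2 c v p.1 p.2) = fun p => c p.1 p.2 • v p.1 p.2 := by
      funext p
      rw [mul2, Complex.coe_smul]
    rw [h2]
    exact hc.smul h.1, cmono h.2 fun p hp => by
    show ((c p.1 p.2 : ℝ) : ℂ) • v p.1 p.2 = 0
    have : v p.1 p.2 = 0 := hp
    rw [this, smul_zero]⟩
  mulOn := fun c v K U hK hU hKU hc hv h => ⟨by
    have h2 : (fun p : Cfg dh × Wsp dm => mul2 (fun y _ => c y) v p.1 p.2) = fun p => c p.1 • v p.1 p.2 := by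
      funext p
      rw [mul2, Complex.coe_smul]
    rw [h2, contDiff_iff_contDiffAt]
    intro p
    by_cases hp : p.1 ∈ K
    · have h3 : ContDiffAt ℝ ∞ c p.1 := hc.contDiffAt (hU.mem_nhds (hKU hp))
      exact (h3.comp p contDiffAt_fst).smul h.1.contDiffAt
    · have h3 : (fun q : Cfg dh × Wsp dm => c q.1 • v q.1 q.2) =ᶠ[𝓝 p] fun _ => 0 := by
        have h4 : ∀ᶠ q : Cfg dh × Wsp dm in 𝓝 p, q.1 ∈ Kᶜ :=
          (continuous_fst.continuousAt (x := p)).eventually (hK.isOpen_compl.mem_nhds hp)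
        filter_upwards [h4] with q hq
        have : v q.1 q.2 = 0 := by
          by_contra h0
          exact hq (hv _ _ h0)
        rw [this, smul_zero]
      exact contDiffAt_const.congr_of_eventuallyEq h3, cmono h.2 fun p hp => by
    show ((c p.1 : ℝ) : ℂ) • v p.1 p.2 = 0
    have : v p.1 p.2 = 0 := hp
    rw [this, smul_zero]⟩
  py := fun i A v h => tpy h i A
  pw := fun j B v h => tpw h j B
  neg := fun v h => by
    refine ⟨h.1.comp (contDiff_fst.prodMk contDiff_snd.neg), ?_⟩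
    refine HasCompactSupport.intro (h.2.isCompact.image (f := fun p : Cfg dh × Wsp dm => (p.1, -p.2)) (by fun_prop)) ?_
    intro p hp
    by_contra h0
    exact hp ⟨(p.1, -p.2), subset_tsupport _ h0, by simp⟩
  supy := fun Y ε R i A v h hs y w h0 => by
    rw [eqy h] at h0
    exact sup_of hs _ (y, w) h0
  supw := fun Y ε R j B v h hs y w h0 => by
    rw [eqw h] at h0
    exact sup_of hs _ (y, w) h0
  py_add := fun i A u v hu hv y w => by
    show fderiv ℝ (fun y' => u y' w + v y' w) y _ = _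
    rw [show (fun y' => u y' w + v y' w) = (fun y' => u y' w) + (fun y' => v y' w) from rfl,
      fderiv_add (dify hu y w) (dify hv y w)]
    rfl
  pw_add := fun j B u v hu hv y w => by
    show fderiv ℝ (fun w' => u y w' + v y w') w _ = _
    rw [show (fun w' => u y w' + v y w') = (u y) + (v y) from rfl,
      fderiv_add (difw hu y w) (difw hv y w)]
    rfl
  py_smul := fun i A c v h y w => csm _ y _ c (dify h y w)
  pw_smul := fun j B c v h y w => csm _ w _ c (difw h y w)
  py_clm := fun i A T v h y w => ccl _ y _ T (dify h y w)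
  pw_clm := fun j B T v h y w => ccl _ w _ T (difw h y w)
  py_mw := fun i A k v h y w => csm _ y _ _ (dify h y w)
  pw_mw := fun j B k v h y w => by
    have h1 : DifferentiableAt ℝ (fun w : Wsp dm => w k) w :=
      (prk dm k).differentiableAt
    have h2 : fderiv ℝ (fun w : Wsp dm => w k) w = prk dm k :=
      (prk dm k).fderiv
    have h3 := cmu (v y) (fun w : Wsp dm => w k) w (EuclideanSpace.single (j, B) 1) h1 (difw h y w)
    refine Eq.trans h3 ?_
    rw [h2, prk_apply]
    congr 1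
    by_cases hk : k = (j, B)
    · simp [hk]
    · simp [hk]
  py_mul := fun i A c v h y w hc => cmu _ c y _ hc (dify h y w)
  pw_mul := fun j B c v h y w => csm _ w _ _ (difw h y w)
  comm := fun i A j B v h y w => by
    rw [eqy (tpw h j B), eqw (tpy h i A)]
    have h1 : un (Z.pw j B v) = fun p => fderiv ℝ (un v) p (0, EuclideanSpace.single (j, B) 1) :=
      funext fun p => eqw h j B p.1 p.2
    have h2 : un (Z.py i A v) = fun p => fderiv ℝ (un v) p (EuclideanSpace.single (i, A) 1, 0) :=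
      funext fun p => eqy h i A p.1 p.2
    rw [h1, h2]
    exact symm2 h.1 _ _ _
  py_neg := fun i A v y w => rfl
  pw_neg := fun j B v h y w => by
    have h1 : HasFDerivAt (fun w' : Wsp dm => v y (-w')) ((fderiv ℝ (v y) (-w)).comp (-ContinuousLinearMap.id ℝ (Wsp dm))) w :=
      HasFDerivAt.comp w (difw h y (-w)).hasFDerivAt (hasFDerivAt_id w).neg
    show fderiv ℝ (fun w' : Wsp dm => v y (-w')) w _ = _
    rw [h1.fderiv]
    simp [Z.pw]

end Vale.Agent.P353.Z.AN
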