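import Vale.Agent.P353.AN.C.Stmt

/-! # P353, all `N`, block C: integration on the slice (`CalcB`) -/

open MeasureTheory Filter Topology
open scoped ContDiff

namespace Vale.Agent.P353.Z.AN

variable {dh dm : ℕ}

namespace CB925

/-- the measure on the slice -/
private noncomputable abbrev mu (dh dm : ℕ) : Measure (Cfg dh × Wsp dm) :=
  (volume : Measure (Cfg dh)).prod (volume : Measure (Wsp dm))

section gen

variable {E : Type*} [NormedAddCommGroup E]

private lemma intSq {v : Cfg dh → Wsp dm → E} (h1 : Continuous fun p : Cfg dh × Wsp dm => v p.1 p.2)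
    (h2 : HasCompactSupport fun p : Cfg dh × Wsp dm => v p.1 p.2) :
    Integrable (fun p : Cfg dh × Wsp dm => ‖v p.1 p.2‖ ^ 2) (mu dh dm) := by
  refine (h1.norm.pow 2).integrable_of_hasCompactSupport ?_
  refine h2.mono ?_
  intro p hp
  simp only [Function.mem_support] at hp ⊢
  intro h0
  exact hp (by simp [h0])

private lemma yw {v : Cfg dh → Wsp dm → E} (h1 : Continuous fun p : Cfg dh × Wsp dm => v p.1 p.2)
    (h2 : HasCompactSupport fun p : Cfg dh × Wsp dm => v p.1 p.2) :
    Integrable (fun y => nsf (v y)) ∧ ns2 v = ∫ y, nsf (v y) := by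
  have h := intSq h1 h2
  refine ⟨h.integral_prod_left, ?_⟩
  rw [ns2, integral_prod _ h]
  rfl

private lemma wy {v : Cfg dh → Wsp dm → E} (h1 : Continuous fun p : Cfg dh × Wsp dm => v p.1 p.2)
    (h2 : HasCompactSupport fun p : Cfg dh × Wsp dm => v p.1 p.2) :
    Integrable (fun w => nsq (fun y => v y w)) ∧ ns2 v = ∫ w, nsq (fun y => v y w) := by
  have h := intSq h1 h2
  refine ⟨h.integral_prod_right, ?_⟩
  rw [ns2, integral_prod_symm _ h]
  rfl

/-- reflection in `w` -/
private noncomputable def rfe (dh dm : ℕ) : Cfg dh × Wsp dm ≃ᵐ Cfg dh × Wsp dm :=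
  (MeasurableEquiv.refl _).prodCongr (MeasurableEquiv.neg _)

private lemma rfe_apply (p : Cfg dh × Wsp dm) : rfe dh dm p = (p.1, -p.2) := rfl

private lemma rfe_mp : MeasurePreserving (rfe dh dm) (mu dh dm) (mu dh dm) := by
  have h1 : MeasurePreserving (fun w : Wsp dm => -w) volume volume :=
    Measure.measurePreserving_neg volume
  exact (MeasurePreserving.id (volume : Measure (Cfg dh))).prod h1

private lemma int_rfe {G : Type*} [NormedAddCommGroup G] [NormedSpace ℝ G] (f : Cfg dh × Wsp dm → G) :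
    ∫ p, f (p.1, -p.2) ∂(mu dh dm) = ∫ p, f p ∂(mu dh dm) := by
  have := rfe_mp (dh := dh) (dm := dm) |>.integral_comp' (g := f)
  exact this

end gen

section ibp

variable {V G : Type*} [NormedAddCommGroup V] [NormedSpace ℝ V] [FiniteDimensional ℝ V] [MeasurableSpace V]
  [BorelSpace V] (μ : Measure V) [μ.IsAddHaarMeasure] [NormedAddCommGroup G] [NormedSpace ℝ G]

private lemma integral_fderiv_zero (w : V → G) (hw : ContDiff ℝ 1 w) (hc : HasCompactSupport w) (e : V) :
    ∫ x, fderiv ℝ w x e ∂μ = 0 := by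
  have h := integral_smul_fderiv_eq_neg_fderiv_smul_of_integrable (μ := μ)
    (f := fun _ : V => (1 : ℝ)) (g := w) (v := e) (𝕜 := ℝ) ?_ ?_ ?_ ?_ ?_
  · simpa using h
  · simp
  · simp only [one_smul]
    exact ((hw.continuous_fderiv (by simp)).clm_apply continuous_const).integrable_of_hasCompactSupport
      (hc.fderiv_apply (𝕜 := ℝ) e)
  · simp only [one_smul]
    exact hw.continuous.integrable_of_hasCompactSupport hc
  · intro x _; exact differentiableAt_const _
  · intro x _; exact (hw.differentiable (by simp)) x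

private lemma integral_inner_fderiv {F : Type*} [NormedAddCommGroup F] [InnerProductSpace ℂ F] (u v : V → F)
    (hu : ContDiff ℝ 1 u) (hv : ContDiff ℝ 1 v) (hc : HasCompactSupport u) (e : V) :
    ∫ x, inner ℂ (fderiv ℝ u x e) (v x) ∂μ = - ∫ x, inner ℂ (u x) (fderiv ℝ v x e) ∂μ := by
  have hw : ContDiff ℝ 1 (fun x => inner ℂ (u x) (v x)) := hu.inner ℂ hv
  have hcw : HasCompactSupport (fun x => inner ℂ (u x) (v x)) := by
    refine hc.mono ?_
    intro x hx
    simp only [Function.mem_support] at hx ⊢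
    intro h0
    exact hx (by simp [h0])
  have h0 := integral_fderiv_zero μ _ hw hcw e
  have hd : ∀ x, fderiv ℝ (fun x => inner ℂ (u x) (v x)) x e =
      inner ℂ (u x) (fderiv ℝ v x e) + inner ℂ (fderiv ℝ u x e) (v x) := fun x =>
    fderiv_inner_apply ℂ ((hu.differentiable (by simp)) x) ((hv.differentiable (by simp)) x) e
  simp only [hd] at h0
  have hi1 : Integrable (fun x => inner ℂ (u x) (fderiv ℝ v x e)) μ := by
    refine (hu.continuous.inner ((hv.continuous_fderiv (by simp)).clm_apply
      continuous_const)).integrable_of_hasCompactSupport ?_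
    refine hc.mono ?_
    intro x hx
    simp only [Function.mem_support] at hx ⊢
    intro h0
    exact hx (by simp [h0])
  have hi2 : Integrable (fun x => inner ℂ (fderiv ℝ u x e) (v x)) μ := by
    refine ((((hu.continuous_fderiv (by simp)).clm_apply
      continuous_const)).inner hv.continuous).integrable_of_hasCompactSupport ?_
    refine (hc.fderiv_apply (𝕜 := ℝ) e).mono ?_
    intro x hx
    simp only [Function.mem_support] at hx ⊢
    intro h0
    exact hx (by simp [h0])
  rw [integral_add hi1 hi2] at h0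
  exact eq_neg_of_add_eq_zero_right h0

end ibp

variable {F : Type*} [NormedAddCommGroup F] [InnerProductSpace ℂ F]

private lemma intIp {u v : Cfg dh → Wsp dm → F} (hu : Tst2 u) (hv : Tst2 v) :
    Integrable (fun p : Cfg dh × Wsp dm => inner ℂ (u p.1 p.2) (v p.1 p.2)) (mu dh dm) := by
  refine (hu.1.continuous.inner hv.1.continuous).integrable_of_hasCompactSupport ?_
  refine hu.2.mono ?_
  intro p hp
  simp only [Function.mem_support] at hp ⊢
  intro h0
  exact hp (by simp [h0])

private lemma isq {v : Cfg dh → Wsp dm → F} (hv : Tst2 v) :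
    Integrable (fun p : Cfg dh × Wsp dm => ‖v p.1 p.2‖ ^ 2) (mu dh dm) := intSq hv.1.continuous hv.2

private lemma leSum {ι : Type} [Fintype ι] (c : ι → ℝ) (u : Cfg dh → Wsp dm → F) (v : ι → Cfg dh → Wsp dm → F)
    (hu : Tst2 u) (hv : ∀ l, Tst2 (v l)) (h : ∀ y w, ‖u y w‖ ^ 2 ≤ ∑ l, c l * ‖v l y w‖ ^ 2) :
    ns2 u ≤ ∑ l, c l * ns2 (v l) := by
  have h1 : ∑ l, c l * ns2 (v l) = ∫ p, ∑ l, c l * ‖v l p.1 p.2‖ ^ 2 ∂(mu dh dm) := by
    rw [integral_finsetSum]
    · refine Finset.sum_congr rfl fun l _ => ?_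
      rw [integral_const_mul]
      rfl
    · intro l _
      exact (isq (hv l)).const_mul _
  rw [h1]
  exact integral_mono (isq hu) (integrable_finsetSum _ fun l _ => (isq (hv l)).const_mul _) fun p => h p.1 p.2

private lemma ip_wy {u v : Cfg dh → Wsp dm → F} (hu : Tst2 u) (hv : Tst2 v) :
    ip2 u v = ∫ w, ∫ y, inner ℂ (u y w) (v y w) := by
  rw [ip2, integral_prod_symm _ (intIp hu hv)]

private lemma ip_yw {u v : Cfg dh → Wsp dm → F} (hu : Tst2 u) (hv : Tst2 v) :
    ip2 u v = ∫ y, ∫ w, inner ℂ (u y w) (v y w) := by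
  rw [ip2, integral_prod _ (intIp hu hv)]

private lemma ip_re {u v : Cfg dh → Wsp dm → F} (hu : Tst2 u) (hv : Tst2 v) :
    (ip2 u v).re = ∫ p, (inner ℂ (u p.1 p.2) (v p.1 p.2)).re ∂(mu dh dm) :=
  (integral_re (intIp hu hv)).symm

private lemma intRe {u v : Cfg dh → Wsp dm → F} (hu : Tst2 u) (hv : Tst2 v) :
    Integrable (fun p : Cfg dh × Wsp dm => (inner ℂ (u p.1 p.2) (v p.1 p.2)).re) (mu dh dm) :=
  (intIp hu hv).re

private lemma cs {s : ℝ} (hs : 0 < s) {u v : Cfg dh → Wsp dm → F} (hu : Tst2 u) (hv : Tst2 v) :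
    2 * |(ip2 u v).re| ≤ s * ns2 u + s⁻¹ * ns2 v := by
  rw [ip_re hu hv]
  have h1 : |∫ p, (inner ℂ (u p.1 p.2) (v p.1 p.2)).re ∂(mu dh dm)| ≤
      ∫ p, |(inner ℂ (u p.1 p.2) (v p.1 p.2)).re| ∂(mu dh dm) := abs_integral_le_integral_abs
  have h2 : ∫ p, 2 * |(inner ℂ (u p.1 p.2) (v p.1 p.2)).re| ∂(mu dh dm) ≤
      ∫ p, (s * ‖u p.1 p.2‖ ^ 2 + s⁻¹ * ‖v p.1 p.2‖ ^ 2) ∂(mu dh dm) := by
    refine integral_mono ((intRe hu hv).abs.const_mul _)
      (((isq hu).const_mul _).add ((isq hv).const_mul _)) fun p => ?_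
    have h3 : |(inner ℂ (u p.1 p.2) (v p.1 p.2)).re| ≤ ‖u p.1 p.2‖ * ‖v p.1 p.2‖ :=
      (Complex.abs_re_le_norm _).trans (norm_inner_le_norm _ _)
    have h4 : 2 * (‖u p.1 p.2‖ * ‖v p.1 p.2‖) ≤ s * ‖u p.1 p.2‖ ^ 2 + s⁻¹ * ‖v p.1 p.2‖ ^ 2 := by
      have h5 : 0 ≤ s⁻¹ * (s * ‖u p.1 p.2‖ - ‖v p.1 p.2‖) ^ 2 := by positivity
      have h6 : s⁻¹ * (s * ‖u p.1 p.2‖ - ‖v p.1 p.2‖) ^ 2 =
          s * ‖u p.1 p.2‖ ^ 2 + s⁻¹ * ‖v p.1 p.2‖ ^ 2 - 2 * (‖u p.1 p.2‖ * ‖v p.1 p.2‖) := by
        field_simp
        ring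
      linarith
    exact (mul_le_mul_of_nonneg_left h3 zero_le_two).trans h4
  rw [integral_const_mul, integral_add ((isq hu).const_mul _) ((isq hv).const_mul _), integral_const_mul,
    integral_const_mul] at h2
  exact (mul_le_mul_of_nonneg_left h1 zero_le_two).trans h2

private lemma nsAdd {u v : Cfg dh → Wsp dm → F} (hu : Tst2 u) (hv : Tst2 v) :
    ns2 (fun y w => u y w + v y w) = ns2 u + ns2 v + 2 * (ip2 u v).re := by
  rw [ip_re hu hv]
  have h1 : ns2 (fun y w => u y w + v y w) =
      ∫ p, ((‖u p.1 p.2‖ ^ 2 + ‖v p.1 p.2‖ ^ 2) + 2 * (inner ℂ (u p.1 p.2) (v p.1 p.2)).re) ∂(mu dh dm) := by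
    rw [ns2]
    refine integral_congr_ae (Eventually.of_forall fun p => ?_)
    have := norm_add_sq (𝕜 := ℂ) (u p.1 p.2) (v p.1 p.2)
    simp only [RCLike.re_eq_complex_re] at this
    simp only [this]
    ring
  have hi : Integrable (fun p : Cfg dh × Wsp dm => ‖u p.1 p.2‖ ^ 2 + ‖v p.1 p.2‖ ^ 2) (mu dh dm) :=
    (isq hu).add (isq hv)
  rw [h1, integral_add hi ((intRe hu hv).const_mul _), integral_add (isq hu) (isq hv), integral_const_mul]
  rfl

private lemma cont_w2 {v : Cfg dh → Wsp dm → F} (hv : Tst2 v) :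
    Continuous (fun p : Cfg dh × Wsp dm => mul2 (fun _ w => ‖w‖) v p.1 p.2) := by
  unfold mul2
  exact (Complex.continuous_ofReal.comp (continuous_norm.comp continuous_snd)).smul hv.1.continuous

private lemma cs_w2 {v : Cfg dh → Wsp dm → F} (hv : Tst2 v) :
    HasCompactSupport (fun p : Cfg dh × Wsp dm => mul2 (fun _ w => ‖w‖) v p.1 p.2) := by
  refine hv.2.mono ?_
  intro p hp
  simp only [Function.mem_support] at hp ⊢
  intro h0
  exact hp (by simp [mul2, h0])

end CB925

open CB925 in
/-- **C-CalcB** integration on the slice -/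
theorem calcB (dh dm : ℕ) (F : Type*) [NormedAddCommGroup F] [InnerProductSpace ℂ F] :
    CalcA dh dm F → CalcB dh dm F := fun hA =>
  { int_sq := fun v hv => isq hv
    int_ip := fun u v hu hv => intIp hu hv
    yw := fun v hv => CB925.yw hv.1.continuous hv.2
    wy := fun v hv => CB925.wy hv.1.continuous hv.2
    ip_wy := fun u v hu hv => CB925.ip_wy hu hv
    nonneg := fun v => integral_nonneg fun p => by positivity
    ns_add := fun u v hu hv => nsAdd hu hv
    ns_add_le := fun u v hu hv => by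
      have h := leSum (ι := Fin 2) (fun _ => 2) (fun y w => u y w + v y w) ![u, v] (hA.add u v hu hv)
        (by intro l; fin_cases l <;> simpa using by assumption) (by
          intro y w
          rw [Fin.sum_univ_two]
          simp only [Matrix.cons_val_zero, Matrix.cons_val_one]
          have h1 : ‖u y w + v y w‖ ≤ ‖u y w‖ + ‖v y w‖ := norm_add_le _ _
          nlinarith [norm_nonneg (u y w + v y w), norm_nonneg (u y w), norm_nonneg (v y w),
            sq_nonneg (‖u y w‖ - ‖v y w‖)])
      rw [Fin.sum_univ_two] at h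
      simpa using h
    ns_add_ge := fun u v hu hv => by
      have h := leSum (ι := Fin 2) (fun _ => 2) u ![fun y w => u y w + v y w, v] hu
        (by
          intro l
          fin_cases l
          · exact hA.add u v hu hv
          · exact hv) (by
          intro y w
          rw [Fin.sum_univ_two]
          simp only [Matrix.cons_val_zero, Matrix.cons_val_one]
          have h1 : ‖u y w‖ ≤ ‖u y w + v y w‖ + ‖v y w‖ := by
            have := norm_sub_le (u y w + v y w) (v y w)
            rwa [add_sub_cancel_right] at this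
          nlinarith [norm_nonneg (u y w + v y w), norm_nonneg (u y w), norm_nonneg (v y w),
            sq_nonneg (‖u y w + v y w‖ - ‖v y w‖)])
      rw [Fin.sum_univ_two] at h
      simp only [Matrix.cons_val_zero, Matrix.cons_val_one] at h
      linarith
    ns_smul := fun c v => by
      simp only [ns2, norm_smul, mul_pow]
      rw [integral_const_mul]
    ns_neg := fun v => by
      have := int_rfe (dh := dh) (dm := dm) (fun p => ‖v p.1 p.2‖ ^ 2)
      exact this
    le_sum := fun ι _ c u v hu hv h => leSum c u v hu hv h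
    mono := fun c u v hu hv h => by
      have := leSum (ι := Unit) (fun _ => c) u (fun _ => v) hu (fun _ => hv) (by simpa using h)
      simpa using this
    cs := fun s u v hs hu hv => CB925.cs hs hu hv
    conj := fun u v => by
      rw [ip2, ip2, ← integral_conj]
      refine integral_congr_ae (Eventually.of_forall fun p => ?_)
      exact (inner_conj_symm _ _).symm
    ip_add := fun u v z hu hv hz => by
      have h : ip2 u (fun y w => v y w + z y w) =
          ∫ p, (inner ℂ (u p.1 p.2) (v p.1 p.2) + inner ℂ (u p.1 p.2) (z p.1 p.2)) ∂(mu dh dm) := by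
        rw [ip2]
        refine integral_congr_ae (Eventually.of_forall fun p => ?_)
        exact inner_add_right _ _ _
      rw [h, integral_add (intIp hu hv) (intIp hu hz)]
      rfl
    ip_smul := fun c u v => by
      simp only [ip2, inner_smul_right]
      rw [integral_const_mul]
    ip_mul := fun c u v => by
      simp only [ip2, mul2, inner_smul_right, inner_smul_left, Complex.conj_ofReal]
    ibp_y := fun i A u v hu hv => by
      rw [CB925.ip_wy (hA.py i A u hu) hv, CB925.ip_wy hu (hA.py i A v hv), ← integral_neg]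
      refine integral_congr_ae (Eventually.of_forall fun w => ?_)
      exact integral_inner_pd (fun y => u y w) (fun y => v y w) ((hA.sly u hu w).1.of_le (by simp))
        ((hA.sly v hv w).1.of_le (by simp)) (hA.sly u hu w).2 i A
    ibp_w := fun j B u v hu hv => by
      rw [ip_yw (hA.pw j B u hu) hv, ip_yw hu (hA.pw j B v hv), ← integral_neg]
      refine integral_congr_ae (Eventually.of_forall fun y => ?_)
      exact integral_inner_fderiv volume (u y) (v y) ((hA.slw u hu y).1.of_le (by simp))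
        ((hA.slw v hv y).1.of_le (by simp)) (hA.slw u hu y).2 (EuclideanSpace.single (j, B) 1)
    refl := fun u v => by
      have := int_rfe (dh := dh) (dm := dm) (fun p => inner ℂ (u p.1 p.2) (v p.1 p.2))
      exact this
    W2_eq := fun v hv => by
      have hk : ∀ k, Tst2 (mw k v) := fun k => by
        refine hA.mul (fun _ w => w k) v ?_ hv
        exact ((EuclideanSpace.proj k : Wsp dm →L[ℝ] ℝ).contDiff).comp contDiff_snd
      have h1 : ∑ k, ns2 (mw k v) = ∫ p, ∑ k, ‖mw k v p.1 p.2‖ ^ 2 ∂(mu dh dm) := by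
        rw [integral_finsetSum]
        · rfl
        · intro k _; exact isq (hk k)
      rw [h1, W2, ns2]
      refine integral_congr_ae (Eventually.of_forall fun p => ?_)
      simp only [mw, mul2, norm_smul, mul_pow, Complex.norm_real, Real.norm_eq_abs, sq_abs]
      rw [← Finset.sum_mul, EuclideanSpace.real_norm_sq_eq]
    W2_yw := fun v hv => by
      have := CB925.yw (cont_w2 hv) (cs_w2 hv)
      exact this }

end Vale.Agent.P353.Z.AN
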