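import Vale.Agent.P353.AN.C.Stmt
import Vale.Agent.P353.AN.A.Bd

/-! # P353, all `N`, block C: bounds for the coefficients near the reference point -/

open MeasureTheory Filter Topology
open scoped ContDiff

namespace Vale.Agent.P353.Z.AN

variable {d dh dm : ℕ} {F : Type*} [NormedAddCommGroup F] [InnerProductSpace ℂ F]

/-- the entries of `D_i` are linear -/
private lemma cf_lin (S : Setup d F) (φ : Spl dh dm d) (i : Fin 9) (B E : Fin dm) (y e : Cfg dh) :
    fderiv ℝ (fun y' => S.Dy φ i y' B E) y e = S.Dy φ i e B E := by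
  have h : (fun y' : Cfg dh => S.Dy φ i y' B E) =
      ((∑ A, S.f (φ (Sum.inr B)) (φ (Sum.inl A)) (φ (Sum.inr E)) •
        (EuclideanSpace.proj (i, A) : Cfg dh →L[ℝ] ℝ) : Cfg dh →L[ℝ] ℝ) : Cfg dh → ℝ) := by
    funext y'
    simp [bd_apply]
  have h2 := congrFun h e
  rw [h, ContinuousLinearMap.fderiv]
  exact h2.symm

/-- the adjugate entries are differentiable -/
private lemma cf_adj (S : Setup d F) (φ : Spl dh dm d) (B E : Fin dm) :
    Differentiable ℝ (fun y : Cfg dh => (S.Dy φ 8 y).adjugate B E) := by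
  have h : (fun y : Cfg dh => (S.Dy φ 8 y).adjugate B E) = fun y =>
      ∑ σ : Equiv.Perm (Fin dm), ((Equiv.Perm.sign σ : ℤ) : ℝ) *
        ∏ k, ((S.Dy φ 8 y).updateRow E (Pi.single B 1)) (σ k) k := by
    funext y
    rw [Matrix.adjugate_apply, Matrix.det_apply']
  rw [h]
  refine Differentiable.fun_sum fun σ _ => ?_
  refine Differentiable.const_mul ?_ _
  have hk : ContDiff ℝ ∞ (fun y : Cfg dh =>
      ∏ k, ((S.Dy φ 8 y).updateRow E (Pi.single B 1)) (σ k) k) := by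
    refine contDiff_prod fun k _ => ?_
    by_cases hk : σ k = E
    · simp only [hk, Matrix.updateRow_self]
      exact contDiff_const
    · simp only [Matrix.updateRow_ne hk]
      exact bd_cd S φ 8 _ _
  exact hk.differentiable (by simp)

private lemma cf_inv (S : Setup d F) (φ : Spl dh dm d) (y : Cfg dh) (h : bdet S φ y ≠ 0) (B E : Fin dm) :
    DifferentiableAt ℝ (fun y' => (S.Dy φ 8 y')⁻¹ B E) y := by
  have h1 : (fun y : Cfg dh => (S.Dy φ 8 y)⁻¹ B E) =
      fun y => (bdet S φ y)⁻¹ * (S.Dy φ 8 y).adjugate B E := by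
    funext y
    rw [Matrix.inv_def, Matrix.smul_apply, smul_eq_mul, Ring.inverse_eq_inv']
    rfl
  rw [h1]
  exact ((((bdet_cd S φ).differentiable (by simp)) y).inv h).mul ((cf_adj S φ B E) y)

private lemma cf_G (S : Setup d F) (φ : Spl dh dm d) (j : Fin 9) (y : Cfg dh) (h : bdet S φ y ≠ 0)
    (B E : Fin dm) : DifferentiableAt ℝ (fun y' => ((S.Dy φ 8 y')⁻¹ * S.Dy φ j y') B E) y := by
  simp only [Matrix.mul_apply]
  refine DifferentiableAt.fun_sum fun K _ => ?_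
  exact (cf_inv S φ y h B K).mul (((bd_cd S φ j K E).differentiable (by simp)) y)

/-- the derivative of `D_8⁻¹ D_j` -/
private lemma cf_dG (S : Setup d F) (φ : Spl dh dm d) (j : Fin 9) (y e : Cfg dh) (h : bdet S φ y ≠ 0)
    (B E : Fin dm) :
    fderiv ℝ (fun y' => ((S.Dy φ 8 y')⁻¹ * S.Dy φ j y') B E) y e =
      ∑ K, (S.Dy φ 8 y)⁻¹ B K * (S.Dy φ j e K E -
        ∑ L, S.Dy φ 8 e K L * ((S.Dy φ 8 y)⁻¹ * S.Dy φ j y) L E) := by
  have hu : IsUnit (S.Dy φ 8 y).det := isUnit_iff_ne_zero.2 h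
  have hopen : IsOpen {y : Cfg dh | bdet S φ y ≠ 0} :=
    isOpen_ne_fun (bdet_cd S φ).continuous continuous_const
  -- product rule
  have key : ∀ K, S.Dy φ j e K E = ∑ L, (S.Dy φ 8 y K L *
      fderiv ℝ (fun y' => ((S.Dy φ 8 y')⁻¹ * S.Dy φ j y') L E) y e +
        ((S.Dy φ 8 y)⁻¹ * S.Dy φ j y) L E * S.Dy φ 8 e K L) := by
    intro K
    have h1 : (fun y' : Cfg dh => S.Dy φ j y' K E) =ᶠ[𝓝 y]
        fun y' => ∑ L, S.Dy φ 8 y' K L * ((S.Dy φ 8 y')⁻¹ * S.Dy φ j y') L E := by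
      filter_upwards [hopen.mem_nhds h] with y' hy'
      have hu' : IsUnit (S.Dy φ 8 y').det := isUnit_iff_ne_zero.2 hy'
      have h2 : S.Dy φ 8 y' * ((S.Dy φ 8 y')⁻¹ * S.Dy φ j y') = S.Dy φ j y' := by
        rw [← Matrix.mul_assoc, Matrix.mul_nonsing_inv _ hu', Matrix.one_mul]
      have h3 := congrFun (congrFun h2 K) E
      rw [Matrix.mul_apply] at h3
      exact h3.symm
    have h4 := h1.fderiv_eq (𝕜 := ℝ)
    have h5 : HasFDerivAt (fun y' : Cfg dh => ∑ L, S.Dy φ 8 y' K L *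
        ((S.Dy φ 8 y')⁻¹ * S.Dy φ j y') L E)
        (∑ L, (S.Dy φ 8 y K L • fderiv ℝ (fun y' => ((S.Dy φ 8 y')⁻¹ * S.Dy φ j y') L E) y +
          ((S.Dy φ 8 y)⁻¹ * S.Dy φ j y) L E • fderiv ℝ (fun y' => S.Dy φ 8 y' K L) y)) y := by
      refine HasFDerivAt.fun_sum fun L _ => ?_
      exact HasFDerivAt.mul (((bd_cd S φ 8 K L).differentiable (by simp)) y).hasFDerivAt
        (cf_G S φ j y h L E).hasFDerivAt
    rw [h5.fderiv] at h4
    have h6 := congrArg (fun T : Cfg dh →L[ℝ] ℝ => T e) h4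
    simp only [cf_lin] at h6
    rw [h6]
    simp [cf_lin]
  have h7 : ∀ K, ∑ L, S.Dy φ 8 y K L * fderiv ℝ (fun y' => ((S.Dy φ 8 y')⁻¹ * S.Dy φ j y') L E) y e =
      S.Dy φ j e K E - ∑ L, S.Dy φ 8 e K L * ((S.Dy φ 8 y)⁻¹ * S.Dy φ j y) L E := by
    intro K
    rw [key K, Finset.sum_add_distrib]
    have : ∑ L, ((S.Dy φ 8 y)⁻¹ * S.Dy φ j y) L E * S.Dy φ 8 e K L =
        ∑ L, S.Dy φ 8 e K L * ((S.Dy φ 8 y)⁻¹ * S.Dy φ j y) L E :=
      Finset.sum_congr rfl fun L _ => mul_comm _ _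
    rw [this]
    ring
  have h8 : (S.Dy φ 8 y)⁻¹ * S.Dy φ 8 y = 1 := Matrix.nonsing_inv_mul _ hu
  simp only [← h7]
  simp only [Finset.mul_sum]
  rw [Finset.sum_comm]
  have h9 : ∀ L, ∑ K, (S.Dy φ 8 y)⁻¹ B K * (S.Dy φ 8 y K L *
      fderiv ℝ (fun y' => ((S.Dy φ 8 y')⁻¹ * S.Dy φ j y') L E) y e) =
      (if B = L then 1 else 0) * fderiv ℝ (fun y' => ((S.Dy φ 8 y')⁻¹ * S.Dy φ j y') L E) y e := by
    intro L
    have h10 := congrFun (congrFun h8 B) L
    rw [Matrix.mul_apply, Matrix.one_apply] at h10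
    rw [← h10, Finset.sum_mul]
    exact Finset.sum_congr rfl fun K _ => by ring
  simp only [h9]
  simp

private lemma cf_entry {M : Matrix (Fin dm) (Fin dm) ℝ} {c : ℝ} (hc : 0 ≤ c)
    (h : ∀ z : Fin dm → ℝ, ∑ B, (∑ E, M B E * z E) ^ 2 ≤ c ^ 2 * ∑ B, z B ^ 2) (B E : Fin dm) :
    |M B E| ≤ c := by
  have h1 := h (Pi.single E 1)
  have h2 : ∀ B', ∑ E', M B' E' * (Pi.single E 1 : Fin dm → ℝ) E' = M B' E := by
    intro B'
    simp [Pi.single_apply]
  have h3 : ∑ B', (Pi.single E 1 : Fin dm → ℝ) B' ^ 2 = 1 := by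
    simp [Pi.single_apply]
  simp only [h2] at h1
  rw [h3, mul_one] at h1
  have h4 : M B E ^ 2 ≤ c ^ 2 :=
    (Finset.single_le_sum (f := fun B' => M B' E ^ 2) (fun _ _ => sq_nonneg _)
      (Finset.mem_univ B)).trans h1
  exact abs_le_of_sq_le_sq h4 hc

theorem coef_stmt (S : Setup d F) (φ : Spl dh dm d) : BdStmt S → CoefStmt S φ := by
  intro hB Y hY
  obtain ⟨ε, C, hε, hC, H⟩ := hB dh dm φ Y hY
  set T : ℝ := ∑ j, ∑ B, ∑ E, ∑ i, ∑ A, |S.Dy φ j (EuclideanSpace.single (i, A) 1) B E| with hT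
  have hT0 : 0 ≤ T := Finset.sum_nonneg fun _ _ => Finset.sum_nonneg fun _ _ =>
    Finset.sum_nonneg fun _ _ => Finset.sum_nonneg fun _ _ => Finset.sum_nonneg fun _ _ => abs_nonneg _
  have hTb : ∀ j B E i A, |S.Dy φ j (EuclideanSpace.single (i, A) 1) B E| ≤ T := by
    intro j B E i A
    refine le_trans ?_ (Finset.single_le_sum
      (f := fun j => ∑ B, ∑ E, ∑ i, ∑ A, |S.Dy φ j (EuclideanSpace.single (i, A) 1) B E|)
      (fun _ _ => Finset.sum_nonneg fun _ _ => Finset.sum_nonneg fun _ _ =>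
        Finset.sum_nonneg fun _ _ => Finset.sum_nonneg fun _ _ => abs_nonneg _) (Finset.mem_univ j))
    refine le_trans ?_ (Finset.single_le_sum
      (f := fun B => ∑ E, ∑ i, ∑ A, |S.Dy φ j (EuclideanSpace.single (i, A) 1) B E|)
      (fun _ _ => Finset.sum_nonneg fun _ _ => Finset.sum_nonneg fun _ _ =>
        Finset.sum_nonneg fun _ _ => abs_nonneg _) (Finset.mem_univ B))
    refine le_trans ?_ (Finset.single_le_sum
      (f := fun E => ∑ i, ∑ A, |S.Dy φ j (EuclideanSpace.single (i, A) 1) B E|)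
      (fun _ _ => Finset.sum_nonneg fun _ _ => Finset.sum_nonneg fun _ _ => abs_nonneg _)
      (Finset.mem_univ E))
    refine le_trans ?_ (Finset.single_le_sum
      (f := fun i => ∑ A, |S.Dy φ j (EuclideanSpace.single (i, A) 1) B E|)
      (fun _ _ => Finset.sum_nonneg fun _ _ => abs_nonneg _) (Finset.mem_univ i))
    exact Finset.single_le_sum
      (f := fun A => |S.Dy φ j (EuclideanSpace.single (i, A) 1) B E|)
      (fun _ _ => abs_nonneg _) (Finset.mem_univ A)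
  have hdm : (0 : ℝ) ≤ (dm : ℝ) := Nat.cast_nonneg dm
  set G0 : ℝ := (dm : ℝ) * (C * (C + 1)) with hG0
  have hG0n : 0 ≤ G0 := by positivity
  set K0 : ℝ := (dm : ℝ) * (C * (T + (dm : ℝ) * (T * G0))) with hK0
  have hK0n : 0 ≤ K0 := by positivity
  have hC1 : C ≤ C + 1 + K0 := by linarith
  -- entries
  have hdy : ∀ R : ℝ, 0 < R → ∀ y : Cfg dh, ‖y - R • Y‖ ≤ ε * R → ∀ i B E,
      |S.Dy φ i y B E| ≤ (C + 1) * R := by
    intro R hR y hy i B E
    refine cf_entry (by positivity) (fun z => ?_) B E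
    refine ((H R y hR hy).2.2.1 i z).trans ?_
    have h1 : C * R ^ 2 ≤ ((C + 1) * R) ^ 2 := by
      rw [mul_pow]
      exact mul_le_mul_of_nonneg_right (by nlinarith) (by positivity)
    exact mul_le_mul_of_nonneg_right h1 (Finset.sum_nonneg fun _ _ => sq_nonneg _)
  have hinv : ∀ R : ℝ, 0 < R → ∀ y : Cfg dh, ‖y - R • Y‖ ≤ ε * R → ∀ B E,
      |(S.Dy φ 8 y)⁻¹ B E| ≤ C / R := fun R hR y hy => (H R y hR hy).2.2.2.1
  refine ⟨ε, C + 1 + K0, hε, by linarith, ?_, ?_, ?_, ?_, ?_⟩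
  · exact fun R hR y hy => (H R y hR hy).1
  · intro R hR y hy i B E
    exact (hdy R hR y hy i B E).trans (mul_le_mul_of_nonneg_right (by linarith) hR.le)
  · intro R hR y hy B E
    exact (hinv R hR y hy B E).trans (div_le_div_of_nonneg_right hC1 hR.le)
  · intro R hR y hy j B E i A
    rw [cf_dG S φ j y _ (H R y hR hy).1 B E]
    have hGb : ∀ L, |((S.Dy φ 8 y)⁻¹ * S.Dy φ j y) L E| ≤ G0 := by
      intro L
      rw [Matrix.mul_apply]
      refine (Finset.abs_sum_le_sum_abs _ _).trans ?_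
      have h1 : ∀ K ∈ (Finset.univ : Finset (Fin dm)),
          |(S.Dy φ 8 y)⁻¹ L K * S.Dy φ j y K E| ≤ C * (C + 1) := by
        intro K _
        rw [abs_mul]
        calc |(S.Dy φ 8 y)⁻¹ L K| * |S.Dy φ j y K E| ≤ (C / R) * ((C + 1) * R) :=
              mul_le_mul (hinv R hR y hy L K) (hdy R hR y hy j K E) (abs_nonneg _) (by positivity)
          _ = C * (C + 1) := by field_simp
      refine (Finset.sum_le_sum h1).trans ?_
      simp [hG0]
    refine (Finset.abs_sum_le_sum_abs _ _).trans ?_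
    have h2 : ∀ K ∈ (Finset.univ : Finset (Fin dm)),
        |(S.Dy φ 8 y)⁻¹ B K * (S.Dy φ j (EuclideanSpace.single (i, A) 1) K E -
        ∑ L, S.Dy φ 8 (EuclideanSpace.single (i, A) 1) K L *
          ((S.Dy φ 8 y)⁻¹ * S.Dy φ j y) L E)| ≤ (C / R) * (T + (dm : ℝ) * (T * G0)) := by
      intro K _
      rw [abs_mul]
      refine mul_le_mul (hinv R hR y hy B K) ?_ (abs_nonneg _) (by positivity)
      refine (abs_sub _ _).trans (add_le_add (hTb _ _ _ _ _) ?_)
      refine (Finset.abs_sum_le_sum_abs _ _).trans ?_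
      have h3 : ∀ L ∈ (Finset.univ : Finset (Fin dm)),
          |S.Dy φ 8 (EuclideanSpace.single (i, A) 1) K L *
            ((S.Dy φ 8 y)⁻¹ * S.Dy φ j y) L E| ≤ T * G0 := by
        intro L _
        rw [abs_mul]
        exact mul_le_mul (hTb _ _ _ _ _) (hGb L) (abs_nonneg _) hT0
      refine (Finset.sum_le_sum h3).trans ?_
      simp
    refine (Finset.sum_le_sum h2).trans ?_
    rw [Finset.sum_const, Finset.card_univ, Fintype.card_fin, nsmul_eq_mul]
    have h4 : (dm : ℝ) * (C / R * (T + (dm : ℝ) * (T * G0))) = K0 / R := by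
      rw [hK0]
      ring
    rw [h4]
    exact div_le_div_of_nonneg_right (by linarith) hR.le
  · intro R hR y hy w hw v β
    refine ((H R y hR hy).2.2.2.2.2 w hw v β).trans ?_
    refine mul_le_mul_of_nonneg_right hC1 ?_
    refine add_nonneg (mul_nonneg (by positivity) (add_nonneg ?_ ?_)) (by positivity)
    · exact Finset.sum_nonneg fun _ _ => Finset.sum_nonneg fun _ _ => norm_nonneg _
    · exact Finset.sum_nonneg fun _ _ => Finset.sum_nonneg fun _ _ => norm_nonneg _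

end Vale.Agent.P353.Z.AN
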