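import Vale.Agent.P353.AN.C.Stmt
import Vale.Agent.P353.Z.Ana

/-! # P353, all `N`, block C: the cross term -/

open MeasureTheory Filter Topology
open scoped ContDiff

namespace Vale.Agent.P353.Z.AN

variable {d dh dm : ℕ} {F : Type*} [NormedAddCommGroup F] [InnerProductSpace ℂ F]

namespace CrossAux

variable (S : Setup d F) (φ : Spl dh dm d) (N : Fin 9 → Matrix (Fin 16) (Fin 16) ℂ)

/-- zero order part of the block diagonal supercharge -/
noncomputable def HH (m : ℝ) (β : Fin 16) (y : Cfg dh) : F →L[ℂ] F :=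
  (1 / 2 : ℂ) • (∑ A, ∑ i, ∑ j,
    ((S.κ * ∑ B, ∑ C, S.f (φ (Sum.inl A)) (φ (Sum.inl B)) (φ (Sum.inl C)) * y (i, B) * y (j, C) : ℝ) : ℂ) •
      S.vec (S.g2 i j) (φ (Sum.inl A)) β) + (m : ℂ) • S.Mh φ N β y

lemma Qhm_eq (m : ℝ) (β : Fin 16) (v : Cfg dh → Wsp dm → F) (y : Cfg dh) (w : Wsp dm) :
    S.Qhm φ N m β v y w = (-Complex.I) • (∑ i, ∑ A, S.vec (S.g i) (φ (Sum.inl A)) β (Z.py i A v y w)) +
      HH S φ N m β y (v y w) := by
  simp only [Setup.Qhm, Setup.Qh, HH, _root_.add_apply, _root_.smul_apply, _root_.sum_apply]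
  abel

/-- operators anticommuting with the block diagonal fermions -/
def Anti (τ : F →L[ℂ] F) : Prop :=
  ∀ X A β u, S.vec X (φ (Sum.inl A)) β (τ u) = -τ (S.vec X (φ (Sum.inl A)) β u)

lemma anti_vec (X : Matrix (Fin 16) (Fin 16) ℂ) (B : Fin dm) (β : Fin 16) :
    Anti S φ (S.vec X (φ (Sum.inr B)) β) := by
  intro X' A β' u
  have h := S.vec_anti X' X (φ (Sum.inl A)) (φ (Sum.inr B)) β' β
  have hne : φ (Sum.inl A) ≠ φ (Sum.inr B) := by
    intro h0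
    exact absurd (φ.injective h0) (by simp)
  rw [if_neg hne] at h
  have h2 := congrArg (fun T : F →L[ℂ] F => T u) h
  simp only [_root_.add_apply, _root_.zero_apply] at h2
  exact eq_neg_of_add_eq_zero_left h2

lemma HH_anti {τ : F →L[ℂ] F} (hτ : Anti S φ τ) (m : ℝ) (β : Fin 16) (y : Cfg dh) (u : F) :
    HH S φ N m β y (τ u) = -τ (HH S φ N m β y u) := by
  simp only [HH, Setup.Mh, _root_.add_apply, _root_.smul_apply, _root_.sum_apply, hτ _ _ _ _,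
    map_add, map_smul, map_sum, smul_neg, Finset.sum_neg_distrib, neg_add]

lemma Qhm_tau (hA : CalcA dh dm F) {τ : F →L[ℂ] F} (hτ : Anti S φ τ) (ι : ℂ) (m : ℝ) (β : Fin 16)
    (v : Cfg dh → Wsp dm → F) (hv : Tst2 v) (y : Cfg dh) (w : Wsp dm) :
    S.Qhm φ N m β (fun y w => ι • τ (v y w)) y w = -(ι • τ (S.Qhm φ N m β v y w)) := by
  have h1 : ∀ i A, Z.py i A (fun y w => ι • τ (v y w)) y w = ι • τ (Z.py i A v y w) := by
    intro i A
    rw [hA.py_smul i A ι (fun y w => τ (v y w)) (hA.clm τ v hv) y w, hA.py_clm i A τ v hv y w]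
  rw [Qhm_eq, Qhm_eq]
  simp only [h1, map_smul, hτ _ _ _ _, HH_anti S φ N hτ, map_add, map_sum, smul_neg,
    Finset.sum_neg_distrib, smul_add, Finset.smul_sum, neg_add, neg_smul, smul_comm ι, map_neg]

lemma Qhm_vec (hA : CalcA dh dm F) (X : Matrix (Fin 16) (Fin 16) ℂ) (B : Fin dm) (γ : Fin 16) (m : ℝ) (β : Fin 16)
    (v : Cfg dh → Wsp dm → F) (hv : Tst2 v) (y : Cfg dh) (w : Wsp dm) :
    S.Qhm φ N m β (fun y w => S.vec X (φ (Sum.inr B)) γ (v y w)) y w =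
      -(S.vec X (φ (Sum.inr B)) γ (S.Qhm φ N m β v y w)) := by
  have h := Qhm_tau S φ N hA (anti_vec S φ X B γ) 1 m β v hv y w
  simpa using h

lemma diff_w {v : Cfg dh → Wsp dm → F} (hA : CalcA dh dm F) (hv : Tst2 v) (y : Cfg dh) (w : Wsp dm) :
    DifferentiableAt ℝ (v y) w :=
  ((hA.slw v hv y).1.differentiable (by simp)).differentiableAt

lemma Qhm_pw (hA : CalcA dh dm F) (j : Fin 8) (B : Fin dm) (m : ℝ) (β : Fin 16)
    (v : Cfg dh → Wsp dm → F) (hv : Tst2 v) (y : Cfg dh) (w : Wsp dm) :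
    Z.pw j B (S.Qhm φ N m β v) y w = S.Qhm φ N m β (Z.pw j B v) y w := by
  have hf : S.Qhm φ N m β v y = fun w => (-Complex.I) •
      (∑ i, ∑ A, S.vec (S.g i) (φ (Sum.inl A)) β (Z.py i A v y w)) + HH S φ N m β y (v y w) :=
    funext fun w => Qhm_eq S φ N m β v y w
  have h1 : ∀ i A, HasFDerivAt (fun w => S.vec (S.g i) (φ (Sum.inl A)) β (Z.py i A v y w))
      (((S.vec (S.g i) (φ (Sum.inl A)) β).restrictScalars ℝ).comp (fderiv ℝ (Z.py i A v y) w)) w := fun i A =>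
    ((S.vec (S.g i) (φ (Sum.inl A)) β).restrictScalars ℝ).hasFDerivAt.comp w
      (diff_w hA (hA.py i A v hv) y w).hasFDerivAt
  have h2 : HasFDerivAt (fun w => HH S φ N m β y (v y w))
      (((HH S φ N m β y).restrictScalars ℝ).comp (fderiv ℝ (v y) w)) w :=
    ((HH S φ N m β y).restrictScalars ℝ).hasFDerivAt.comp w (diff_w hA hv y w).hasFDerivAt
  have h3 := ((HasFDerivAt.fun_sum fun i (_ : i ∈ (Finset.univ : Finset (Fin 9))) =>
    HasFDerivAt.fun_sum fun A (_ : A ∈ (Finset.univ : Finset (Fin dh))) => h1 i A).const_smul (-Complex.I)).add h2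
  have h4 : Z.pw j B (S.Qhm φ N m β v) y w = (-Complex.I) •
      (∑ i, ∑ A, S.vec (S.g i) (φ (Sum.inl A)) β (Z.pw j B (Z.py i A v) y w)) + HH S φ N m β y (Z.pw j B v y w) := by
    rw [Z.pw, hf]
    erw [h3.fderiv]
    simp only [_root_.add_apply, _root_.smul_apply, _root_.sum_apply, ContinuousLinearMap.comp_apply,
      ContinuousLinearMap.coe_restrictScalars', Z.pw]
  rw [h4, Qhm_eq]
  simp only [hA.comm _ _ _ _ v hv]

lemma Qhm_mw (hA : CalcA dh dm F) (k : Fin 8 × Fin dm) (m : ℝ) (β : Fin 16)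
    (v : Cfg dh → Wsp dm → F) (hv : Tst2 v) (y : Cfg dh) (w : Wsp dm) :
    mw k (S.Qhm φ N m β v) y w = S.Qhm φ N m β (mw k v) y w := by
  rw [Qhm_eq]
  simp only [hA.py_mw _ _ k v hv]
  simp only [mw, mul2]
  rw [Qhm_eq]
  simp only [map_smul, smul_add, Finset.smul_sum, smul_comm ((w k : ℝ) : ℂ)]

lemma Qhm_mulc (hA : CalcA dh dm F) (c : Cfg dh → ℝ) (m : ℝ) (β : Fin 16)
    (v : Cfg dh → Wsp dm → F) (hv : Tst2 v) (y : Cfg dh) (w : Wsp dm) (hc : DifferentiableAt ℝ c y) :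
    S.Qhm φ N m β (mul2 (fun y _ => c y) v) y w = ((c y : ℝ) : ℂ) • S.Qhm φ N m β v y w +
      ∑ i, ∑ A, (-Complex.I) • (((fderiv ℝ c y (EuclideanSpace.single (i, A) 1) : ℝ) : ℂ) •
        S.vec (S.g i) (φ (Sum.inl A)) β (v y w)) := by
  rw [Qhm_eq, Qhm_eq]
  simp only [hA.py_mul _ _ c v hv y w hc, mul2, map_smul, map_add, Finset.sum_add_distrib, smul_add,
    Finset.smul_sum, smul_comm ((c y : ℝ) : ℂ)]
  abel

/-- symmetric operators on slice functions, local in `y`, anticommuting with the block diagonal fermions -/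
structure LOp (L : (Cfg dh → Wsp dm → F) → Cfg dh → Wsp dm → F) : Prop where
  tst : ∀ g, Tst2 g → Tst2 (L g)
  sup : ∀ (Y : Cfg dh) (ε R : ℝ) g, Tst2 g → Sup2 Y ε R g → Sup2 Y ε R (L g)
  mulc : ∀ (c : Cfg dh → ℝ) g, Tst2 g → L (mul2 (fun y _ => c y) g) = mul2 (fun y _ => c y) (L g)
  symm : ∀ g h, Tst2 g → Tst2 h → ip2 (L g) h = ip2 g (L h)
  anti : ∀ m β g, Tst2 g → S.Qhm φ N m β (L g) = fun y w => -(L (S.Qhm φ N m β g) y w)
  antiv : ∀ i A β g, Tst2 g → L (fun y w => S.vec (S.g i) (φ (Sum.inl A)) β (g y w)) =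
    fun y w => -(S.vec (S.g i) (φ (Sum.inl A)) β (L g y w))

lemma ip2_smul_left (c : ℂ) (u v : Cfg dh → Wsp dm → F) :
    ip2 (fun y w => c • u y w) v = (starRingEnd ℂ) c * ip2 u v := by
  simp only [ip2, inner_smul_left]
  exact integral_const_mul _ _

lemma ip2_smul_right (c : ℂ) (u v : Cfg dh → Wsp dm → F) :
    ip2 u (fun y w => c • v y w) = c * ip2 u v := by
  simp only [ip2, inner_smul_right]
  exact integral_const_mul _ _

lemma ip2_vec (X : Matrix (Fin 16) (Fin 16) ℂ) (hX : ∀ α β, (X α β).im = 0) (A : Fin d) (β : Fin 16)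
    (u v : Cfg dh → Wsp dm → F) :
    ip2 (fun y w => S.vec X A β (u y w)) v = ip2 u (fun y w => S.vec X A β (v y w)) := by
  simp only [ip2, S.vec_symm X hX]

lemma vec_anti_swap (X X' : Matrix (Fin 16) (Fin 16) ℂ) (A : Fin dh) (B : Fin dm) (β γ : Fin 16) (u : F) :
    S.vec X (φ (Sum.inr B)) γ (S.vec X' (φ (Sum.inl A)) β u) =
      -(S.vec X' (φ (Sum.inl A)) β (S.vec X (φ (Sum.inr B)) γ u)) := by
  rw [anti_vec S φ X B γ X' A β u, neg_neg]

lemma lop_pw (hA : CalcA dh dm F) (hB : CalcB dh dm F) (X : Matrix (Fin 16) (Fin 16) ℂ)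
    (hX : ∀ α β, (X α β).im = 0) (B : Fin dm) (γ : Fin 16) (ι : ℂ) (hι : (starRingEnd ℂ) ι = -ι)
    (j : Fin 8) (E : Fin dm) :
    LOp S φ N (fun g y w => ι • S.vec X (φ (Sum.inr B)) γ (Z.pw j E g y w)) where
  tst g hg := hA.smul ι _ (hA.clm _ _ (hA.pw j E g hg))
  sup Y ε R g hg hs y w h := hA.supw Y ε R j E g hg hs y w fun h0 => h (by
    show ι • S.vec X (φ (Sum.inr B)) γ (Z.pw j E g y w) = 0
    rw [h0, map_zero, smul_zero])
  mulc c g hg := by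
    funext y w
    simp only [hA.pw_mul j E c g hg y w, mul2, map_smul, smul_comm ι]
  symm g h hg hh := by
    have h1 : ip2 (fun y w => ι • S.vec X (φ (Sum.inr B)) γ (Z.pw j E g y w)) h =
        (starRingEnd ℂ) ι * ip2 (Z.pw j E g) (fun y w => S.vec X (φ (Sum.inr B)) γ (h y w)) := by
      rw [ip2_smul_left ι (fun y w => S.vec X (φ (Sum.inr B)) γ (Z.pw j E g y w)) h,
        ip2_vec S X hX (φ (Sum.inr B)) γ (Z.pw j E g) h]
    have h2 : Z.pw j E (fun y w => S.vec X (φ (Sum.inr B)) γ (h y w)) =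
        fun y w => S.vec X (φ (Sum.inr B)) γ (Z.pw j E h y w) := by
      funext y w
      exact hA.pw_clm j E _ h hh y w
    rw [h1, hB.ibp_w j E g _ hg (hA.clm _ _ hh), h2,
      ip2_smul_right ι g (fun y w => S.vec X (φ (Sum.inr B)) γ (Z.pw j E h y w)), hι]
    ring
  anti m β g hg := by
    funext y w
    rw [Qhm_tau S φ N hA (anti_vec S φ X B γ) ι m β (Z.pw j E g) (hA.pw j E g hg) y w,
      Qhm_pw S φ N hA j E m β g hg y w]
  antiv i A β g hg := by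
    funext y w
    simp only [hA.pw_clm j E _ g hg y w, map_smul]
    rw [vec_anti_swap S φ, smul_neg]

lemma tst_mw (hA : CalcA dh dm F) (k : Fin 8 × Fin dm) (g : Cfg dh → Wsp dm → F) (hg : Tst2 g) :
    Tst2 (mw k g) := by
  refine hA.mul _ g ?_ hg
  exact (EuclideanSpace.proj (𝕜 := ℝ) k).contDiff.comp contDiff_snd

lemma lop_mw (hA : CalcA dh dm F) (hB : CalcB dh dm F) (X : Matrix (Fin 16) (Fin 16) ℂ)
    (hX : ∀ α β, (X α β).im = 0) (B : Fin dm) (γ : Fin 16) (ι : ℂ) (hι : (starRingEnd ℂ) ι = ι)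
    (k : Fin 8 × Fin dm) :
    LOp S φ N (fun g y w => ι • S.vec X (φ (Sum.inr B)) γ (mw k g y w)) where
  tst g hg := hA.smul ι _ (hA.clm _ _ (tst_mw hA k g hg))
  sup Y ε R g hg hs y w h := hs y w fun h0 => h (by
    simp only [mw, mul2]
    rw [h0, smul_zero, map_zero, smul_zero])
  mulc c g hg := by
    funext y w
    simp only [mw, mul2, map_smul]
    rw [smul_comm ((c y : ℝ) : ℂ) ι, smul_comm ((c y : ℝ) : ℂ) ((w k : ℝ) : ℂ)]
  symm g h hg hh := by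
    have h1 : ip2 (fun y w => ι • S.vec X (φ (Sum.inr B)) γ (mw k g y w)) h =
        (starRingEnd ℂ) ι * ip2 (mw k g) (fun y w => S.vec X (φ (Sum.inr B)) γ (h y w)) := by
      rw [ip2_smul_left ι (fun y w => S.vec X (φ (Sum.inr B)) γ (mw k g y w)) h,
        ip2_vec S X hX (φ (Sum.inr B)) γ (mw k g) h]
    have h2 : mul2 (fun _ w => w k) (fun y w => S.vec X (φ (Sum.inr B)) γ (h y w)) =
        fun y w => S.vec X (φ (Sum.inr B)) γ (mw k h y w) := by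
      funext y w
      simp only [mw, mul2, map_smul]
    have h3 : ip2 (mw k g) (fun y w => S.vec X (φ (Sum.inr B)) γ (h y w)) =
        ip2 g (mul2 (fun _ w => w k) (fun y w => S.vec X (φ (Sum.inr B)) γ (h y w))) :=
      hB.ip_mul (fun _ w => w k) g _
    rw [h1, h3, h2, ip2_smul_right ι g (fun y w => S.vec X (φ (Sum.inr B)) γ (mw k h y w)), hι]
  anti m β g hg := by
    funext y w
    rw [Qhm_tau S φ N hA (anti_vec S φ X B γ) ι m β (mw k g) (tst_mw hA k g hg) y w,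
      Qhm_mw S φ N hA k m β g hg y w]
  antiv i A β g hg := by
    funext y w
    simp only [mw, mul2, map_smul]
    rw [vec_anti_swap S φ]
    simp only [smul_neg]

/-! ### coefficients -/

lemma contDiff_Dy (i : Fin 9) (B C : Fin dm) : ContDiff ℝ ∞ (fun y : Cfg dh => S.Dy φ i y B C) := by
  simp only [Setup.Dy, Setup.Dm, Matrix.of_apply]
  refine ContDiff.sum fun A _ => ?_
  exact contDiff_const.mul (EuclideanSpace.proj (𝕜 := ℝ) (i, A)).contDiff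

lemma contDiff_det {ι : Type*} [Fintype ι] [DecidableEq ι] {M : Cfg dh → Matrix ι ι ℝ}
    (hM : ∀ i j, ContDiff ℝ ∞ fun y => M y i j) : ContDiff ℝ ∞ fun y => (M y).det := by
  simp only [Matrix.det_apply]
  refine ContDiff.sum fun σ _ => ?_
  exact ContDiff.const_smul _ (contDiff_prod fun i _ => hM _ _)

/-- the set of invertible points -/
def UU : Set (Cfg dh) := {y | (S.Dy φ 8 y).det ≠ 0}

lemma isOpen_UU : IsOpen (UU S φ) :=
  isOpen_ne_fun (contDiff_det (contDiff_Dy S φ 8)).continuous continuous_const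

lemma contDiffOn_inv (B E : Fin dm) : ContDiffOn ℝ ∞ (fun y : Cfg dh => (S.Dy φ 8 y)⁻¹ B E) (UU S φ) := by
  have h1 : (fun y : Cfg dh => (S.Dy φ 8 y)⁻¹ B E) = fun y =>
      ((S.Dy φ 8 y).det)⁻¹ * ((S.Dy φ 8 y).updateRow E (Pi.single B 1)).det := by
    funext y
    rw [Matrix.inv_def, Matrix.smul_apply, smul_eq_mul, Ring.inverse_eq_inv', Matrix.adjugate_apply]
  rw [h1]
  refine ContDiffOn.mul ?_ ?_
  · exact (contDiff_det (contDiff_Dy S φ 8)).contDiffOn.inv fun y hy => hy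
  · refine (contDiff_det fun i j => ?_).contDiffOn
    by_cases hi : i = E
    · subst hi
      simp only [Matrix.updateRow_self]
      exact contDiff_const
    · simp only [Matrix.updateRow_ne hi]
      exact contDiff_Dy S φ 8 i j

lemma contDiffOn_cf (j : Fin 9) (B E : Fin dm) :
    ContDiffOn ℝ ∞ (fun y : Cfg dh => ((S.Dy φ 8 y)⁻¹ * S.Dy φ j y) B E) (UU S φ) := by
  simp only [Matrix.mul_apply]
  refine ContDiffOn.sum fun C _ => ?_
  exact (contDiffOn_inv S φ B C).mul (contDiff_Dy S φ j C E).contDiffOn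

lemma contDiffOn_pd {c : Cfg dh → ℝ} (hc : ContDiffOn ℝ ∞ c (UU S φ)) (i : Fin 9) (A : Fin dh) :
    ContDiffOn ℝ ∞ (fun y => fderiv ℝ c y (EuclideanSpace.single (i, A) 1)) (UU S φ) :=
  (hc.fderiv_of_isOpen (isOpen_UU S φ) (by simp)).clm_apply contDiffOn_const

variable {S φ N}

lemma tst_mulc (hA : CalcA dh dm F) {Y : Cfg dh} {ε0 C0 : ℝ} (hcf : S.CoefBd φ Y ε0 C0) {c : Cfg dh → ℝ}
    (hc : ContDiffOn ℝ ∞ c (UU S φ)) {R : ℝ} (hR : 0 < R) {v : Cfg dh → Wsp dm → F} (hv : Tst2 v)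
    (hs : Sup2 Y ε0 R v) : Tst2 (mul2 (fun y _ => c y) v) := by
  refine hA.mulOn c v {y | ‖y - R • Y‖ ≤ ε0 * R} (UU S φ) ?_ (isOpen_UU S φ) ?_ hc ?_ hv
  · exact isClosed_le (by fun_prop) continuous_const
  · intro y hy
    exact hcf.det R hR y hy
  · intro y w h
    exact (hs y w h).1

lemma sum_ip {κ : Type*} (hA : CalcA dh dm F) (hB : CalcB dh dm F) (t : Finset κ) (u : Cfg dh → Wsp dm → F)
    (v : κ → Cfg dh → Wsp dm → F) (hu : Tst2 u) (hv : ∀ k, Tst2 (v k)) :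
    Tst2 (fun y w => ∑ k ∈ t, v k y w) ∧ ip2 u (fun y w => ∑ k ∈ t, v k y w) = ∑ k ∈ t, ip2 u (v k) := by
  classical
  induction t using Finset.induction_on with
  | empty =>
    refine ⟨by simpa using hA.zero, ?_⟩
    simp [ip2]
  | insert k t hk ih =>
    simp only [Finset.sum_insert hk]
    refine ⟨hA.add _ _ (hv k) ih.1, ?_⟩
    rw [hB.ip_add u (v k) _ hu (hv k) ih.1, ih.2]

lemma Qhm_mulc' (hA : CalcA dh dm F) {Y : Cfg dh} {ε0 C0 : ℝ} (hcf : S.CoefBd φ Y ε0 C0)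
    (hop : OpFacts S φ N Y ε0) {c : Cfg dh → ℝ} (hc : ContDiffOn ℝ ∞ c (UU S φ)) {R : ℝ} (hR : 0 < R)
    {v : Cfg dh → Wsp dm → F} (hv : Tst2 v) (hs : Sup2 Y ε0 R v) (m : ℝ) (β : Fin 16) (y : Cfg dh) (w : Wsp dm) :
    S.Qhm φ N m β (mul2 (fun y _ => c y) v) y w = mul2 (fun y _ => c y) (S.Qhm φ N m β v) y w +
      ∑ p : Fin 9 × Fin dh, (-Complex.I) • mul2 (fun y _ => fderiv ℝ c y (EuclideanSpace.single (p.1, p.2) 1))
        (fun y w => S.vec (S.g p.1) (φ (Sum.inl p.2)) β (v y w)) y w := by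
  by_cases h : ‖y - R • Y‖ ≤ ε0 * R ∧ ‖w‖ ≤ ε0 * R
  · have h1 : DifferentiableAt ℝ c y :=
      (hc.contDiffAt ((isOpen_UU S φ).mem_nhds (hcf.det R hR y h.1))).differentiableAt (by simp)
    rw [Qhm_mulc S φ N hA c m β v hv y w h1, Fintype.sum_prod_type]
    simp only [mul2]
  · have h1 : S.Qhm φ N m β v y w = 0 := by
      by_contra h0
      exact h (hop.suh ε0 R v hv hs m β y w h0)
    have h2 : v y w = 0 := by
      by_contra h0
      exact h (hs y w h0)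
    have hs' : Sup2 Y ε0 R (mul2 (fun y _ => c y) v) := by
      intro y' w' h'
      refine hs y' w' fun h0 => h' ?_
      simp only [mul2]
      rw [h0, smul_zero]
    have h3 : S.Qhm φ N m β (mul2 (fun y _ => c y) v) y w = 0 := by
      by_contra h0
      exact h (hop.suh ε0 R _ (tst_mulc hA hcf hc hR hv hs) hs' m β y w h0)
    rw [h3]
    simp only [mul2]
    rw [h1, h2]
    simp

lemma term_bound (hA : CalcA dh dm F) (hB : CalcB dh dm F) {Y : Cfg dh} {ε0 C0 : ℝ} (hcf : S.CoefBd φ Y ε0 C0)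
    (hop : OpFacts S φ N Y ε0) {L : (Cfg dh → Wsp dm → F) → Cfg dh → Wsp dm → F} (hL : LOp S φ N L)
    {c : Cfg dh → ℝ} (hc : ContDiffOn ℝ ∞ c (UU S φ)) (K : ℝ) (β : Fin 16) :
    ∃ C : ℝ, 0 ≤ C ∧ ∀ R : ℝ, 0 < R → ∀ ρ : ℝ, 0 < ρ →
      (∀ y : Cfg dh, ‖y - R • Y‖ ≤ ε0 * R → ∀ i A, |fderiv ℝ c y (EuclideanSpace.single (i, A) 1)| ≤ K * ρ) →
      ∀ (m : ℝ) (a b : Cfg dh → Wsp dm → F), Tst2 a → Tst2 b → Sup2 Y ε0 R a → Sup2 Y ε0 R b → ∀ s : ℝ, 0 < s →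
      |(ip2 (S.Qhm φ N m β a) (mul2 (fun y _ => c y) (L b)) +
        ip2 (S.Qhm φ N m β b) (mul2 (fun y _ => c y) (L a))).re| ≤
        C * (s * ns2 a + s⁻¹ * (ρ ^ 2 * ns2 (L b))) := by
  refine ⟨∑ p : Fin 9 × Fin dh, (K ^ 2 * ‖S.vec (S.g p.1) (φ (Sum.inl p.2)) β‖ ^ 2 + 1), by positivity, ?_⟩
  intro R hR ρ hρ hK m a b ha hb hsa hsb s hs
  have hLa := hL.tst a ha
  have hLb := hL.tst b hb
  have hLsa := hL.sup Y ε0 R a ha hsa
  have hLsb := hL.sup Y ε0 R b hb hsb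
  have tcLa : Tst2 (mul2 (fun y _ => c y) (L a)) := tst_mulc hA hcf hc hR hLa hLsa
  have tTa := hop.th a ha m β
  have sTa := hop.suh ε0 R a ha hsa m β
  have tTLa := hop.th (L a) hLa m β
  have sTLa := hop.suh ε0 R (L a) hLa hLsa m β
  -- the pieces
  have tGa : ∀ p : Fin 9 × Fin dh, Tst2 (fun y w => S.vec (S.g p.1) (φ (Sum.inl p.2)) β (a y w)) := fun p =>
    hA.clm _ a ha
  have sGa : ∀ p : Fin 9 × Fin dh, Sup2 Y ε0 R (fun y w => S.vec (S.g p.1) (φ (Sum.inl p.2)) β (a y w)) := by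
    intro p y w h
    exact hsa y w fun h0 => h (by show S.vec (S.g p.1) (φ (Sum.inl p.2)) β (a y w) = 0; rw [h0, map_zero])
  have tdGa : ∀ p : Fin 9 × Fin dh, Tst2 (mul2 (fun y _ => fderiv ℝ c y (EuclideanSpace.single (p.1, p.2) 1))
      (fun y w => S.vec (S.g p.1) (φ (Sum.inl p.2)) β (a y w))) := fun p =>
    tst_mulc hA hcf (contDiffOn_pd S φ hc p.1 p.2) hR (tGa p) (sGa p)
  have tdGLa : ∀ p : Fin 9 × Fin dh, Tst2 (mul2 (fun y _ => fderiv ℝ c y (EuclideanSpace.single (p.1, p.2) 1))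
      (fun y w => S.vec (S.g p.1) (φ (Sum.inl p.2)) β (L a y w))) := fun p =>
    tst_mulc hA hcf (contDiffOn_pd S φ hc p.1 p.2) hR (hA.clm _ _ hLa) (by
      intro y w h
      exact hLsa y w fun h0 => h (by show S.vec (S.g p.1) (φ (Sum.inl p.2)) β (L a y w) = 0; rw [h0, map_zero]))
  have tE : ∀ p : Fin 9 × Fin dh, Tst2 (fun y w => (-Complex.I) •
      mul2 (fun y _ => fderiv ℝ c y (EuclideanSpace.single (p.1, p.2) 1))
        (fun y w => S.vec (S.g p.1) (φ (Sum.inl p.2)) β (L a y w)) y w) := fun p => hA.smul _ _ (tdGLa p)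
  have tv : ∀ p : Fin 9 × Fin dh, Tst2 (fun y w => Complex.I •
      mul2 (fun y _ => fderiv ℝ c y (EuclideanSpace.single (p.1, p.2) 1))
        (fun y w => S.vec (S.g p.1) (φ (Sum.inl p.2)) β (a y w)) y w) := fun p => hA.smul _ _ (tdGa p)
  have e1 : S.Qhm φ N m β (mul2 (fun y _ => c y) (L a)) = fun y w =>
      mul2 (fun y _ => c y) (S.Qhm φ N m β (L a)) y w +
      ∑ p : Fin 9 × Fin dh, (-Complex.I) • mul2 (fun y _ => fderiv ℝ c y (EuclideanSpace.single (p.1, p.2) 1))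
        (fun y w => S.vec (S.g p.1) (φ (Sum.inl p.2)) β (L a y w)) y w := by
    funext y w
    exact Qhm_mulc' hA hcf hop hc hR hLa hLsa m β y w
  have e2 : ip2 (S.Qhm φ N m β b) (mul2 (fun y _ => c y) (L a)) =
      ip2 b (mul2 (fun y _ => c y) (S.Qhm φ N m β (L a))) +
      ∑ p : Fin 9 × Fin dh, ip2 b (fun y w => (-Complex.I) •
        mul2 (fun y _ => fderiv ℝ c y (EuclideanSpace.single (p.1, p.2) 1))
        (fun y w => S.vec (S.g p.1) (φ (Sum.inl p.2)) β (L a y w)) y w) := by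
    rw [hop.symm b _ hb tcLa m β, e1]
    have h := sum_ip hA hB Finset.univ b (fun (p : Fin 9 × Fin dh) y w => (-Complex.I) •
        mul2 (fun y _ => fderiv ℝ c y (EuclideanSpace.single (p.1, p.2) 1))
        (fun y w => S.vec (S.g p.1) (φ (Sum.inl p.2)) β (L a y w)) y w) hb tE
    rw [hB.ip_add b (mul2 (fun y _ => c y) (S.Qhm φ N m β (L a))) _ hb (tst_mulc hA hcf hc hR tTLa sTLa) h.1, h.2]
  have e3 : ip2 b (mul2 (fun y _ => c y) (S.Qhm φ N m β (L a))) =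
      -(starRingEnd ℂ) (ip2 (S.Qhm φ N m β a) (mul2 (fun y _ => c y) (L b))) := by
    have h1 : mul2 (fun y _ => c y) (S.Qhm φ N m β (L a)) =
        fun y w => (-1 : ℂ) • L (mul2 (fun y _ => c y) (S.Qhm φ N m β a)) y w := by
      rw [hL.anti m β a ha, hL.mulc c _ tTa]
      funext y w
      simp only [mul2, smul_neg, neg_smul, one_smul]
    rw [h1, hB.ip_smul, ← hL.symm b _ hb (tst_mulc hA hcf hc hR tTa sTa), ← hB.ip_mul, ← hB.conj]
    ring
  have e4 : ∀ p : Fin 9 × Fin dh, ip2 b (fun y w => (-Complex.I) •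
        mul2 (fun y _ => fderiv ℝ c y (EuclideanSpace.single (p.1, p.2) 1))
        (fun y w => S.vec (S.g p.1) (φ (Sum.inl p.2)) β (L a y w)) y w) =
      ip2 (L b) (fun y w => Complex.I • mul2 (fun y _ => fderiv ℝ c y (EuclideanSpace.single (p.1, p.2) 1))
        (fun y w => S.vec (S.g p.1) (φ (Sum.inl p.2)) β (a y w)) y w) := by
    intro p
    have h1 : mul2 (fun y _ => fderiv ℝ c y (EuclideanSpace.single (p.1, p.2) 1))
        (fun y w => S.vec (S.g p.1) (φ (Sum.inl p.2)) β (L a y w)) =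
        fun y w => (-1 : ℂ) • L (mul2 (fun y _ => fderiv ℝ c y (EuclideanSpace.single (p.1, p.2) 1))
          (fun y w => S.vec (S.g p.1) (φ (Sum.inl p.2)) β (a y w))) y w := by
      rw [hL.mulc (fun y => fderiv ℝ c y (EuclideanSpace.single (p.1, p.2) 1)) _ (tGa p),
        hL.antiv p.1 p.2 β a ha]
      funext y w
      simp only [mul2, smul_neg, neg_smul, one_smul, neg_neg]
    rw [hB.ip_smul, h1, hB.ip_smul, ← hL.symm b _ hb (tdGa p), hB.ip_smul]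
    ring
  have e5 : (ip2 (S.Qhm φ N m β a) (mul2 (fun y _ => c y) (L b)) +
        ip2 (S.Qhm φ N m β b) (mul2 (fun y _ => c y) (L a))).re =
      ∑ p : Fin 9 × Fin dh, (ip2 (L b) (fun y w => Complex.I •
        mul2 (fun y _ => fderiv ℝ c y (EuclideanSpace.single (p.1, p.2) 1))
        (fun y w => S.vec (S.g p.1) (φ (Sum.inl p.2)) β (a y w)) y w)).re := by
    rw [e2, e3]
    simp only [e4, Complex.add_re, Complex.neg_re, Complex.conj_re, Complex.re_sum]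
    ring
  rw [e5, Finset.sum_mul]
  refine (Finset.abs_sum_le_sum_abs _ _).trans (Finset.sum_le_sum fun p _ => ?_)
  have h1 := hB.cs (s⁻¹ * ρ ^ 2) (L b) _ (by positivity) hLb (tv p)
  have h2 : ns2 (fun y w => Complex.I •
        mul2 (fun y _ => fderiv ℝ c y (EuclideanSpace.single (p.1, p.2) 1))
        (fun y w => S.vec (S.g p.1) (φ (Sum.inl p.2)) β (a y w)) y w) ≤
      ((K * ρ) ^ 2 * ‖S.vec (S.g p.1) (φ (Sum.inl p.2)) β‖ ^ 2) * ns2 a := by
    refine hB.mono _ _ _ (tv p) ha fun y w => ?_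
    by_cases h0 : a y w = 0
    · simp only [mul2, h0, map_zero, smul_zero, norm_zero]
      simp
    · have hy := (hsa y w h0).1
      simp only [mul2]
      rw [norm_smul, norm_smul, Complex.norm_I, one_mul, Complex.norm_real, Real.norm_eq_abs, mul_pow, mul_assoc,
        ← mul_pow ‖S.vec (S.g p.1) (φ (Sum.inl p.2)) β‖]
      exact mul_le_mul (pow_le_pow_left₀ (abs_nonneg _) (hK y hy p.1 p.2) 2)
        (pow_le_pow_left₀ (norm_nonneg _) ((S.vec (S.g p.1) (φ (Sum.inl p.2)) β).le_opNorm _) 2)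
        (by positivity) (by positivity)
  have h3 : (s⁻¹ * ρ ^ 2)⁻¹ * ns2 (fun y w => Complex.I •
        mul2 (fun y _ => fderiv ℝ c y (EuclideanSpace.single (p.1, p.2) 1))
        (fun y w => S.vec (S.g p.1) (φ (Sum.inl p.2)) β (a y w)) y w) ≤
      K ^ 2 * ‖S.vec (S.g p.1) (φ (Sum.inl p.2)) β‖ ^ 2 * (s * ns2 a) := by
    refine (mul_le_mul_of_nonneg_left h2 (by positivity)).trans (le_of_eq ?_)
    field_simp
  have h4 := hB.nonneg a
  have h5 := hB.nonneg (L b)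
  have h6 : 0 ≤ K ^ 2 * ‖S.vec (S.g p.1) (φ (Sum.inl p.2)) β‖ ^ 2 := by positivity
  have h7 : 0 ≤ s⁻¹ * (ρ ^ 2 * ns2 (L b)) := by positivity
  have h8 : 0 ≤ s * ns2 a := by positivity
  have h9 : 0 ≤ K ^ 2 * ‖S.vec (S.g p.1) (φ (Sum.inl p.2)) β‖ ^ 2 * (s⁻¹ * (ρ ^ 2 * ns2 (L b))) :=
    mul_nonneg h6 h7
  have h10 : 0 ≤ K ^ 2 * ‖S.vec (S.g p.1) (φ (Sum.inl p.2)) β‖ ^ 2 * (s * ns2 a) := mul_nonneg h6 h8
  have h11 : s⁻¹ * ρ ^ 2 * ns2 (L b) = s⁻¹ * (ρ ^ 2 * ns2 (L b)) := by ring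
  rw [h11] at h1
  have h12 : (K ^ 2 * ‖S.vec (S.g p.1) (φ (Sum.inl p.2)) β‖ ^ 2 + 1) * (s * ns2 a + s⁻¹ * (ρ ^ 2 * ns2 (L b))) =
      K ^ 2 * ‖S.vec (S.g p.1) (φ (Sum.inl p.2)) β‖ ^ 2 * (s * ns2 a) +
      K ^ 2 * ‖S.vec (S.g p.1) (φ (Sum.inl p.2)) β‖ ^ 2 * (s⁻¹ * (ρ ^ 2 * ns2 (L b))) + s * ns2 a +
      s⁻¹ * (ρ ^ 2 * ns2 (L b)) := by ring
  rw [h12]
  linarith

variable (S φ N) in
/-- operators with a good cross term -/
def Good (Y : Cfg dh) (ε0 : ℝ) (β : Fin 16) (X : (Cfg dh → Wsp dm → F) → Cfg dh → Wsp dm → F) : Prop :=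
  (∀ R : ℝ, 0 < R → ∀ g, Tst2 g → Sup2 Y ε0 R g → Tst2 (X g)) ∧
  ∃ C : ℝ, 0 ≤ C ∧ ∀ R : ℝ, 1 ≤ R → ∀ (m : ℝ) (a b : Cfg dh → Wsp dm → F), Tst2 a → Tst2 b →
    Sup2 Y ε0 R a → Sup2 Y ε0 R b → ∀ s : ℝ, 0 < s →
    |(ip2 (S.Qhm φ N m β a) (X b) + ip2 (S.Qhm φ N m β b) (X a)).re| ≤
      C * (s * ns2 a + s⁻¹ * (1 / R ^ 2 * D2w b + W2 b))

lemma D2w_nonneg (hB : CalcB dh dm F) (b : Cfg dh → Wsp dm → F) : 0 ≤ D2w b :=
  Finset.sum_nonneg fun _ _ => Finset.sum_nonneg fun _ _ => hB.nonneg _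

lemma ns2_nonneg' {E : Type*} [NormedAddCommGroup E] (v : Cfg dh → Wsp dm → E) : 0 ≤ ns2 v :=
  integral_nonneg fun _ => by positivity

lemma W2_nonneg (b : Cfg dh → Wsp dm → F) : 0 ≤ W2 b := ns2_nonneg' _

lemma rhs_nonneg (hB : CalcB dh dm F) (a b : Cfg dh → Wsp dm → F) {R s : ℝ} (hs : 0 < s) :
    0 ≤ s * ns2 a + s⁻¹ * (1 / R ^ 2 * D2w b + W2 b) := by
  have h1 := ns2_nonneg' a
  have h2 := D2w_nonneg hB b
  have h3 := W2_nonneg b
  positivity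

lemma Good.zero (hA : CalcA dh dm F) (Y : Cfg dh) (ε0 : ℝ) (β : Fin 16) :
    Good S φ N Y ε0 β (fun _ _ _ => 0) := by
  refine ⟨fun R _ g _ _ => hA.zero, 0, le_rfl, fun R _ m a b _ _ _ _ s _ => ?_⟩
  simp [ip2]

lemma Good.add (hB : CalcB dh dm F) (hA : CalcA dh dm F) {Y : Cfg dh} {ε0 : ℝ} {β : Fin 16} (hop : OpFacts S φ N Y ε0)
    {X X' : (Cfg dh → Wsp dm → F) → Cfg dh → Wsp dm → F} (h : Good S φ N Y ε0 β X) (h' : Good S φ N Y ε0 β X') :
    Good S φ N Y ε0 β (fun g y w => X g y w + X' g y w) := by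
  obtain ⟨ht, C, hC, hb⟩ := h
  obtain ⟨ht', C', hC', hb'⟩ := h'
  refine ⟨fun R hR g hg hs => hA.add _ _ (ht R hR g hg hs) (ht' R hR g hg hs), C + C', by positivity,
    fun R hR m a b ha hb1 hsa hsb s hs => ?_⟩
  have hR0 : 0 < R := by linarith
  rw [hB.ip_add _ _ _ (hop.th a ha m β) (ht R hR0 b hb1 hsb) (ht' R hR0 b hb1 hsb),
    hB.ip_add _ _ _ (hop.th b hb1 m β) (ht R hR0 a ha hsa) (ht' R hR0 a ha hsa)]
  have e1 := hb R hR m a b ha hb1 hsa hsb s hs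
  have e2 := hb' R hR m a b ha hb1 hsa hsb s hs
  have e3 : (ip2 (S.Qhm φ N m β a) (X b) + ip2 (S.Qhm φ N m β a) (X' b) +
      (ip2 (S.Qhm φ N m β b) (X a) + ip2 (S.Qhm φ N m β b) (X' a))).re =
      (ip2 (S.Qhm φ N m β a) (X b) + ip2 (S.Qhm φ N m β b) (X a)).re +
      (ip2 (S.Qhm φ N m β a) (X' b) + ip2 (S.Qhm φ N m β b) (X' a)).re := by
    simp only [Complex.add_re]
    ring
  rw [e3, add_mul]
  exact (abs_add_le _ _).trans (add_le_add e1 e2)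

lemma Good.sum {κ : Type*} (t : Finset κ) (hB : CalcB dh dm F) (hA : CalcA dh dm F) {Y : Cfg dh} {ε0 : ℝ} {β : Fin 16}
    (hop : OpFacts S φ N Y ε0)
    {X : κ → (Cfg dh → Wsp dm → F) → Cfg dh → Wsp dm → F} (h : ∀ k, Good S φ N Y ε0 β (X k)) :
    Good S φ N Y ε0 β (fun g y w => ∑ k ∈ t, X k g y w) := by
  classical
  induction t using Finset.induction_on with
  | empty => simpa using Good.zero hA Y ε0 β
  | insert k t hk ih =>
    simp only [Finset.sum_insert hk]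
    exact Good.add hB hA hop (h k) ih

lemma good_pw (hA : CalcA dh dm F) (hB : CalcB dh dm F) {Y : Cfg dh} {ε0 C0 : ℝ} (hcf : S.CoefBd φ Y ε0 C0)
    (hop : OpFacts S φ N Y ε0) (β : Fin 16) (X : Matrix (Fin 16) (Fin 16) ℂ)
    (hX : ∀ α β, (X α β).im = 0) (B : Fin dm) (ι : ℂ) (hι : (starRingEnd ℂ) ι = -ι)
    (j : Fin 8) (E : Fin dm) {c : Cfg dh → ℝ} (hc : ContDiffOn ℝ ∞ c (UU S φ)) (K : ℝ)
    (hK : ∀ R : ℝ, 0 < R → ∀ y : Cfg dh, ‖y - R • Y‖ ≤ ε0 * R → ∀ i A,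
      |fderiv ℝ c y (EuclideanSpace.single (i, A) 1)| ≤ K / R) :
    Good S φ N Y ε0 β (fun g => mul2 (fun y _ => c y) (fun y w => ι • S.vec X (φ (Sum.inr B)) β (Z.pw j E g y w))) := by
  have hL := lop_pw S φ N hA hB X hX B β ι hι j E
  obtain ⟨C, hC, hb⟩ := term_bound hA hB hcf hop hL hc K β
  refine ⟨fun R hR g hg hs => tst_mulc hA hcf hc hR (hL.tst g hg) (hL.sup Y ε0 R g hg hs),
    C * (1 + ‖ι‖ ^ 2 * ‖S.vec X (φ (Sum.inr B)) β‖ ^ 2), by positivity, fun R hR m a b ha hb1 hsa hsb s hs => ?_⟩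
  have hR0 : 0 < R := by linarith
  have h1 := hb R hR0 (1 / R) (by positivity) (fun y hy i A => by
    rw [mul_one_div]
    exact hK R hR0 y hy i A) m a b ha hb1 hsa hsb s hs
  refine h1.trans ?_
  rw [mul_assoc]
  refine mul_le_mul_of_nonneg_left ?_ hC
  set M := ‖ι‖ ^ 2 * ‖S.vec X (φ (Sum.inr B)) β‖ ^ 2 with hM
  have hM0 : 0 ≤ M := by positivity
  have h2 : ns2 (fun y w => ι • S.vec X (φ (Sum.inr B)) β (Z.pw j E b y w)) ≤ M * ns2 (Z.pw j E b) := by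
    refine hB.mono _ _ _ (hL.tst b hb1) (hA.pw j E b hb1) fun y w => ?_
    rw [norm_smul, mul_pow, hM, mul_assoc, ← mul_pow ‖S.vec X (φ (Sum.inr B)) β‖]
    exact mul_le_mul_of_nonneg_left (pow_le_pow_left₀ (norm_nonneg _)
      ((S.vec X (φ (Sum.inr B)) β).le_opNorm _) 2) (by positivity)
  have h3 : ns2 (Z.pw j E b) ≤ D2w b := by
    have h4 : ns2 (Z.pw j E b) ≤ ∑ E', ns2 (Z.pw j E' b) :=
      Finset.single_le_sum (f := fun E' => ns2 (Z.pw j E' b)) (fun _ _ => hB.nonneg _) (Finset.mem_univ E)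
    exact h4.trans (Finset.single_le_sum (f := fun j' => ∑ E', ns2 (Z.pw j' E' b))
      (fun _ _ => Finset.sum_nonneg fun _ _ => hB.nonneg _) (Finset.mem_univ j))
  have h5 := ns2_nonneg' a
  have h6 := W2_nonneg b
  have h7 := D2w_nonneg hB b
  have h8 : s⁻¹ * ((1 / R) ^ 2 * ns2 (fun y w => ι • S.vec X (φ (Sum.inr B)) β (Z.pw j E b y w))) ≤
      s⁻¹ * (1 / R ^ 2 * (M * D2w b)) := by
    refine mul_le_mul_of_nonneg_left ?_ (by positivity)
    rw [one_div_pow]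
    exact mul_le_mul_of_nonneg_left (h2.trans (mul_le_mul_of_nonneg_left h3 hM0)) (by positivity)
  have h9 : 0 ≤ s⁻¹ * (1 / R ^ 2 * D2w b) := by positivity
  have h10 : 0 ≤ (1 + M) * (s⁻¹ * W2 b) := by positivity
  have h11 : 0 ≤ M * (s * ns2 a) := by positivity
  have h12 : (1 + M) * (s * ns2 a + s⁻¹ * (1 / R ^ 2 * D2w b + W2 b)) =
      s * ns2 a + M * (s * ns2 a) + s⁻¹ * (1 / R ^ 2 * D2w b) + s⁻¹ * (1 / R ^ 2 * (M * D2w b)) +
        (1 + M) * (s⁻¹ * W2 b) := by ring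
  rw [h12]
  linarith

lemma good_mw (hA : CalcA dh dm F) (hB : CalcB dh dm F) {Y : Cfg dh} {ε0 C0 : ℝ} (hcf : S.CoefBd φ Y ε0 C0)
    (hop : OpFacts S φ N Y ε0) (β : Fin 16) (X : Matrix (Fin 16) (Fin 16) ℂ)
    (hX : ∀ α β, (X α β).im = 0) (B : Fin dm) (ι : ℂ) (hι : (starRingEnd ℂ) ι = ι)
    (k : Fin 8 × Fin dm) {c : Cfg dh → ℝ} (hc : ContDiffOn ℝ ∞ c (UU S φ)) (K : ℝ)
    (hK : ∀ y : Cfg dh, ∀ i A, |fderiv ℝ c y (EuclideanSpace.single (i, A) 1)| ≤ K) :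
    Good S φ N Y ε0 β (fun g => mul2 (fun y _ => c y) (fun y w => ι • S.vec X (φ (Sum.inr B)) β (mw k g y w))) := by
  have hL := lop_mw S φ N hA hB X hX B β ι hι k
  obtain ⟨C, hC, hb⟩ := term_bound hA hB hcf hop hL hc K β
  refine ⟨fun R hR g hg hs => tst_mulc hA hcf hc hR (hL.tst g hg) (hL.sup Y ε0 R g hg hs),
    C * (1 + ‖ι‖ ^ 2 * ‖S.vec X (φ (Sum.inr B)) β‖ ^ 2), by positivity, fun R hR m a b ha hb1 hsa hsb s hs => ?_⟩
  have hR0 : 0 < R := by linarith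
  have h1 := hb R hR0 1 one_pos (fun y hy i A => by
    rw [mul_one]
    exact hK y i A) m a b ha hb1 hsa hsb s hs
  refine h1.trans ?_
  rw [mul_assoc]
  refine mul_le_mul_of_nonneg_left ?_ hC
  set M := ‖ι‖ ^ 2 * ‖S.vec X (φ (Sum.inr B)) β‖ ^ 2 with hM
  have hM0 : 0 ≤ M := by positivity
  have h2 : ns2 (fun y w => ι • S.vec X (φ (Sum.inr B)) β (mw k b y w)) ≤ M * ns2 (mw k b) := by
    refine hB.mono _ _ _ (hL.tst b hb1) (tst_mw hA k b hb1) fun y w => ?_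
    rw [norm_smul, mul_pow, hM, mul_assoc, ← mul_pow ‖S.vec X (φ (Sum.inr B)) β‖]
    exact mul_le_mul_of_nonneg_left (pow_le_pow_left₀ (norm_nonneg _)
      ((S.vec X (φ (Sum.inr B)) β).le_opNorm _) 2) (by positivity)
  have h3 : ns2 (mw k b) ≤ W2 b := by
    rw [hB.W2_eq b hb1]
    exact Finset.single_le_sum (f := fun k' => ns2 (mw k' b)) (fun _ _ => hB.nonneg _) (Finset.mem_univ k)
  have h5 := ns2_nonneg' a
  have h6 := W2_nonneg b
  have h7 := D2w_nonneg hB b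
  have h8 : s⁻¹ * (1 ^ 2 * ns2 (fun y w => ι • S.vec X (φ (Sum.inr B)) β (mw k b y w))) ≤
      s⁻¹ * (M * W2 b) := by
    refine mul_le_mul_of_nonneg_left ?_ (by positivity)
    rw [one_pow, one_mul]
    exact h2.trans (mul_le_mul_of_nonneg_left h3 hM0)
  have h9 : 0 ≤ (1 + M) * (s⁻¹ * (1 / R ^ 2 * D2w b)) := by positivity
  have h10 : 0 ≤ s⁻¹ * W2 b := by positivity
  have h11 : 0 ≤ M * (s * ns2 a) := by positivity
  have h12 : (1 + M) * (s * ns2 a + s⁻¹ * (1 / R ^ 2 * D2w b + W2 b)) =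
      s * ns2 a + M * (s * ns2 a) + s⁻¹ * W2 b + s⁻¹ * (M * W2 b) +
        (1 + M) * (s⁻¹ * (1 / R ^ 2 * D2w b)) := by ring
  rw [h12]
  linarith

lemma Dy_fderiv (i : Fin 9) (B C : Fin dm) (y : Cfg dh) (i' : Fin 9) (A : Fin dh) :
    |fderiv ℝ (fun y => S.Dy φ i y B C) y (EuclideanSpace.single (i', A) 1)| ≤
      ∑ A', |S.f (φ (Sum.inr B)) (φ (Sum.inl A')) (φ (Sum.inr C))| := by
  have h1 : (fun y : Cfg dh => S.Dy φ i y B C) = fun y => (∑ A', S.f (φ (Sum.inr B)) (φ (Sum.inl A')) (φ (Sum.inr C)) •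
      (EuclideanSpace.proj (𝕜 := ℝ) (i, A') : Cfg dh →L[ℝ] ℝ)) y := by
    funext y
    simp only [Setup.Dy, Setup.Dm, Matrix.of_apply, _root_.sum_apply, _root_.smul_apply, smul_eq_mul]
    rfl
  rw [h1, ContinuousLinearMap.fderiv]
  simp only [_root_.sum_apply, _root_.smul_apply, smul_eq_mul]
  refine (Finset.abs_sum_le_sum_abs _ _).trans (Finset.sum_le_sum fun A' _ => ?_)
  rw [abs_mul]
  refine mul_le_of_le_one_right (abs_nonneg _) ?_
  have h2 : (EuclideanSpace.proj (𝕜 := ℝ) (i, A') : Cfg dh →L[ℝ] ℝ) (EuclideanSpace.single (i', A) 1) =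
      if (i, A') = (i', A) then 1 else 0 := by
    show (EuclideanSpace.single (i', A) (1 : ℝ) : Cfg dh) (i, A') = _
    rw [PiLp.single_apply]
  rw [h2]
  split_ifs <;> simp

lemma good_wt (hA : CalcA dh dm F) (hB : CalcB dh dm F) {Y : Cfg dh} {ε0 C0 : ℝ} (hcf : S.CoefBd φ Y ε0 C0)
    (hop : OpFacts S φ N Y ε0) (β : Fin 16) (X : Matrix (Fin 16) (Fin 16) ℂ)
    (hX : ∀ α β, (X α β).im = 0) (B : Fin dm) (ι : ℂ) (hι : (starRingEnd ℂ) ι = ι)
    (j : Fin 9) (i : Fin 9) (C : Fin dm) :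
    Good S φ N Y ε0 β (fun g y w => ((S.Dy φ i y B C : ℝ) : ℂ) •
      (ι • S.vec X (φ (Sum.inr B)) β (((wt w j C : ℝ) : ℂ) • g y w))) := by
  induction j using Fin.lastCases with
  | last =>
    have h : (fun (g : Cfg dh → Wsp dm → F) (y : Cfg dh) (w : Wsp dm) => ((S.Dy φ i y B C : ℝ) : ℂ) •
      (ι • S.vec X (φ (Sum.inr B)) β (((wt w (Fin.last 8) C : ℝ) : ℂ) • g y w))) = fun _ _ _ => 0 := by
      funext g y w
      have h0 : wt w (Fin.last 8) C = 0 := by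
        rw [wt]
        exact Fin.lastCases_last
      rw [h0]
      simp
    rw [h]
    exact Good.zero hA Y ε0 β
  | cast j =>
    have h : (fun (g : Cfg dh → Wsp dm → F) (y : Cfg dh) (w : Wsp dm) => ((S.Dy φ i y B C : ℝ) : ℂ) •
      (ι • S.vec X (φ (Sum.inr B)) β (((wt w j.castSucc C : ℝ) : ℂ) • g y w))) = fun g =>
        mul2 (fun y _ => S.Dy φ i y B C) (fun y w => ι • S.vec X (φ (Sum.inr B)) β (mw (j, C) g y w)) := by
      funext g y w
      simp [wt, mw, mul2]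
    rw [h]
    exact good_mw hA hB hcf hop β X hX B ι hι (j, C) (contDiff_Dy S φ i B C).contDiffOn _
      (fun y i' A => Dy_fderiv i B C y i' A)

lemma good_Q1 (hA : CalcA dh dm F) (hB : CalcB dh dm F) {Y : Cfg dh} {ε0 C0 : ℝ} (hcf : S.CoefBd φ Y ε0 C0)
    (hop : OpFacts S φ N Y ε0) (β : Fin 16) : Good S φ N Y ε0 β (S.Q1 φ β) := by
  have hI1 : (starRingEnd ℂ) (-Complex.I) = -(-Complex.I) := by simp
  have hI2 : (starRingEnd ℂ) Complex.I = -Complex.I := by simp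
  have hA1 : Good S φ N Y ε0 β (fun (g : Cfg dh → Wsp dm → F) y w => ∑ j : Fin 8, ∑ B,
      mul2 (fun y _ => (1 : ℝ)) (fun y w => (-Complex.I) • S.vec (S.g j.castSucc) (φ (Sum.inr B)) β (Z.pw j B g y w)) y w) :=
    Good.sum _ hB hA hop fun j => Good.sum _ hB hA hop fun B =>
      good_pw hA hB hcf hop β (S.g j.castSucc) (S.g_im _) B (-Complex.I) hI1 j B (c := fun _ => 1) contDiffOn_const 0
        (fun R hR y hy i A => by simp)
  have hA2 : Good S φ N Y ε0 β (fun (g : Cfg dh → Wsp dm → F) y w => ∑ B, ∑ j : Fin 8, ∑ E,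
      mul2 (fun y _ => ((S.Dy φ 8 y)⁻¹ * S.Dy φ j.castSucc y) B E)
        (fun y w => Complex.I • S.vec (S.g 8) (φ (Sum.inr B)) β (Z.pw j E g y w)) y w) :=
    Good.sum _ hB hA hop fun B => Good.sum _ hB hA hop fun j => Good.sum _ hB hA hop fun E =>
      good_pw hA hB hcf hop β (S.g 8) (S.g_im _) B Complex.I hI2 j E (contDiffOn_cf S φ j.castSucc B E) C0
        (fun R hR y hy i A => hcf.dcf R hR y hy j.castSucc B E i A)
  have hι1 : (starRingEnd ℂ) ((S.κ / 2 : ℝ) : ℂ) = ((S.κ / 2 : ℝ) : ℂ) := Complex.conj_ofReal _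
  have hι2 : (starRingEnd ℂ) ((-(S.κ / 2) : ℝ) : ℂ) = ((-(S.κ / 2) : ℝ) : ℂ) := Complex.conj_ofReal _
  have hA3 : Good S φ N Y ε0 β (fun (g : Cfg dh → Wsp dm → F) y w => ∑ B, ∑ i : Fin 9, ∑ j : Fin 9,
      ((∑ C, ((S.Dy φ i y B C : ℝ) : ℂ) • (((S.κ / 2 : ℝ) : ℂ) • S.vec (S.g2 i j) (φ (Sum.inr B)) β
          (((wt w j C : ℝ) : ℂ) • g y w))) +
        ∑ C, ((S.Dy φ j y B C : ℝ) : ℂ) • (((-(S.κ / 2) : ℝ) : ℂ) • S.vec (S.g2 i j) (φ (Sum.inr B)) β
          (((wt w i C : ℝ) : ℂ) • g y w)))) :=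
    Good.sum _ hB hA hop fun B => Good.sum _ hB hA hop fun i => Good.sum _ hB hA hop fun j =>
      Good.add hB hA hop
        (Good.sum _ hB hA hop fun C => good_wt hA hB hcf hop β (S.g2 i j) (S.g2_im i j) B _ hι1 j i C)
        (Good.sum _ hB hA hop fun C => good_wt hA hB hcf hop β (S.g2 i j) (S.g2_im i j) B _ hι2 i j C)
  have h := Good.add hB hA hop (Good.add hB hA hop hA1 hA2) hA3
  refine (congrArg (Good S φ N Y ε0 β) ?_).mpr h
  funext g y w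
  rw [Setup.Q1]
  congr 1
  · congr 1
    · simp only [mul2, Finset.smul_sum, Complex.ofReal_one, one_smul]
    · rw [Finset.smul_sum]
      refine Finset.sum_congr rfl fun B _ => ?_
      simp only [mul2, Matrix.mul_apply, map_sum, map_smul, Finset.smul_sum, Complex.ofReal_sum, Finset.sum_smul,
        Complex.ofReal_mul, mul_smul]
      rw [Finset.sum_comm]
      refine Finset.sum_congr rfl fun j _ => ?_
      rw [Finset.sum_comm]
      refine Finset.sum_congr rfl fun E _ => Finset.sum_congr rfl fun C _ => ?_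
      rw [smul_comm Complex.I, smul_comm Complex.I]
  · rw [Finset.smul_sum]
    refine Finset.sum_congr rfl fun B _ => ?_
    rw [Finset.smul_sum]
    refine Finset.sum_congr rfl fun i _ => ?_
    rw [Finset.smul_sum]
    refine Finset.sum_congr rfl fun j _ => ?_
    simp only [map_smul, smul_smul, ← Finset.sum_smul, ← add_smul]
    congr 1
    rw [Setup.FL]
    push_cast
    rw [mul_sub, mul_sub, Finset.mul_sum, Finset.mul_sum, Finset.mul_sum, Finset.mul_sum, sub_eq_add_neg,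
      ← Finset.sum_neg_distrib]
    congr 1
    · exact Finset.sum_congr rfl fun C _ => by ring
    · exact Finset.sum_congr rfl fun C _ => by ring

end CrossAux

open CrossAux in
/-- **C-Cross** -/
theorem cross_stmt (S : Setup d F) (φ : Spl dh dm d) :
    CalcA dh dm F → CalcB dh dm F → OpStmt S φ → CrossStmt S φ := by
  intro hA hB hO N hN Y ε0 C0 hε0 hC0 hcf
  have hop := hO N hN Y ε0 C0 hε0 hcf
  have h : ∀ β, ∃ C : ℝ, 0 ≤ C ∧ ∀ R : ℝ, 1 ≤ R → ∀ (m : ℝ) (a b : Cfg dh → Wsp dm → F), Tst2 a → Tst2 b →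
    Sup2 Y ε0 R a → Sup2 Y ε0 R b → ∀ s : ℝ, 0 < s →
    |(ip2 (S.Qhm φ N m β a) (S.Q1 φ β b) + ip2 (S.Qhm φ N m β b) (S.Q1 φ β a)).re| ≤
      C * (s * ns2 a + s⁻¹ * (1 / R ^ 2 * D2w b + W2 b)) := fun β => (good_Q1 hA hB hcf hop β).2
  choose C hC hb using h
  refine ⟨∑ β, C β, Finset.sum_nonneg fun β _ => hC β, ?_⟩
  intro R hR m a b ha hb1 hsa hsb s hs
  rw [Finset.sum_mul]
  exact (Finset.abs_sum_le_sum_abs _ _).trans (Finset.sum_le_sum fun β _ => hb β R hR m a b ha hb1 hsa hsb s hs)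

end Vale.Agent.P353.Z.AN
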