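import Vale.Agent.P353.AN.C.Op
import Vale.Agent.P353.Z.U.En

/-! # P353, all `N`, block C, C-EnH: gradient bound for the block model with mass -/

open MeasureTheory Filter Topology
open scoped ContDiff Matrix

namespace Vale.Agent.P353.Z.AN.EnH964

open Vale.Agent.P353.Z.AN.Op687

/-! ### quadratic polynomials -/

section pol

variable {dh : ℕ}

/-- complex polynomial of degree two without constant term -/
noncomputable def pol (c : Fin 9 × Fin dh → Fin 9 × Fin dh → ℂ) (n : Fin 9 × Fin dh → ℂ)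
    (x : Cfg dh) : ℂ :=
  (∑ p, ∑ q, c p q * ((x p : ℝ) : ℂ) * ((x q : ℝ) : ℂ)) + ∑ p, n p * ((x p : ℝ) : ℂ)

lemma coord_cd (p : Fin 9 × Fin dh) : ContDiff ℝ ∞ (fun x : Cfg dh => ((x p : ℝ) : ℂ)) :=
  Setup.contDiff_ofReal (Setup.contDiff_coord p)

lemma pol_cd (c : Fin 9 × Fin dh → Fin 9 × Fin dh → ℂ) (n : Fin 9 × Fin dh → ℂ) :
    ContDiff ℝ ∞ (pol c n) := by
  unfold pol
  refine ContDiff.add (ContDiff.sum fun p _ => ContDiff.sum fun q _ => ?_)
    (ContDiff.sum fun p _ => ?_)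
  · exact (contDiff_const.mul (coord_cd p)).mul (coord_cd q)
  · exact contDiff_const.mul (coord_cd p)

lemma coord_hd (p : Fin 9 × Fin dh) (x : Cfg dh) :
    HasFDerivAt (fun y : Cfg dh => ((y p : ℝ) : ℂ))
      (Complex.ofRealCLM.comp (EuclideanSpace.proj (𝕜 := ℝ) p : Cfg dh →L[ℝ] ℝ)) x :=
  (Complex.ofRealCLM.hasFDerivAt (x := x p)).comp x (Setup.hasFDerivAt_coord p x)

lemma coord_le (p r : Fin 9 × Fin dh) :
    ‖(Complex.ofRealCLM.comp (EuclideanSpace.proj (𝕜 := ℝ) p : Cfg dh →L[ℝ] ℝ))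
      (EuclideanSpace.single r 1)‖ ≤ 1 := by
  simp only [ContinuousLinearMap.comp_apply, Complex.ofRealCLM_apply, PiLp.proj_apply,
    PiLp.single_apply]
  split_ifs <;> simp

lemma x_le (x : Cfg dh) (p : Fin 9 × Fin dh) : ‖((x p : ℝ) : ℂ)‖ ≤ ‖x‖ := by
  rw [Complex.norm_real]
  exact PiLp.norm_apply_le x p

lemma pol_fd (c : Fin 9 × Fin dh → Fin 9 × Fin dh → ℂ) (n : Fin 9 × Fin dh → ℂ) (x : Cfg dh)
    (r : Fin 9 × Fin dh) :
    ‖fderiv ℝ (pol c n) x (EuclideanSpace.single r 1)‖ ≤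
      (∑ p, ∑ q, 2 * ‖c p q‖) * ‖x‖ + ∑ p, ‖n p‖ := by
  set e : Cfg dh := EuclideanSpace.single r 1 with he
  set L : Fin 9 × Fin dh → (Cfg dh →L[ℝ] ℂ) := fun p =>
    Complex.ofRealCLM.comp (EuclideanSpace.proj (𝕜 := ℝ) p : Cfg dh →L[ℝ] ℝ) with hL
  have h1 : ∀ p q, HasFDerivAt (fun y : Cfg dh => c p q * ((y p : ℝ) : ℂ) * ((y q : ℝ) : ℂ))
      ((c p q * ((x p : ℝ) : ℂ)) • L q + ((x q : ℝ) : ℂ) • (c p q • L p)) x := fun p q =>
    ((coord_hd p x).const_mul (c p q)).mul (coord_hd q x)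
  have h2 : ∀ p, HasFDerivAt (fun y : Cfg dh => n p * ((y p : ℝ) : ℂ)) (n p • L p) x := fun p =>
    (coord_hd p x).const_mul (n p)
  have hd : HasFDerivAt (pol c n)
      ((∑ p, ∑ q, ((c p q * ((x p : ℝ) : ℂ)) • L q + ((x q : ℝ) : ℂ) • (c p q • L p))) +
        ∑ p, n p • L p) x := by
    unfold pol
    exact (HasFDerivAt.fun_sum fun p _ => HasFDerivAt.fun_sum fun q _ => h1 p q).add
      (HasFDerivAt.fun_sum fun p _ => h2 p)
  rw [hd.fderiv]
  simp only [_root_.add_apply, _root_.sum_apply, _root_.smul_apply, smul_eq_mul]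
  refine (norm_add_le _ _).trans (add_le_add ?_ ?_)
  · rw [Finset.sum_mul]
    refine (norm_sum_le _ _).trans (Finset.sum_le_sum fun p _ => ?_)
    rw [Finset.sum_mul]
    refine (norm_sum_le _ _).trans (Finset.sum_le_sum fun q _ => ?_)
    refine (norm_add_le _ _).trans ?_
    have hq : ‖L q e‖ ≤ 1 := coord_le q r
    have hp : ‖L p e‖ ≤ 1 := coord_le p r
    have xq := x_le x q
    have xp := x_le x p
    simp only [norm_mul]
    have i1 : ‖c p q‖ * ‖((x p : ℝ) : ℂ)‖ * ‖L q e‖ ≤ ‖c p q‖ * ‖x‖ * 1 := by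
      gcongr
    have i2 : ‖((x q : ℝ) : ℂ)‖ * (‖c p q‖ * ‖L p e‖) ≤ ‖x‖ * (‖c p q‖ * 1) := by
      gcongr
    linarith
  · refine (norm_sum_le _ _).trans (Finset.sum_le_sum fun p _ => ?_)
    rw [norm_mul]
    have hp : ‖L p e‖ ≤ 1 := coord_le p r
    calc ‖n p‖ * ‖L p e‖ ≤ ‖n p‖ * 1 := by gcongr
      _ = ‖n p‖ := mul_one _

end pol

variable {d dh dm : ℕ} {F : Type*} [NormedAddCommGroup F] [InnerProductSpace ℂ F]
  (S : Setup d F) (φ : Spl dh dm d) (N : Fin 9 → Matrix (Fin 16) (Fin 16) ℂ)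

/-- matrices of the multiplier -/
noncomputable def tH (m : ℝ) (A : Fin dh) (x : Cfg dh) : Matrix (Fin 16) (Fin 16) ℂ :=
  (∑ i, ∑ j, ((c1 S φ A i j x : ℝ) : ℂ) • S.g2 i j) + ∑ i, ((m * x (i, A) : ℝ) : ℂ) • N i

/-- quadratic coefficients -/
noncomputable def cq (A : Fin dh) (α α' : Fin 16) (p q : Fin 9 × Fin dh) : ℂ :=
  (((1 / 2) * (S.κ * S.f (φ (Sum.inl A)) (φ (Sum.inl p.2)) (φ (Sum.inl q.2))) : ℝ) : ℂ) *
    S.g2 p.1 q.1 α α'

/-- linear coefficients -/
noncomputable def cn (m : ℝ) (A : Fin dh) (α α' : Fin 16) (p : Fin 9 × Fin dh) : ℂ :=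
  if p.2 = A then (m : ℂ) * N p.1 α α' else 0

lemma tH_pol (m : ℝ) (A : Fin dh) (α α' : Fin 16) (x : Cfg dh) :
    tH S φ N m A x α α' = pol (cq S φ A α α') (cn N m A α α') x := by
  unfold tH pol
  rw [Matrix.add_apply]
  congr 1
  · simp only [Matrix.sum_apply, Matrix.smul_apply, smul_eq_mul, c1, cq]
    rw [Fintype.sum_prod_type]
    refine Finset.sum_congr rfl fun i _ => ?_
    simp only [Fintype.sum_prod_type]
    rw [Finset.sum_comm]
    refine Finset.sum_congr rfl fun j _ => ?_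
    push_cast
    simp only [Finset.mul_sum, Finset.sum_mul]
    refine Finset.sum_congr rfl fun B _ => Finset.sum_congr rfl fun C _ => ?_
    ring
  · simp only [Matrix.sum_apply, Matrix.smul_apply, smul_eq_mul, cn]
    rw [Fintype.sum_prod_type]
    refine Finset.sum_congr rfl fun i _ => ?_
    simp only [ite_mul, zero_mul, Finset.sum_ite_eq', Finset.mem_univ, if_true]
    push_cast
    ring

lemma tH_cd (m : ℝ) (A : Fin dh) (α α' : Fin 16) :
    ContDiff ℝ ∞ (fun x => tH S φ N m A x α α') := by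
  have h : (fun x => tH S φ N m A x α α') = pol (cq S φ A α α') (cn N m A α α') := by
    funext x
    exact tH_pol S φ N m A α α' x
  rw [h]
  exact pol_cd _ _

lemma tH_im (hN : ∀ i α β, (N i α β).im = 0) (m : ℝ) (A : Fin dh) (x : Cfg dh) (α β : Fin 16) :
    (tH S φ N m A x α β).im = 0 := by
  unfold tH
  simp only [Matrix.add_apply, Matrix.sum_apply, Matrix.smul_apply, smul_eq_mul, Complex.add_im,
    Complex.im_sum, Complex.mul_im, Complex.ofReal_im, Complex.ofReal_re, S.g2_im, hN]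
  simp

lemma tH_tr (hN : ∀ i j, (S.g i * (N j).transpose).trace = 0) (m : ℝ) (i : Fin 9) (A : Fin dh)
    (x : Cfg dh) : (S.g i * (tH S φ N m A x).transpose).trace = 0 := by
  unfold tH
  simp only [Matrix.transpose_add, Matrix.transpose_sum, Matrix.transpose_smul, Matrix.mul_add,
    Matrix.mul_sum, Matrix.mul_smul, Matrix.trace_add, Matrix.trace_sum, Matrix.trace_smul, hN,
    U.En.trace_g_g2T, smul_zero, Finset.sum_const_zero, add_zero]

lemma sub_vec (h : S.IsSub φ) (M : Matrix (Fin 16) (Fin 16) ℂ) (A : Fin dh) (β : Fin 16) :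
    (S.sub φ h).vec M A β = S.vec M (φ (Sum.inl A)) β := rfl

lemma key_eq (h : S.IsSub φ) (m : ℝ) (β : Fin 16) (v : Cfg dh → Wsp dm → F) (y : Cfg dh)
    (w : Wsp dm) :
    (S.sub φ h).Q0 β (fun y' => v y' w) y +
      ∑ A, (S.sub φ h).vec (tH S φ N m A y) A β (v y w) = S.Qhm φ N m β v y w := by
  rw [Qhm_exp, add_assoc]
  congr 1
  · unfold Setup.Q0 py
    simp only [Finset.smul_sum, sub_vec]
    rfl
  · simp only [sub_vec, tH, S.vec_add, S.vec_sum, S.vec_smul, _root_.add_apply, _root_.sum_apply,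
      _root_.smul_apply, Finset.sum_add_distrib]
    congr 1
    exact Finset.sum_comm


/-! ### bound for the zero order term -/

lemma vec_le (S' : Setup dh F) (M : Matrix (Fin 16) (Fin 16) ℂ) (A : Fin dh) (β : Fin 16) (K : ℝ)
    (hM : ∀ α α', ‖M α α'‖ ≤ K) (a : F) :
    ‖S'.vec M A β a‖ ≤ K * ((∑ γ, ‖S'.th γ A‖) * ‖a‖) := by
  unfold CS.vec
  simp only [_root_.sum_apply, _root_.smul_apply]
  rw [Finset.sum_mul, Finset.mul_sum]
  refine (norm_sum_le _ _).trans (Finset.sum_le_sum fun γ _ => ?_)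
  rw [norm_smul]
  have h1 : ‖S'.th γ A a‖ ≤ ‖S'.th γ A‖ * ‖a‖ := (S'.th γ A).le_opNorm a
  have h2 : 0 ≤ ‖S'.th γ A‖ * ‖a‖ := by positivity
  calc ‖M β γ‖ * ‖S'.th γ A a‖ ≤ ‖M β γ‖ * (‖S'.th γ A‖ * ‖a‖) := by gcongr
    _ ≤ K * (‖S'.th γ A‖ * ‖a‖) := by gcongr; exact hM β γ

lemma cn_le (m : ℝ) (hm0 : 0 ≤ m) (hm1 : m ≤ 1) (A : Fin dh) (α α' : Fin 16)
    (p : Fin 9 × Fin dh) : ‖cn N m A α α' p‖ ≤ ‖N p.1 α α'‖ := by
  unfold cn
  split_ifs
  · rw [norm_mul, Complex.norm_real, Real.norm_of_nonneg hm0]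
    calc m * ‖N p.1 α α'‖ ≤ 1 * ‖N p.1 α α'‖ := by gcongr
      _ = _ := one_mul _
  · simp

/-- sum of the quadratic coefficients -/
noncomputable def K1 : ℝ := ∑ A, ∑ α, ∑ α', ∑ p, ∑ q, 2 * ‖cq S φ A α α' p q‖

/-- sum of the linear coefficients -/
noncomputable def K2 (dh : ℕ) : ℝ := ∑ α, ∑ α', ∑ p : Fin 9 × Fin dh, ‖N p.1 α α'‖

lemma K1_nonneg : 0 ≤ K1 S φ := by
  unfold K1
  positivity

lemma K2_nonneg : 0 ≤ K2 N dh := by
  unfold K2
  positivity

lemma dt_le (m : ℝ) (hm0 : 0 ≤ m) (hm1 : m ≤ 1) (A : Fin dh) (α α' : Fin 16) (x : Cfg dh)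
    (r : Fin 9 × Fin dh) :
    ‖fderiv ℝ (fun z => tH S φ N m A z α α') x (EuclideanSpace.single r 1)‖ ≤
      K1 S φ * ‖x‖ + K2 N dh := by
  have h : (fun x => tH S φ N m A x α α') = pol (cq S φ A α α') (cn N m A α α') := by
    funext x
    exact tH_pol S φ N m A α α' x
  rw [h]
  refine (pol_fd _ _ x r).trans (add_le_add ?_ ?_)
  · refine mul_le_mul_of_nonneg_right ?_ (norm_nonneg x)
    unfold K1
    refine le_trans ?_ (Finset.single_le_sum (f := fun A => ∑ α, ∑ α', ∑ p, ∑ q,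
      2 * ‖cq S φ A α α' p q‖) (fun i _ => by positivity) (Finset.mem_univ A))
    refine le_trans ?_ (Finset.single_le_sum (f := fun α => ∑ α', ∑ p, ∑ q,
      2 * ‖cq S φ A α α' p q‖) (fun i _ => by positivity) (Finset.mem_univ α))
    exact Finset.single_le_sum (f := fun α' => ∑ p, ∑ q,
      2 * ‖cq S φ A α α' p q‖) (fun i _ => by positivity) (Finset.mem_univ α')
  · unfold K2
    refine (Finset.sum_le_sum fun p _ => cn_le N m hm0 hm1 A α α' p).trans ?_
    refine le_trans ?_ (Finset.single_le_sum (f := fun α => ∑ α', ∑ p : Fin 9 × Fin dh,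
      ‖N p.1 α α'‖) (fun i _ => by positivity) (Finset.mem_univ α))
    exact Finset.single_le_sum (f := fun α' => ∑ p : Fin 9 × Fin dh,
      ‖N p.1 α α'‖) (fun i _ => by positivity) (Finset.mem_univ α')

/-- the zero order term -/
noncomputable def ZZ (S' : Setup dh F) (m : ℝ) (x : Cfg dh) (a : F) : F :=
  (-Complex.I) • ∑ β, ∑ j, ∑ B, S'.vec (S'.g j) B β
    (∑ A, S'.vec (Matrix.of fun α α' => fderiv ℝ (fun z => tH S φ N m A z α α') x
      (EuclideanSpace.single (j, B) 1)) A β a)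

/-- constant in the bound of the zero order term -/
noncomputable def KZ (S' : Setup dh F) : ℝ :=
  (∑ β, ∑ j, ∑ B, ‖S'.vec (S'.g j) B β‖) * ((K1 S φ + K2 N dh) * ∑ A, ∑ γ, ‖S'.th γ A‖)

lemma KZ_nonneg (S' : Setup dh F) : 0 ≤ KZ S φ N S' := by
  unfold KZ
  have h1 := K1_nonneg S φ
  have h2 := K2_nonneg (dh := dh) N
  positivity

lemma ZZ_le (S' : Setup dh F) (m : ℝ) (hm0 : 0 ≤ m) (hm1 : m ≤ 1) (x : Cfg dh) (a : F) :
    ‖ZZ S φ N S' m x a‖ ≤ KZ S φ N S' * ((1 + ‖x‖) * ‖a‖) := by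
  unfold ZZ KZ
  rw [norm_smul, norm_neg, Complex.norm_I, one_mul]
  set T : ℝ := ∑ A, ∑ γ, ‖S'.th γ A‖ with hT
  have hT0 : 0 ≤ T := by positivity
  have k1 := K1_nonneg S φ
  have k2 := K2_nonneg (dh := dh) N
  have hin : ∀ β j B, ‖∑ A, S'.vec (Matrix.of fun α α' => fderiv ℝ
      (fun z => tH S φ N m A z α α') x (EuclideanSpace.single (j, B) 1)) A β a‖ ≤
      (K1 S φ + K2 N dh) * T * ((1 + ‖x‖) * ‖a‖) := by
    intro β j B
    have e1 : ‖∑ A, S'.vec (Matrix.of fun α α' => fderiv ℝ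
        (fun z => tH S φ N m A z α α') x (EuclideanSpace.single (j, B) 1)) A β a‖ ≤
        ∑ A, (K1 S φ * ‖x‖ + K2 N dh) * ((∑ γ, ‖S'.th γ A‖) * ‖a‖) := by
      refine (norm_sum_le _ _).trans (Finset.sum_le_sum fun A _ => ?_)
      refine vec_le S' _ A β _ (fun α α' => ?_) a
      rw [Matrix.of_apply]
      exact dt_le S φ N m hm0 hm1 A α α' x (j, B)
    refine e1.trans ?_
    rw [← Finset.mul_sum, ← Finset.sum_mul, ← hT]
    have hx := norm_nonneg x
    have ha := norm_nonneg a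
    have e2 : K1 S φ * ‖x‖ + K2 N dh ≤ (K1 S φ + K2 N dh) * (1 + ‖x‖) := by nlinarith
    calc (K1 S φ * ‖x‖ + K2 N dh) * (T * ‖a‖) ≤
        ((K1 S φ + K2 N dh) * (1 + ‖x‖)) * (T * ‖a‖) := by gcongr
      _ = _ := by ring
  have h1 : ‖∑ β, ∑ j, ∑ B, S'.vec (S'.g j) B β
      (∑ A, S'.vec (Matrix.of fun α α' => fderiv ℝ (fun z => tH S φ N m A z α α') x
      (EuclideanSpace.single (j, B) 1)) A β a)‖ ≤
      ∑ β, ∑ j, ∑ B, ‖S'.vec (S'.g j) B β‖ * ((K1 S φ + K2 N dh) * T * ((1 + ‖x‖) * ‖a‖)) := by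
    refine (norm_sum_le _ _).trans (Finset.sum_le_sum fun β _ => ?_)
    refine (norm_sum_le _ _).trans (Finset.sum_le_sum fun j _ => ?_)
    refine (norm_sum_le _ _).trans (Finset.sum_le_sum fun B _ => ?_)
    refine ((S'.vec (S'.g j) B β).le_opNorm _).trans ?_
    gcongr
    exact hin β j B
  refine h1.trans (le_of_eq ?_)
  simp only [← Finset.sum_mul]
  ring

/-! ### the bound on a fibre -/

lemma fib (S' : Setup dh F) (hG : GenStmt S') (hg : S'.g = S.g)
    (hN : ∀ i α β, (N i α β).im = 0) (ht : ∀ i j, (S.g i * (N j).transpose).trace = 0)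
    (m : ℝ) (hm0 : 0 ≤ m) (hm1 : m ≤ 1) (u : Cfg dh → F) (hu : Setup.Tst u) (L : ℝ)
    (hL : ∀ y, u y ≠ 0 → ‖y‖ ≤ L) :
    8 * (∑ i, ∑ A, nsq (pd i A u)) ≤
      (∑ β, nsq (fun x => S'.Q0 β u x + ∑ A, S'.vec (tH S φ N m A x) A β (u x))) +
        KZ S φ N S' * (1 + L) * nsq u := by
  have key := hG (tH S φ N m) (tH_cd S φ N m) (tH_im S φ N hN m)
    (fun i A x => by rw [hg]; exact tH_tr S φ N ht m i A x) u hu
  rw [key]
  have h1 : 0 ≤ ∫ x, (∑ A, (tH S φ N m A x * (tH S φ N m A x).transpose).trace).re *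
      ‖u x‖ ^ 2 := by
    refine integral_nonneg fun x => mul_nonneg ?_ (by positivity)
    rw [Complex.re_sum]
    refine Finset.sum_nonneg fun A _ => ?_
    rw [Matrix.trace, Complex.re_sum]
    refine Finset.sum_nonneg fun α _ => ?_
    rw [Matrix.diag_apply, Matrix.mul_apply, Complex.re_sum]
    refine Finset.sum_nonneg fun β _ => ?_
    rw [Matrix.transpose_apply, Complex.mul_re, tH_im S φ N hN m A x α β]
    nlinarith [mul_self_nonneg (tH S φ N m A x α β).re]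
  have h2 : |(∫ x, inner ℂ (u x) (ZZ S φ N S' m x (u x))).re| ≤
      KZ S φ N S' * (1 + L) * nsq u := by
    refine (Complex.abs_re_le_norm _).trans ?_
    have hK := KZ_nonneg S φ N S'
    have e1 : ‖∫ x, inner ℂ (u x) (ZZ S φ N S' m x (u x))‖ ≤
        ∫ x, KZ S φ N S' * (1 + L) * ‖u x‖ ^ 2 := by
      refine norm_integral_le_of_norm_le (hu.norm_sq_int.const_mul _)
        (Eventually.of_forall fun x => ?_)
      refine (norm_inner_le_norm _ _).trans ?_
      by_cases hx : u x = 0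
      · simp [hx]
      · have hxl := hL x hx
        calc ‖u x‖ * ‖ZZ S φ N S' m x (u x)‖ ≤
            ‖u x‖ * (KZ S φ N S' * ((1 + ‖x‖) * ‖u x‖)) := by
              gcongr
              exact ZZ_le S φ N S' m hm0 hm1 x (u x)
          _ ≤ ‖u x‖ * (KZ S φ N S' * ((1 + L) * ‖u x‖)) := by gcongr
          _ = KZ S φ N S' * (1 + L) * ‖u x‖ ^ 2 := by ring
    refine e1.trans (le_of_eq ?_)
    rw [integral_const_mul]
    rfl
  have h3 : (∫ x, inner ℂ (u x) ((-Complex.I) • ∑ β, ∑ j, ∑ B, S'.vec (S'.g j) B β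
        (∑ A, S'.vec (Matrix.of fun α α' => fderiv ℝ (fun z => tH S φ N m A z α α') x
          (EuclideanSpace.single (j, B) 1)) A β (u x)))).re =
      (∫ x, inner ℂ (u x) (ZZ S φ N S' m x (u x))).re := rfl
  rw [h3]
  have h4 := (abs_le.mp h2).1
  linarith

end Vale.Agent.P353.Z.AN.EnH964

namespace Vale.Agent.P353.Z.AN

variable {d dh dm : ℕ} {F : Type*} [NormedAddCommGroup F] [InnerProductSpace ℂ F]

open EnH964 in
theorem enH_stmt (S : Setup d F) (φ : Spl dh dm d) (hA : CalcA dh dm F) (hB : CalcB dh dm F)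
    (hG : ∀ S' : Setup dh F, GenStmt S') : EnHStmt S φ := by
  intro h N hN
  set S' : Setup dh F := S.sub φ h with hS'
  have hK := KZ_nonneg S φ N S'
  refine ⟨1 + KZ S φ N S', by linarith, ?_⟩
  intro m hm0 hm1 v hv L hL0 hL
  have hQ : ∀ β, Tst2 (S.Qhm φ N m β v) := fun β => (Op687.sm_Qhm S φ hA hB N hN.real m β).1 v hv
  have hpt : ∀ w, 8 * (∑ i, ∑ A, nsq (fun y => py i A v y w)) ≤
      (∑ β, nsq (fun y => S.Qhm φ N m β v y w)) +
        KZ S φ N S' * (1 + L) * nsq (fun y => v y w) := by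
    intro w
    have h1 := fib S φ N S' (hG S') rfl hN.real hN.tr m hm0 hm1 (fun y => v y w) (hA.sly v hv w) L
      (fun y hy => hL y w hy)
    have h2 : ∀ β, nsq (fun x => S'.Q0 β (fun y => v y w) x +
        ∑ A, S'.vec (tH S φ N m A x) A β (v x w)) = nsq (fun y => S.Qhm φ N m β v y w) := by
      intro β
      congr 1
      funext y
      exact key_eq S φ N h m β v y w
    simp only [h2] at h1
    exact h1
  have i1 : ∀ i A, Integrable (fun w => nsq (fun y => py i A v y w)) := fun i A =>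
    (hB.wy _ (hA.py i A v hv)).1
  have i2 : ∀ β, Integrable (fun w => nsq (fun y => S.Qhm φ N m β v y w)) := fun β =>
    (hB.wy _ (hQ β)).1
  have i3 : Integrable (fun w => nsq (fun y => v y w)) := (hB.wy _ hv).1
  have i1' : Integrable (fun w => 8 * (∑ i, ∑ A, nsq (fun y => py i A v y w))) :=
    (integrable_finsetSum _ fun i _ => integrable_finsetSum _ fun A _ => i1 i A).const_mul _
  have i2' : Integrable (fun w => ∑ β, nsq (fun y => S.Qhm φ N m β v y w)) :=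
    integrable_finsetSum _ fun β _ => i2 β
  have hint := integral_mono i1' (i2'.add (i3.const_mul (KZ S φ N S' * (1 + L)))) hpt
  simp only [Pi.add_apply] at hint
  rw [integral_add i2' (i3.const_mul _), integral_const_mul, integral_const_mul,
    integral_finsetSum _ fun β _ => i2 β,
    integral_finsetSum _ fun i _ => integrable_finsetSum _ fun A _ => i1 i A] at hint
  have e1 : D2y v = ∑ i, ∫ w, ∑ A, nsq (fun y => py i A v y w) := by
    unfold D2y
    refine Finset.sum_congr rfl fun i _ => ?_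
    rw [integral_finsetSum _ fun A _ => i1 i A]
    refine Finset.sum_congr rfl fun A _ => ?_
    exact (hB.wy _ (hA.py i A v hv)).2
  have e2 : S.EH φ N m v = ∑ β, ∫ w, nsq (fun y => S.Qhm φ N m β v y w) := by
    unfold Setup.EH
    exact Finset.sum_congr rfl fun β _ => (hB.wy _ (hQ β)).2
  have e3 : ns2 v = ∫ w, nsq (fun y => v y w) := (hB.wy _ hv).2
  rw [← e1, ← e2, ← e3] at hint
  have p1 : 0 ≤ D2y v := by
    unfold D2y
    exact Finset.sum_nonneg fun i _ => Finset.sum_nonneg fun A _ => hB.nonneg _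
  have p2 : 0 ≤ S.EH φ N m v := by
    unfold Setup.EH
    exact Finset.sum_nonneg fun β _ => hB.nonneg _
  have p3 : 0 ≤ ns2 v := hB.nonneg _
  have p4 : 0 ≤ (1 + L) * ns2 v := mul_nonneg (by linarith) p3
  have p5 : 0 ≤ KZ S φ N S' * S.EH φ N m v := mul_nonneg hK p2
  nlinarith [mul_nonneg hK p4]

end Vale.Agent.P353.Z.AN
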