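import Vale.Agent.P353.AN.C.Stmt

/-! # P353, all `N`, block C: integrated fibre facts (`FIntStmt`) -/

open MeasureTheory Filter Topology
open scoped ContDiff

namespace Vale.Agent.P353.Z.AN

namespace FI808

variable {d dh dm : ℕ} {F : Type*} [NormedAddCommGroup F] [InnerProductSpace ℂ F]

private lemma nsf_zero {E : Type*} [NormedAddCommGroup E] (f : Wsp dm → E) (h : ∀ w, f w = 0) :
    nsf f = 0 := by
  unfold nsf
  simp [h]

private lemma nsf_nonneg {E : Type*} [NormedAddCommGroup E] (f : Wsp dm → E) : 0 ≤ nsf f :=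
  integral_nonneg fun _ => by positivity

private lemma e1_nonneg (S : Setup d F) (φ : Spl dh dm d) (D : Fin 9 → Matrix (Fin dm) (Fin dm) ℝ)
    (f : Wsp dm → F) : 0 ≤ S.e1 φ D f := by
  unfold Setup.e1
  exact mul_nonneg (by norm_num) (Finset.sum_nonneg fun β _ => nsf_nonneg _)

/-- the energy on the slice is the integral of the fibre energy -/
private lemma E1_int (S : Setup d F) (φ : Spl dh dm d) (hB : CalcB dh dm F)
    (v : Cfg dh → Wsp dm → F) (h1 : ∀ β, Tst2 (S.Q1 φ β v)) :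
    Integrable (fun y => S.e1 φ (S.DY φ y) (v y)) ∧
      S.E1 φ v = 16 * ∫ y, S.e1 φ (S.DY φ y) (v y) := by
  have hi : ∀ β ∈ (Finset.univ : Finset (Fin 16)), Integrable (fun y => nsf (S.Q1 φ β v y)) :=
    fun β _ => (hB.yw _ (h1 β)).1
  have he : ∀ y, S.e1 φ (S.DY φ y) (v y) = (1 / 16) * ∑ β, nsf (S.Q1 φ β v y) := fun y => rfl
  refine ⟨?_, ?_⟩
  · simp only [he]
    exact (integrable_finset_sum _ hi).const_mul _
  · simp only [he]
    rw [integral_const_mul, integral_finset_sum _ hi]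
    unfold Setup.E1
    rw [← mul_assoc, show (16 : ℝ) * (1 / 16) = 1 by norm_num, one_mul]
    exact Finset.sum_congr rfl fun β _ => (hB.yw _ (h1 β)).2

/-- `∫∫ |∂_w v|²` as an integral over the fibres -/
private lemma D2w_int (hA : CalcA dh dm F) (hB : CalcB dh dm F)
    (v : Cfg dh → Wsp dm → F) (hv : Tst2 v) :
    Integrable (fun y => ∑ j, ∑ B, nsf (pf j B (v y))) ∧
      D2w v = ∫ y, ∑ j, ∑ B, nsf (pf j B (v y)) := by
  have he : ∀ (y : Cfg dh) (j : Fin 8) (B : Fin dm), nsf (pf j B (v y)) = nsf (pw j B v y) :=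
    fun y j B => rfl
  have hi : ∀ (j : Fin 8) (B : Fin dm), Integrable (fun y => nsf (pf j B (v y))) := by
    intro j B
    simp only [he]
    exact (hB.yw _ (hA.pw j B v hv)).1
  have hi2 : ∀ j : Fin 8, Integrable (fun y => ∑ B, nsf (pf j B (v y))) := fun j =>
    integrable_finset_sum _ fun B _ => hi j B
  refine ⟨integrable_finset_sum _ fun j _ => hi2 j, ?_⟩
  rw [integral_finset_sum _ fun j _ => hi2 j]
  unfold D2w
  refine Finset.sum_congr rfl fun j _ => ?_
  rw [integral_finset_sum _ fun B _ => hi j B]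
  refine Finset.sum_congr rfl fun B _ => ?_
  rw [(hB.yw _ (hA.pw j B v hv)).2]
  rfl

end FI808

open FI808

variable {d dh dm : ℕ} {F : Type*} [NormedAddCommGroup F] [InnerProductSpace ℂ F]

/-- **C-FInt** integrated fibre facts -/
theorem fInt_stmt (S : Setup d F) (φ : Spl dh dm d) : CalcA dh dm F → CalcB dh dm F →
    OpStmt S φ → FIntStmt S φ := by
  intro hA hB hop Y ε0 C0 C1 hε0 hcf hfib hC1 R hR v hv hsup
  have hO := hop (fun _ => 0) (fun _ _ _ => rfl) Y ε0 C0 hε0 hcf
  have h1 : ∀ β, Tst2 (S.Q1 φ β v) := fun β => hO.t1 R hR v hv hsup β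
  have hvz : ∀ y, ¬ ‖y - R • Y‖ ≤ ε0 * R → ∀ w, v y w = 0 := by
    intro y hy w
    by_contra h
    exact hy (hsup y w h).1
  obtain ⟨hei, heE⟩ := E1_int S φ hB v h1
  obtain ⟨hni, hnE⟩ := hB.yw v hv
  have hE0 : 0 ≤ ∫ y, S.e1 φ (S.DY φ y) (v y) := integral_nonneg fun y => e1_nonneg S φ _ _
  have hE1 : ∫ y, S.e1 φ (S.DY φ y) (v y) ≤ S.E1 φ v := by rw [heE]; linarith
  refine ⟨?_, fun hodd => ?_⟩
  · obtain ⟨hdi, hdE⟩ := D2w_int hA hB v hv
    obtain ⟨hwi, hwE⟩ := hB.W2_yw v hv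
    have hpt : ∀ y, (∑ j, ∑ B, nsf (pf j B (v y))) +
        R ^ 2 * nsf (fun w => ((‖w‖ : ℝ) : ℂ) • v y w) ≤
        C1 * (S.e1 φ (S.DY φ y) (v y) + R * nsf (v y)) := by
      intro y
      by_cases hy : ‖y - R • Y‖ ≤ ε0 * R
      · exact hfib.F1 R hR y hy (v y) (hA.slw v hv y)
      · have hz := hvz y hy
        have hz' : v y = fun _ => 0 := funext hz
        have e1 : ∀ (j : Fin 8) (B : Fin dm), nsf (pf j B (v y)) = 0 := by
          intro j B
          refine nsf_zero _ fun w => ?_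
          unfold pf
          rw [hz']
          simp
        have e2 : nsf (fun w => ((‖w‖ : ℝ) : ℂ) • v y w) = 0 :=
          nsf_zero _ fun w => by rw [hz w, smul_zero]
        rw [e2]
        simp only [e1, Finset.sum_const_zero, mul_zero, add_zero]
        exact mul_nonneg hC1 (add_nonneg (e1_nonneg S φ _ _) (mul_nonneg hR.le (nsf_nonneg _)))
    have hint := integral_mono (hdi.add (hwi.const_mul (R ^ 2)))
      ((hei.add (hni.const_mul R)).const_mul C1) (fun y => hpt y)
    have l1 : ∫ y, ((fun y => ∑ j, ∑ B, nsf (pf j B (v y))) +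
        fun y => R ^ 2 * nsf (fun w => ((‖w‖ : ℝ) : ℂ) • v y w)) y = D2w v + R ^ 2 * W2 v := by
      rw [hdE, hwE, ← integral_const_mul]
      exact integral_add hdi (hwi.const_mul _)
    have l2 : ∫ y, C1 * ((fun y => S.e1 φ (S.DY φ y) (v y)) + fun y => R * nsf (v y)) y =
        C1 * ((∫ y, S.e1 φ (S.DY φ y) (v y)) + R * ns2 v) := by
      rw [integral_const_mul, hnE, ← integral_const_mul R]
      congr 1
      exact integral_add hei (hni.const_mul _)
    rw [l1, l2] at hint
    refine hint.trans (mul_le_mul_of_nonneg_left ?_ hC1)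
    linarith
  · have hpt : ∀ y, R * nsf (v y) ≤ C1 * S.e1 φ (S.DY φ y) (v y) := by
      intro y
      by_cases hy : ‖y - R • Y‖ ≤ ε0 * R
      · exact hfib.F3 R hR y hy (v y) (hA.slw v hv y) (hodd y)
      · rw [nsf_zero (v y) (hvz y hy), mul_zero]
        exact mul_nonneg hC1 (e1_nonneg S φ _ _)
    have hint := integral_mono (hni.const_mul R) (hei.const_mul C1) (fun y => hpt y)
    rw [integral_const_mul, integral_const_mul, ← hnE] at hint
    exact hint.trans (mul_le_mul_of_nonneg_left hE1 hC1)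

end Vale.Agent.P353.Z.AN
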