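import Vale.Agent.P353.AN.C.Stmt

/-! # P353, all `N`, block C: fibre facts near `R Y` from the fibre facts at a frozen point -/

open MeasureTheory Filter Topology
open scoped ContDiff

namespace Vale.Agent.P353.Z.AN

variable {d dh dm : ℕ} {F : Type*} [NormedAddCommGroup F] [InnerProductSpace ℂ F]

lemma fo_anti (S : Setup d F) (φ : Spl dh dm d) (i : Fin 9) (y : Cfg dh) :
    (S.Dy φ i y).transpose = -S.Dy φ i y := by
  ext B C
  simp only [Setup.Dy, Setup.Dm, Matrix.transpose_apply, Matrix.of_apply, Matrix.neg_apply]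
  rw [← Finset.sum_neg_distrib]
  refine Finset.sum_congr rfl fun A _ => ?_
  rw [S.f_cyc (φ (Sum.inr C)) (φ (Sum.inl A)) (φ (Sum.inr B)),
    S.f_swap (φ (Sum.inl A)) (φ (Sum.inr B)) (φ (Sum.inr C))]
  ring

/-- the product of two matrices `D` -/
lemma fo_mul (S : Setup d F) (φ : Spl dh dm d) (h : S.IsSub φ) (i j : Fin 9) (y : Cfg dh)
    (B C : Fin dm) :
    (S.Dy φ i y * S.Dy φ j y) B C = ∑ A, ∑ A', (∑ E, S.f (φ (Sum.inr B)) (φ (Sum.inl A)) E *
      S.f E (φ (Sum.inl A')) (φ (Sum.inr C))) * (y (i, A) * y (j, A')) := by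
  have h0 : ∀ (A : Fin dh) (E : Fin dh), S.f (φ (Sum.inr B)) (φ (Sum.inl A)) (φ (Sum.inl E)) = 0 := by
    intro A E
    rw [S.f_cyc]
    exact h A E B
  rw [Matrix.mul_apply]
  simp only [Setup.Dy, Setup.Dm, Matrix.of_apply, Finset.sum_mul_sum]
  rw [Finset.sum_comm]
  refine Finset.sum_congr rfl fun A _ => ?_
  rw [Finset.sum_comm]
  refine Finset.sum_congr rfl fun A' _ => ?_
  rw [← φ.sum_comp, Fintype.sum_sum_type]
  simp only [h0, zero_mul, Finset.sum_const_zero, zero_add, Finset.sum_mul]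
  exact Finset.sum_congr rfl fun E _ => by ring

lemma fo_comm (S : Setup d F) (φ : Spl dh dm d) (Y : Cfg dh) (hY : Std S φ Y) (i j : Fin 9) :
    S.Dy φ i Y * S.Dy φ j Y = S.Dy φ j Y * S.Dy φ i Y := by
  ext B C
  rw [fo_mul S φ hY.sub, fo_mul S φ hY.sub]
  rw [Finset.sum_comm (f := fun A A' => (∑ E, S.f (φ (Sum.inr B)) (φ (Sum.inl A)) E *
      S.f E (φ (Sum.inl A')) (φ (Sum.inr C))) * (Y (j, A) * Y (i, A')))]
  rw [← sub_eq_zero, ← Finset.sum_sub_distrib]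
  -- Jacobi
  have hj : ∀ A A' : Fin dh, (∑ E, S.f (φ (Sum.inr B)) (φ (Sum.inl A)) E *
      S.f E (φ (Sum.inl A')) (φ (Sum.inr C))) - (∑ E, S.f (φ (Sum.inr B)) (φ (Sum.inl A')) E *
      S.f E (φ (Sum.inl A)) (φ (Sum.inr C))) =
      -∑ E, S.f (φ (Sum.inl A)) (φ (Sum.inl A')) (φ (Sum.inl E)) *
        S.f (φ (Sum.inl E)) (φ (Sum.inr B)) (φ (Sum.inr C)) := by
    intro A A'
    have h1 := S.f_jac (φ (Sum.inr B)) (φ (Sum.inl A)) (φ (Sum.inl A')) (φ (Sum.inr C))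
    rw [Finset.sum_add_distrib, Finset.sum_add_distrib] at h1
    have h2 : ∑ E, S.f (φ (Sum.inl A')) (φ (Sum.inr B)) E * S.f E (φ (Sum.inl A)) (φ (Sum.inr C)) =
        -∑ E, S.f (φ (Sum.inr B)) (φ (Sum.inl A')) E * S.f E (φ (Sum.inl A)) (φ (Sum.inr C)) := by
      rw [← Finset.sum_neg_distrib]
      refine Finset.sum_congr rfl fun E _ => ?_
      rw [S.f_swap (φ (Sum.inl A')) (φ (Sum.inr B)) E]
      ring
    have h3 : ∑ E, S.f (φ (Sum.inl A)) (φ (Sum.inl A')) E * S.f E (φ (Sum.inr B)) (φ (Sum.inr C)) =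
        ∑ E, S.f (φ (Sum.inl A)) (φ (Sum.inl A')) (φ (Sum.inl E)) *
          S.f (φ (Sum.inl E)) (φ (Sum.inr B)) (φ (Sum.inr C)) := by
      rw [← φ.sum_comp, Fintype.sum_sum_type]
      have h4 : ∀ E : Fin dm, S.f (φ (Sum.inl A)) (φ (Sum.inl A')) (φ (Sum.inr E)) = 0 :=
        fun E => hY.sub A A' E
      simp only [h4, zero_mul, Finset.sum_const_zero, add_zero]
    rw [h2, h3] at h1
    linarith
  have h5 : ∑ A, ((∑ A', (∑ E, S.f (φ (Sum.inr B)) (φ (Sum.inl A)) E *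
        S.f E (φ (Sum.inl A')) (φ (Sum.inr C))) * (Y (i, A) * Y (j, A'))) -
      ∑ A', (∑ E, S.f (φ (Sum.inr B)) (φ (Sum.inl A')) E *
        S.f E (φ (Sum.inl A)) (φ (Sum.inr C))) * (Y (j, A') * Y (i, A))) =
      ∑ A', ∑ E, ∑ A, -(S.f (φ (Sum.inl A)) (φ (Sum.inl A')) (φ (Sum.inl E)) * Y (i, A) *
        (S.f (φ (Sum.inl E)) (φ (Sum.inr B)) (φ (Sum.inr C)) * Y (j, A'))) := by
    have h6 : ∀ A, ((∑ A', (∑ E, S.f (φ (Sum.inr B)) (φ (Sum.inl A)) E *
        S.f E (φ (Sum.inl A')) (φ (Sum.inr C))) * (Y (i, A) * Y (j, A'))) -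
      ∑ A', (∑ E, S.f (φ (Sum.inr B)) (φ (Sum.inl A')) E *
        S.f E (φ (Sum.inl A)) (φ (Sum.inr C))) * (Y (j, A') * Y (i, A))) =
        ∑ A', ∑ E, -(S.f (φ (Sum.inl A)) (φ (Sum.inl A')) (φ (Sum.inl E)) * Y (i, A) *
        (S.f (φ (Sum.inl E)) (φ (Sum.inr B)) (φ (Sum.inr C)) * Y (j, A'))) := by
      intro A
      rw [← Finset.sum_sub_distrib]
      refine Finset.sum_congr rfl fun A' _ => ?_
      rw [mul_comm (Y (j, A')) (Y (i, A)), ← sub_mul, hj, neg_mul, Finset.sum_mul,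
        ← Finset.sum_neg_distrib]
      exact Finset.sum_congr rfl fun E _ => by ring
    rw [Finset.sum_congr rfl fun A _ => h6 A, Finset.sum_comm]
    exact Finset.sum_congr rfl fun A' _ => Finset.sum_comm
  rw [h5]
  refine Finset.sum_eq_zero fun A' _ => Finset.sum_eq_zero fun E _ => ?_
  rw [Finset.sum_neg_distrib, ← Finset.sum_mul, hY.cen i A' E, zero_mul, neg_zero]

lemma fo_frz (S : Setup d F) (φ : Spl dh dm d) (Y : Cfg dh) (hY : Std S φ Y) : Frz (S.DY φ Y) :=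
  ⟨fun i => fo_anti S φ i Y, fun i j => fo_comm S φ Y hY i j, hY.inv⟩

/-- the constant of the linear bound -/
noncomputable def foK (S : Setup d F) (φ : Spl dh dm d) : ℝ :=
  1 + ∑ B, ∑ E, ∑ A, |S.f (φ (Sum.inr B)) (φ (Sum.inl A)) (φ (Sum.inr E))|

lemma foK_pos (S : Setup d F) (φ : Spl dh dm d) : 0 < foK S φ := by
  unfold foK
  have : 0 ≤ ∑ B, ∑ E, ∑ A, |S.f (φ (Sum.inr B)) (φ (Sum.inl A)) (φ (Sum.inr E))| :=
    Finset.sum_nonneg fun B _ => Finset.sum_nonneg fun E _ => Finset.sum_nonneg fun A _ => abs_nonneg _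
  linarith

lemma fo_lin (S : Setup d F) (φ : Spl dh dm d) (i : Fin 9) (y : Cfg dh) (B E : Fin dm) :
    |S.Dy φ i y B E| ≤ foK S φ * ‖y‖ := by
  simp only [Setup.Dy, Setup.Dm, Matrix.of_apply]
  have h1 : ∀ A, |y (i, A)| ≤ ‖y‖ := fun A => by
    have := PiLp.norm_apply_le y (i, A)
    rwa [Real.norm_eq_abs] at this
  calc |∑ A, S.f (φ (Sum.inr B)) (φ (Sum.inl A)) (φ (Sum.inr E)) * y (i, A)|
      ≤ ∑ A, |S.f (φ (Sum.inr B)) (φ (Sum.inl A)) (φ (Sum.inr E)) * y (i, A)| :=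
        Finset.abs_sum_le_sum_abs _ _
    _ ≤ ∑ A, |S.f (φ (Sum.inr B)) (φ (Sum.inl A)) (φ (Sum.inr E))| * ‖y‖ := by
        refine Finset.sum_le_sum fun A _ => ?_
        rw [abs_mul]
        exact mul_le_mul_of_nonneg_left (h1 A) (abs_nonneg _)
    _ = (∑ A, |S.f (φ (Sum.inr B)) (φ (Sum.inl A)) (φ (Sum.inr E))|) * ‖y‖ := by
        rw [Finset.sum_mul]
    _ ≤ foK S φ * ‖y‖ := by
        refine mul_le_mul_of_nonneg_right ?_ (norm_nonneg _)
        have h2 : ∑ A, |S.f (φ (Sum.inr B)) (φ (Sum.inl A)) (φ (Sum.inr E))| ≤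
            ∑ E', ∑ A, |S.f (φ (Sum.inr B)) (φ (Sum.inl A)) (φ (Sum.inr E'))| :=
          Finset.single_le_sum (f := fun E' => ∑ A, |S.f (φ (Sum.inr B)) (φ (Sum.inl A))
            (φ (Sum.inr E'))|) (fun E' _ => Finset.sum_nonneg fun A _ => abs_nonneg _)
            (Finset.mem_univ E)
        have h3 : ∑ E', ∑ A, |S.f (φ (Sum.inr B)) (φ (Sum.inl A)) (φ (Sum.inr E'))| ≤
            ∑ B', ∑ E', ∑ A, |S.f (φ (Sum.inr B')) (φ (Sum.inl A)) (φ (Sum.inr E'))| :=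
          Finset.single_le_sum (f := fun B' => ∑ E', ∑ A, |S.f (φ (Sum.inr B')) (φ (Sum.inl A))
            (φ (Sum.inr E'))|) (fun B' _ => Finset.sum_nonneg fun E' _ =>
              Finset.sum_nonneg fun A _ => abs_nonneg _) (Finset.mem_univ B)
        unfold foK
        linarith

lemma fo_sub (S : Setup d F) (φ : Spl dh dm d) (i : Fin 9) (y Y : Cfg dh) (R : ℝ) (B E : Fin dm) :
    S.Dy φ i y B E - R * S.Dy φ i Y B E = S.Dy φ i (y - R • Y) B E := by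
  simp only [Setup.Dy, Setup.Dm, Matrix.of_apply, PiLp.sub_apply, PiLp.smul_apply, smul_eq_mul]
  rw [Finset.mul_sum, ← Finset.sum_sub_distrib]
  exact Finset.sum_congr rfl fun A _ => by ring

lemma fo_near (S : Setup d F) (φ : Spl dh dm d) (y Y : Cfg dh) {R ε : ℝ}
    (h : ‖y - R • Y‖ ≤ ε * R) (i : Fin 9) (B E : Fin dm) :
    |S.DY φ y i B E - R * S.DY φ Y i B E| ≤ foK S φ * ε * R := by
  show |S.Dy φ i y B E - R * S.Dy φ i Y B E| ≤ foK S φ * ε * R
  rw [fo_sub]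
  refine (fo_lin S φ i _ B E).trans ?_
  rw [mul_assoc]
  exact mul_le_mul_of_nonneg_left h (foK_pos S φ).le

lemma fo_nsf {E : Type*} [NormedAddCommGroup E] (f : Wsp dm → E) : 0 ≤ nsf f :=
  integral_nonneg fun _ => by positivity

lemma fo_e1 (S : Setup d F) (φ : Spl dh dm d) (D : Fin 9 → Matrix (Fin dm) (Fin dm) ℝ)
    (f : Wsp dm → F) : 0 ≤ S.e1 φ D f := by
  unfold Setup.e1
  exact mul_nonneg (by norm_num) (Finset.sum_nonneg fun β _ => fo_nsf _)

/-- **C-Fib** -/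
theorem fibOut_stmt (S : Setup d F) (φ : Spl dh dm d) :
    OmStmt → FibStmt S φ → FibOutStmt S φ := by
  intro hOm hFib hF Y hY
  have hz := fo_frz S φ Y hY
  obtain ⟨Om, hO⟩ := hOm dm S.κ (S.DY φ Y) S.κ_pos hz
  obtain ⟨c0, C, ε1, hc0, hC, hε1, H⟩ := hFib hF (S.DY φ Y) Om hz hO
  have hK := foK_pos S φ
  set K := foK S φ with hKd
  have hCout : 0 ≤ C + 1 / c0 + C * K ^ 2 / c0 + C * K ^ 2 := by positivity
  have b1 : 0 ≤ 1 / c0 := by positivity
  have b2 : 0 ≤ C * K ^ 2 / c0 := by positivity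
  have b3 : 0 ≤ C * K ^ 2 := by positivity
  have hKε : K * (ε1 / K) = ε1 := by field_simp
  refine ⟨Om, ε1 / K, C + 1 / c0 + C * K ^ 2 / c0 + C * K ^ 2, hO, hz, by positivity, hCout,
    ⟨fun R hR y hy f hf => ?_, fun R hR y hy f hf hodd => ?_⟩, fun R hR ε hε hεε y hy f hf => ?_⟩
  · have h1 := (H R hR ε1 hε1.le le_rfl (S.DY φ y) (fun i B E => by
      have := fo_near S φ y Y hy i B E
      rwa [← hKd, hKε] at this)).2 f hf
    refine h1.1.trans (mul_le_mul_of_nonneg_right (by linarith) ?_)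
    exact add_nonneg (fo_e1 S φ _ f) (mul_nonneg hR.le (fo_nsf f))
  · have h1 := (H R hR ε1 hε1.le le_rfl (S.DY φ y) (fun i B E => by
      have := fo_near S φ y Y hy i B E
      rwa [← hKd, hKε] at this)).2 f hf
    have h2 := h1.2.2.1 hodd
    have h3 : R * nsf f ≤ 1 / c0 * S.e1 φ (S.DY φ y) f := by
      rw [one_div, inv_mul_eq_div, le_div_iff₀ hc0]
      linarith
    exact h3.trans (mul_le_mul_of_nonneg_right (by linarith) (fo_e1 S φ _ f))
  · have hKe : K * ε ≤ ε1 := by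
      calc K * ε ≤ K * (ε1 / K) := mul_le_mul_of_nonneg_left hεε hK.le
        _ = ε1 := hKε
    have h1 := (H R hR (K * ε) (by positivity) hKe (S.DY φ y) (fun i B E => by
      have := fo_near S φ y Y hy i B E
      rwa [← hKd] at this)).2 f hf
    have he := fo_e1 S φ (S.DY φ y) f
    have hn := fo_nsf f
    have hRn : 0 ≤ R * nsf f := mul_nonneg hR.le hn
    have hRn2 : 0 ≤ ε ^ 2 * R * nsf f := by positivity
    refine ⟨?_, fun β => ?_⟩
    · have h2 := h1.2.1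
      have h3 : R * nsf (fun w => f w - S.PR φ (S.DY φ Y) Om R f w) ≤
          1 / c0 * S.e1 φ (S.DY φ y) f + C * K ^ 2 / c0 * (ε ^ 2 * R * nsf f) := by
        have : 1 / c0 * S.e1 φ (S.DY φ y) f + C * K ^ 2 / c0 * (ε ^ 2 * R * nsf f) =
            (S.e1 φ (S.DY φ y) f + C * (K * ε) ^ 2 * R * nsf f) / c0 := by
          field_simp
        rw [this, le_div_iff₀ hc0]
        linarith
      refine h3.trans ?_
      have h4 : 1 / c0 * S.e1 φ (S.DY φ y) f ≤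
          (C + 1 / c0 + C * K ^ 2 / c0 + C * K ^ 2) * S.e1 φ (S.DY φ y) f :=
        mul_le_mul_of_nonneg_right (by linarith) he
      have h5 : C * K ^ 2 / c0 * (ε ^ 2 * R * nsf f) ≤
          (C + 1 / c0 + C * K ^ 2 / c0 + C * K ^ 2) * (ε ^ 2 * R * nsf f) :=
        mul_le_mul_of_nonneg_right (by linarith) hRn2
      rw [mul_add]
      exact add_le_add h4 h5
    · refine (h1.2.2.2 β).trans ?_
      have h4 : C * (K * ε) ^ 2 = C * K ^ 2 * ε ^ 2 := by ring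
      rw [h4]
      refine mul_le_mul_of_nonneg_right ?_ (add_nonneg he hRn)
      exact mul_le_mul_of_nonneg_right (by linarith) (by positivity)

end Vale.Agent.P353.Z.AN
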