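import Vale.Agent.P353.AN.C.Stmt
import Vale.Agent.P353.AN.A.Dec
import Vale.Agent.P353.Z.U.En
import Vale.Agent.P353.Z.U.EsaBase

/-! # P353, all `N`, block C: mass operator in rotated frames and on the slice (`FrameStmt`) -/

open MeasureTheory Filter Topology
open scoped ContDiff Matrix

namespace Vale.Agent.P353.Z.AN

variable {d : ℕ} {F : Type*} [NormedAddCommGroup F] [InnerProductSpace ℂ F]

lemma frm_mass (S : Setup d F) : S.IsMass (N0 S) where
  real := by
    intro i α β
    rw [N0, Matrix.smul_apply, smul_eq_mul, Complex.mul_im, S.esa_gGam_real, Complex.ofReal_im]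
    ring
  tr := by
    intro i j
    rw [N0, Matrix.transpose_smul, Matrix.mul_smul, Matrix.trace_smul, U.En.trace_gGg, smul_zero]
  pos := by
    intro y
    have h : ∀ i j, ((N0 S i * (N0 S j).transpose).trace).re = if i = j then 16 * aw i ^ 2 else 0 := by
      intro i j
      rw [N0, N0, Matrix.transpose_smul, Matrix.mul_smul, Matrix.smul_mul, Matrix.trace_smul,
        Matrix.trace_smul, U.En.trace_gGgG]
      by_cases hij : i = j
      · subst hij
        rw [if_pos rfl, if_pos rfl, smul_eq_mul, smul_eq_mul, ← mul_assoc, ← Complex.ofReal_mul,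
          Complex.re_ofReal_mul]
        norm_num
        ring
      · rw [if_neg hij, if_neg hij]
        simp
    have h2 : ∀ i, ∑ j, y i * y j * ((N0 S i * (N0 S j).transpose).trace).re =
        16 * (aw i ^ 2 * y i ^ 2) := by
      intro i
      rw [Finset.sum_eq_single i]
      · rw [h, if_pos rfl]; ring
      · intro j _ hj
        rw [h, if_neg (Ne.symm hj), mul_zero]
      · intro hi; exact absurd (Finset.mem_univ _) hi
    simp only [h2]
    rw [← Finset.mul_sum]
    refine mul_le_mul_of_nonneg_left (Finset.sum_le_sum fun i _ => ?_) (by norm_num)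
    have h3 : 1 ≤ aw i ^ 2 := by
      unfold aw
      split_ifs <;> norm_num
    nlinarith [sq_nonneg (y i)]

lemma frm_MM (S : Setup d F) (β : Fin 16) (x : Cfg d) : S.MM β x = S.Mx (N0 S) β x := by
  simp only [Setup.MM, Setup.Mx, N0, S.vec_smul, smul_smul]
  refine Finset.sum_congr rfl fun i _ => Finset.sum_congr rfl fun A _ => ?_
  rw [Complex.ofReal_mul, mul_comm]

lemma frm_vec_rot (S : Setup d F) (R : Matrix (Fin 9) (Fin 9) ℝ) (hR : R * R.transpose = 1)
    (O : Matrix (Fin d) (Fin d) ℝ) (hO : O * O.transpose = 1) (N : Matrix (Fin 16) (Fin 16) ℂ)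
    (A : Fin d) (β : Fin 16) :
    (S.rot R hR O hO).vec N A β = ∑ B, (O A B : ℂ) • S.vec N B β := by
  simp only [CS.vec, Setup.rot, Finset.smul_sum]
  rw [Finset.sum_comm]
  refine Finset.sum_congr rfl fun B _ => Finset.sum_congr rfl fun γ _ => ?_
  rw [smul_comm]

lemma frm_orth {n : ℕ} (O : Matrix (Fin n) (Fin n) ℝ) (hO : O * O.transpose = 1) (k l : Fin n) :
    ∑ i, O i k * O i l = if k = l then 1 else 0 := by
  have hO' : O.transpose * O = 1 := mul_eq_one_comm.1 hO
  have := congrFun (congrFun hO' k) l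
  rw [Matrix.mul_apply, Matrix.one_apply] at this
  simpa [Matrix.transpose_apply] using this

lemma frm_orth' {n : ℕ} (O : Matrix (Fin n) (Fin n) ℝ) (hO : O * O.transpose = 1) (k l : Fin n) :
    ∑ i, O k i * O l i = if k = l then 1 else 0 := by
  have := congrFun (congrFun hO k) l
  rw [Matrix.mul_apply, Matrix.one_apply] at this
  simpa [Matrix.transpose_apply] using this

lemma frm_rot_mass (S : Setup d F) (N : Fin 9 → Matrix (Fin 16) (Fin 16) ℂ)
    (R : Matrix (Fin 9) (Fin 9) ℝ) (hR : R * R.transpose = 1)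
    (O : Matrix (Fin d) (Fin d) ℝ) (hO : O * O.transpose = 1) (h : S.IsMass N) :
    (S.rot R hR O hO).IsMass (rotN R N) where
  real := by
    intro i α β
    rw [rotN, Matrix.sum_apply, Complex.im_sum]
    refine Finset.sum_eq_zero fun j _ => ?_
    rw [Matrix.smul_apply, smul_eq_mul, Complex.mul_im, Complex.ofReal_im, h.real]
    ring
  tr := by
    intro i j
    have e : (S.rot R hR O hO).g i = ∑ k, (R i k : ℂ) • S.g k := rfl
    rw [e, rotN, Matrix.transpose_sum, Finset.sum_mul_sum, Matrix.trace_sum]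
    refine Finset.sum_eq_zero fun k _ => ?_
    rw [Matrix.trace_sum]
    refine Finset.sum_eq_zero fun l _ => ?_
    rw [Matrix.transpose_smul, Matrix.smul_mul, Matrix.mul_smul, Matrix.trace_smul,
      Matrix.trace_smul, h.tr, smul_zero, smul_zero]
  pos := by
    intro y
    set z : Fin 9 → ℝ := fun k => ∑ i, y i * R i k with hz
    have h1 : ∑ k, z k ^ 2 = ∑ i, y i ^ 2 := by
      have e1 : ∀ k, z k ^ 2 = ∑ i, ∑ j, y i * y j * (R i k * R j k) := by
        intro k
        rw [hz, sq, Finset.sum_mul_sum]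
        exact Finset.sum_congr rfl fun i _ => Finset.sum_congr rfl fun j _ => by ring
      simp only [e1]
      rw [Finset.sum_comm]
      refine Finset.sum_congr rfl fun i _ => ?_
      rw [Finset.sum_comm]
      simp only [← Finset.mul_sum, frm_orth' R hR, mul_ite, mul_one, mul_zero, Finset.sum_ite_eq,
        Finset.mem_univ, if_true]
      ring
    have h2 : ∑ i, ∑ j, y i * y j * ((rotN R N i * (rotN R N j).transpose).trace).re =
        ∑ k, ∑ l, z k * z l * ((N k * (N l).transpose).trace).re := by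
      have e2 : ∀ i j, ((rotN R N i * (rotN R N j).transpose).trace).re =
          ∑ k, ∑ l, R i k * R j l * ((N k * (N l).transpose).trace).re := by
        intro i j
        rw [rotN, rotN, Matrix.transpose_sum, Finset.sum_mul_sum, Matrix.trace_sum, Complex.re_sum]
        refine Finset.sum_congr rfl fun k _ => ?_
        rw [Matrix.trace_sum, Complex.re_sum]
        refine Finset.sum_congr rfl fun l _ => ?_
        rw [Matrix.transpose_smul, Matrix.smul_mul, Matrix.mul_smul, Matrix.trace_smul,
          Matrix.trace_smul, smul_eq_mul, smul_eq_mul, ← mul_assoc, ← Complex.ofReal_mul,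
          Complex.re_ofReal_mul]
      have e3 : ∀ k l, z k * z l = ∑ i, ∑ j, y i * y j * (R i k * R j l) := by
        intro k l
        rw [hz, Finset.sum_mul_sum]
        exact Finset.sum_congr rfl fun i _ => Finset.sum_congr rfl fun j _ => by ring
      simp only [e2, e3, Finset.mul_sum, Finset.sum_mul]
      rw [Finset.sum_congr rfl fun i _ => Finset.sum_comm]
      rw [Finset.sum_comm]
      refine Finset.sum_congr rfl fun k _ => ?_
      rw [Finset.sum_congr rfl fun i _ => Finset.sum_comm]
      rw [Finset.sum_comm]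
      refine Finset.sum_congr rfl fun l _ => ?_
      exact Finset.sum_congr rfl fun i _ => Finset.sum_congr rfl fun j _ => by ring
    rw [h2, ← h1]
    exact h.pos z

lemma frm_rot_Mx (S : Setup d F) (N : Fin 9 → Matrix (Fin 16) (Fin 16) ℂ)
    (R : Matrix (Fin 9) (Fin 9) ℝ) (hR : R * R.transpose = 1)
    (O : Matrix (Fin d) (Fin d) ℝ) (hO : O * O.transpose = 1) (β : Fin 16) (x : Cfg d) :
    (S.rot R hR O hO).Mx (rotN R N) β (rox R O x) = S.Mx N β x := by
  have e1 : ∀ i A, (((rox R O x) (i, A) : ℝ) : ℂ) • (S.rot R hR O hO).vec (rotN R N i) A β =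
      ∑ j, ∑ B, ∑ k, ∑ C, (((R i j * R i k) * (O A B * O A C) * x (j, B) : ℝ) : ℂ) •
        S.vec (N k) C β := by
    intro i A
    rw [frm_vec_rot]
    have e0 : (rox R O x) (i, A) = ∑ j, ∑ B, R i j * O A B * x (j, B) := rfl
    rw [e0, Complex.ofReal_sum, Finset.sum_smul]
    refine Finset.sum_congr rfl fun j _ => ?_
    rw [Complex.ofReal_sum, Finset.sum_smul]
    refine Finset.sum_congr rfl fun B _ => ?_
    simp only [rotN, S.vec_sum, S.vec_smul, Finset.smul_sum, smul_smul]
    rw [Finset.sum_comm]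
    refine Finset.sum_congr rfl fun k _ => Finset.sum_congr rfl fun C _ => ?_
    congr 1
    push_cast
    ring
  have e2 : ∀ (j k : Fin 9) (B C : Fin d),
      ∑ i, ∑ A, (((R i j * R i k) * (O A B * O A C) * x (j, B) : ℝ) : ℂ) • S.vec (N k) C β =
        if j = k then (if B = C then ((x (j, B) : ℝ) : ℂ) • S.vec (N k) C β else 0) else 0 := by
    intro j k B C
    have e3 : ∑ i, ∑ A, ((R i j * R i k) * (O A B * O A C) * x (j, B)) =
        (if j = k then 1 else 0) * (if B = C then 1 else 0) * x (j, B) := by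
      rw [← frm_orth R hR j k, ← frm_orth O hO B C, Finset.sum_mul_sum, Finset.sum_mul]
      exact Finset.sum_congr rfl fun i _ => by rw [Finset.sum_mul]
    simp only [← Finset.sum_smul, ← Complex.ofReal_sum]
    rw [e3]
    by_cases hjk : j = k
    · by_cases hBC : B = C
      · simp [hjk, hBC]
      · simp [hBC]
    · simp [hjk]
  unfold Setup.Mx
  simp only [e1]
  have e4 : ∑ i, ∑ A, ∑ j, ∑ B, ∑ k, ∑ C,
      (((R i j * R i k) * (O A B * O A C) * x (j, B) : ℝ) : ℂ) • S.vec (N k) C β =
      ∑ j, ∑ B, ∑ k, ∑ C, ∑ i, ∑ A,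
        (((R i j * R i k) * (O A B * O A C) * x (j, B) : ℝ) : ℂ) • S.vec (N k) C β := by
    rw [Finset.sum_congr rfl fun i _ => Finset.sum_comm, Finset.sum_comm]
    refine Finset.sum_congr rfl fun j _ => ?_
    rw [Finset.sum_congr rfl fun i _ => Finset.sum_comm, Finset.sum_comm]
    refine Finset.sum_congr rfl fun B _ => ?_
    rw [Finset.sum_congr rfl fun i _ => Finset.sum_comm, Finset.sum_comm]
    refine Finset.sum_congr rfl fun k _ => ?_
    rw [Finset.sum_congr rfl fun i _ => Finset.sum_comm, Finset.sum_comm]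
  rw [e4]
  simp only [e2]
  refine Finset.sum_congr rfl fun j _ => Finset.sum_congr rfl fun B _ => ?_
  rw [Finset.sum_eq_single j]
  · simp
  · intro k _ hk
    simp [Ne.symm hk]
  · intro hj; exact absurd (Finset.mem_univ _) hj

lemma frm_emb (S : Setup d F) (N : Fin 9 → Matrix (Fin 16) (Fin 16) ℂ) {dh dm : ℕ}
    (φ : Spl dh dm d) (β : Fin 16) (y : Cfg dh) (w : Wsp dm) :
    S.Mx N β (emb φ y w) = S.Mh φ N β y + S.Mw φ N β w := by
  unfold Setup.Mx Setup.Mh Setup.Mw
  rw [← Finset.sum_add_distrib]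
  refine Finset.sum_congr rfl fun i _ => ?_
  rw [dec_sum φ]
  simp only [dec_emb_inl, dec_emb_inr]

/-- **C-Frame** -/
theorem frame_stmt (S : Setup d F) : FrameStmt S := by
  refine ⟨frm_mass S, frm_MM S, fun N => ⟨fun R hR O hO h => ⟨frm_rot_mass S N R hR O hO h,
    frm_rot_Mx S N R hR O hO⟩, fun dh dm φ => ⟨frm_emb S N φ, ?_⟩⟩⟩
  intro hs hD u hu hG m β y w hdet
  have h1 := hD dh dm φ hs u hu hG β y w hdet
  have h2 : S.res φ (fun x => S.Q β u x + (m : ℂ) • S.Mx N β x (u x)) y w =
      S.res φ (S.Q β u) y w + (m : ℂ) • S.Mx N β (emb φ y w) (S.res φ u y w) := by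
    simp only [Setup.res, smul_add, map_smul]
    rw [smul_comm]
  rw [h2, h1, frm_emb, Setup.QS, Setup.Qhm, _root_.add_apply, smul_add]
  abel

end Vale.Agent.P353.Z.AN
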