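import Vale.Agent.P353.AN.C.Stmt

/-! # P353, all `N`, block C: energy identity for a multiplier given by smooth real matrices -/

open MeasureTheory Filter Topology
open scoped ContDiff Matrix

namespace Vale.Agent.P353.Z.AN.GenPf

variable {dc : ℕ}

variable {F : Type*} [NormedAddCommGroup F] [InnerProductSpace ℂ F]

/-- multiplier `∑ (t^A θ^A)_β` -/
noncomputable def TT (S : Setup dc F) (t : Fin dc → Cfg dc → Matrix (Fin 16) (Fin 16) ℂ)
    (β : Fin 16) (x : (Cfg dc)) : F →L[ℂ] F :=
  ∑ A, S.vec (t A x) A β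

/-- derivative of the matrices -/
noncomputable def dt (t : Fin dc → Cfg dc → Matrix (Fin 16) (Fin 16) ℂ) (j : Fin 9) (B A : Fin dc)
    (x : Cfg dc) : Matrix (Fin 16) (Fin 16) ℂ :=
  Matrix.of fun α α' => fderiv ℝ (fun z => t A z α α') x (EuclideanSpace.single (j, B) 1)

/-- the supercharge with a multiplier -/
noncomputable def QT (S : Setup dc F) (t : Fin dc → Cfg dc → Matrix (Fin 16) (Fin 16) ℂ)
    (β : Fin 16) (u : (Cfg dc) → F) (x : (Cfg dc)) : F := S.Q0 β u x + TT S t β x (u x)

variable (S : Setup dc F) (t : Fin dc → Cfg dc → Matrix (Fin 16) (Fin 16) ℂ)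
  (ht : ∀ A α β, ContDiff ℝ ∞ (fun x => t A x α β))

lemma TT_eq (β : Fin 16) (x : (Cfg dc)) : TT S t β x = ∑ A, S.vec (t A x) A β := rfl

include ht in
lemma contDiff_TT (β : Fin 16) : ContDiff ℝ ∞ (TT S t β) := by
  unfold TT CS.vec
  refine ContDiff.sum fun A _ => ContDiff.sum fun γ _ => ?_
  exact (ht A β γ).smul contDiff_const

include ht in
lemma fderiv_TT (β : Fin 16) (x : (Cfg dc)) (j : Fin 9) (B : Fin dc) :
    fderiv ℝ (TT S t β) x (EuclideanSpace.single (j, B) (1 : ℝ)) =
      ∑ A, S.vec (dt t j B A x) A β := by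
  have hd : HasFDerivAt (TT S t β) (∑ A, ∑ γ,
      (fderiv ℝ (fun z => t A z β γ) x).smulRight (S.th γ A)) x := by
    unfold TT CS.vec
    refine HasFDerivAt.fun_sum fun A _ => HasFDerivAt.fun_sum fun γ _ => ?_
    have h1 : HasFDerivAt (fun z => t A z β γ) (fderiv ℝ (fun z => t A z β γ) x) x :=
      ((ht A β γ).differentiable (by simp) x).hasFDerivAt
    exact h1.smul_const (S.th γ A)
  rw [hd.fderiv]
  simp only [_root_.sum_apply, ContinuousLinearMap.smulRight_apply, CS.vec, dt, Matrix.of_apply]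

variable (hN : ∀ A x α β, (t A x α β).im = 0)

include hN in
lemma TT_symm (β : Fin 16) (x : (Cfg dc)) (v w : F) :
    inner ℂ (TT S t β x v) w = inner ℂ v (TT S t β x w) := by
  rw [TT_eq]
  simp only [_root_.sum_apply, sum_inner, inner_sum, S.vec_symm _ (hN _ x)]

include ht in
lemma contDiff_QT (β : Fin 16) {u : (Cfg dc) → F} (hu : ContDiff ℝ ∞ u) :
    ContDiff ℝ ∞ (QT S t β u) := by
  unfold QT Setup.Q0
  refine ContDiff.add (contDiff_const.smul (ContDiff.sum fun i _ => ContDiff.sum fun A _ => ?_))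
    (Setup.contDiff_clm_apply' (contDiff_TT S t ht β) hu)
  exact Setup.contDiff_clm_apply' contDiff_const (contDiff_pd hu)

lemma hasCompactSupport_QT (β : Fin 16) {u : (Cfg dc) → F} (hu : HasCompactSupport u) :
    HasCompactSupport (QT S t β u) := by
  refine HasCompactSupport.intro' (K := tsupport u) hu (isClosed_tsupport u) ?_
  intro x hx
  have h0 : u x = 0 := image_eq_zero_of_notMem_tsupport hx
  have h1 : ∀ i A, pd i A u x = 0 := by
    intro i A
    have : fderiv ℝ u x = 0 := by
      have h := (tsupport_fderiv_subset ℝ (f := u))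
      by_contra hne
      exact hx (h (subset_tsupport _ hne))
    simp [pd, this]
  simp [QT, Setup.Q0, h0, h1]

include ht in
lemma tst_QT {u : (Cfg dc) → F} (hu : Setup.Tst u) (β : Fin 16) : Setup.Tst (QT S t β u) :=
  ⟨contDiff_QT S t ht β hu.1, hasCompactSupport_QT S t β hu.2⟩

include ht hN in
theorem QT_symm (β : Fin 16) (u v : (Cfg dc) → F)
    (hu : Setup.Tst u) (hv : ContDiff ℝ ∞ v) :
    ∫ x, inner ℂ (QT S t β u x) (v x) = ∫ x, inner ℂ (u x) (QT S t β v x) := by
  have hv1 : ContDiff ℝ 1 v := hv.of_le (by simp)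
  have hu1 : ContDiff ℝ 1 u := hu.1.of_le (by simp)
  have hpt : ∀ x, inner ℂ (QT S t β u x) (v x) - inner ℂ (u x) (QT S t β v x) =
      ∑ i, ∑ A, Complex.I * (fderiv ℝ (fun y => inner ℂ (u y) (S.vec (S.g i) A β (v y))) x
        (EuclideanSpace.single (i, A) (1 : ℝ))) := by
    intro x
    have hd : ∀ i A, fderiv ℝ (fun y => inner ℂ (u y) (S.vec (S.g i) A β (v y))) x
        (EuclideanSpace.single (i, A) (1 : ℝ)) =
        inner ℂ (u x) (S.vec (S.g i) A β (pd i A v x)) +
          inner ℂ (pd i A u x) (S.vec (S.g i) A β (v x)) := by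
      intro i A
      have hdv : DifferentiableAt ℝ v x := (hv1.differentiable (by simp)) x
      have hdT : DifferentiableAt ℝ (fun y => S.vec (S.g i) A β (v y)) x :=
        ((S.vec (S.g i) A β).restrictScalars ℝ).differentiableAt.comp x hdv
      rw [fderiv_inner_apply ℂ ((hu1.differentiable (by simp)) x) hdT]
      have := pd_clm (i := i) (A := A) (S.vec (S.g i) A β) hdv
      unfold pd at this ⊢
      rw [this]
    simp only [hd, QT, Setup.Q0, inner_add_left, inner_add_right, inner_smul_left, inner_smul_right,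
      sum_inner, inner_sum, TT_symm S t hN, S.vec_symm _ (S.g_im _)]
    simp only [map_neg, Complex.conj_I, neg_neg]
    simp only [mul_add, Finset.sum_add_distrib, Finset.mul_sum]
    simp only [neg_mul, Finset.sum_neg_distrib]
    ring
  have hI : ∫ x, (inner ℂ (QT S t β u x) (v x) - inner ℂ (u x) (QT S t β v x)) = 0 := by
    simp only [hpt]
    have hw : ∀ i A, ContDiff ℝ 1 (fun y => inner ℂ (u y) (S.vec (S.g i) A β (v y))) := by
      intro i A
      exact hu1.inner ℂ ((S.vec (S.g i) A β).restrictScalars ℝ |>.contDiff.comp hv1)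
    have hcs : ∀ i A, HasCompactSupport (fun y => inner ℂ (u y) (S.vec (S.g i) A β (v y))) :=
      fun i A => hu.inner_cs
    have hint : ∀ i A, Integrable (fun x => fderiv ℝ (fun y => inner ℂ (u y)
        (S.vec (S.g i) A β (v y))) x (EuclideanSpace.single (i, A) (1 : ℝ))) := by
      intro i A
      exact (((hw i A).continuous_fderiv (by simp)).clm_apply
        continuous_const).integrable_of_hasCompactSupport ((hcs i A).fderiv_apply (𝕜 := ℝ) _)
    rw [integral_finsetSum _ fun i _ => integrable_finsetSum _ fun A _ => (hint i A).const_mul _]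
    refine Finset.sum_eq_zero fun i _ => ?_
    rw [integral_finsetSum _ fun A _ => (hint i A).const_mul _]
    refine Finset.sum_eq_zero fun A _ => ?_
    rw [integral_const_mul, integral_fderiv_eq_zero _ (hw i A) (hcs i A), mul_zero]
  rw [integral_sub ((tst_QT S t ht hu β).inner_int hv.continuous)
    (hu.inner_int (contDiff_QT S t ht β hv).continuous)] at hI
  exact sub_eq_zero.mp hI

include ht in
lemma pd_QT (b : Fin 16) {u : (Cfg dc) → F} (hu : ContDiff ℝ ∞ u) (j : Fin 9) (B : Fin dc) (x : (Cfg dc)) :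
    pd j B (QT S t b u) x = (-Complex.I) • ∑ i, ∑ A, S.vec (S.g i) A b (pd j B (pd i A u) x)
      + (∑ A, S.vec (dt t j B A x) A b) (u x) + TT S t b x (pd j B u x) := by
  have hd : ∀ i A, DifferentiableAt ℝ (pd i A u) x := fun i A =>
    (contDiff_pd hu).differentiable (by simp) x
  have hdv : ∀ i A, DifferentiableAt ℝ (fun y => S.vec (S.g i) A b (pd i A u y)) x := fun i A =>
    ((S.vec (S.g i) A b).restrictScalars ℝ).differentiableAt.comp x (hd i A)
  have hWd : DifferentiableAt ℝ (TT S t b) x := (contDiff_TT S t ht b).differentiable (by simp) x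
  have hud : DifferentiableAt ℝ u x := hu.differentiable (by simp) x
  have h1 : DifferentiableAt ℝ (fun y => (-Complex.I) • ∑ i, ∑ A,
      S.vec (S.g i) A b (pd i A u y)) x := by
    refine DifferentiableAt.const_smul ?_ _
    refine DifferentiableAt.fun_sum fun i _ => DifferentiableAt.fun_sum fun A _ => hdv i A
  have h2 : DifferentiableAt ℝ (fun y => TT S t b y (u y)) x :=
    (Setup.contDiff_clm_apply' (contDiff_TT S t ht b) hu).differentiable (by simp) x
  have e : QT S t b u = fun y => (-Complex.I) • ∑ i, ∑ A, S.vec (S.g i) A b (pd i A u y)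
      + TT S t b y (u y) := rfl
  rw [e, pd_add h1 h2, pd_clm_apply hWd hud, ← add_assoc, fderiv_TT S t ht]
  congr 2
  have h3 : pd j B (fun y => (-Complex.I) • ∑ i, ∑ A, S.vec (S.g i) A b (pd i A u y)) x =
      (-Complex.I) • pd j B (fun y => ∑ i, ∑ A, S.vec (S.g i) A b (pd i A u y)) x := by
    unfold pd
    rw [fderiv_fun_const_smul]
    · rfl
    · exact DifferentiableAt.fun_sum fun i _ => DifferentiableAt.fun_sum fun A _ => hdv i A
  rw [h3]
  congr 1
  rw [pd_sum _ (fun i _ => DifferentiableAt.fun_sum fun A _ => hdv i A)]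
  refine Finset.sum_congr rfl fun i _ => ?_
  rw [pd_sum _ (fun A _ => hdv i A)]
  refine Finset.sum_congr rfl fun A _ => ?_
  rw [pd_clm _ (hd i A)]

/-- first order terms vanish -/
lemma first_order_TT (h1 : ∀ i A x, (S.g i * (t A x)ᵀ).trace = 0) (j : Fin 9) (B : Fin dc)
    (x : (Cfg dc)) :
    ∑ b, (S.vec (S.g j) B b * TT S t b x + TT S t b x * S.vec (S.g j) B b) = 0 := by
  have h : ∀ b, S.vec (S.g j) B b * TT S t b x + TT S t b x * S.vec (S.g j) B b =
      ∑ A, (if B = A then ((S.g j * (t A x)ᵀ) b b) • (1 : F →L[ℂ] F) else 0) := by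
    intro b
    rw [TT_eq, Finset.mul_sum, Finset.sum_mul, ← Finset.sum_add_distrib]
    simp only [S.vec_anti]
  simp only [h]
  rw [Finset.sum_comm]
  refine Finset.sum_eq_zero fun A _ => ?_
  by_cases hA : B = A
  · simp only [hA, if_true, ← Finset.sum_smul]
    have h3 : ∑ b, (S.g j * (t A x)ᵀ) b b = (S.g j * (t A x)ᵀ).trace := rfl
    have h4 : (S.g j * (t A x)ᵀ).trace = 0 := h1 j A x
    rw [h3, h4, zero_smul]
  · simp [hA]

/-- the square of the multiplier -/
lemma zero_order_TT (x : (Cfg dc)) :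
    ∑ b, TT S t b x * TT S t b x =
      ((1 / 2 : ℂ) * ∑ A, (t A x * (t A x)ᵀ).trace) • (1 : F →L[ℂ] F) := by
  have h : ∀ b, (2 : ℂ) • (TT S t b x * TT S t b x) =
      ∑ A, ((t A x * (t A x)ᵀ) b b) • (1 : F →L[ℂ] F) := by
    intro b
    have e1 : TT S t b x * TT S t b x = ∑ A, ∑ B, S.vec (t A x) A b * S.vec (t B x) B b := by
      rw [TT_eq, Finset.sum_mul_sum]
    have e2 : TT S t b x * TT S t b x = ∑ A, ∑ B, S.vec (t B x) B b * S.vec (t A x) A b := by
      rw [e1, Finset.sum_comm]
    rw [two_smul]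
    nth_rewrite 1 [e1]
    rw [e2, ← Finset.sum_add_distrib]
    simp only [← Finset.sum_add_distrib, S.vec_anti]
    simp
  have h2 : (2 : ℂ) • ∑ b, TT S t b x * TT S t b x =
      (∑ A, (t A x * (t A x)ᵀ).trace) • (1 : F →L[ℂ] F) := by
    rw [Finset.smul_sum]
    simp only [h]
    rw [Finset.sum_comm, Finset.sum_smul]
    refine Finset.sum_congr rfl fun A _ => ?_
    rw [← Finset.sum_smul]
    rfl
  rw [mul_smul, ← h2, smul_smul]
  norm_num

/-- the zeroth order term with the derivatives of the matrices -/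
noncomputable def KT (x : Cfg dc) : F →L[ℂ] F :=
  (-Complex.I) • ∑ b, ∑ j, ∑ B, S.vec (S.g j) B b * (∑ A, S.vec (dt t j B A x) A b)

lemma KT_apply (x : Cfg dc) (v : F) : KT S t x v = (-Complex.I) • ∑ β, ∑ j, ∑ B,
    S.vec (S.g j) B β (∑ A, S.vec (dt t j B A x) A β v) := by
  unfold KT
  simp only [_root_.smul_apply, _root_.sum_apply, mul_apply_eq_comp]

include ht in
lemma cont_KT : Continuous (KT S t) := by
  have hc : ∀ j B A b, Continuous (fun x => S.vec (dt t j B A x) A b) := by
    intro j B A b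
    unfold CS.vec
    refine continuous_finsetSum _ fun γ _ => ?_
    have h1 : Continuous (fun x => dt t j B A x b γ) :=
      ((ht A b γ).continuous_fderiv (by simp)).clm_apply continuous_const
    exact h1.smul continuous_const
  have hc2 : Continuous (fun x => ∑ b, ∑ j, ∑ B, S.vec (S.g j) B b *
      (∑ A, S.vec (dt t j B A x) A b)) :=
    continuous_finsetSum _ fun b _ => continuous_finsetSum _ fun j _ =>
      continuous_finsetSum _ fun B _ => continuous_const.mul
        (continuous_finsetSum _ fun A _ => hc j B A b)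
  exact hc2.const_smul (-Complex.I)

include ht in
/-- `∑_b Q_b Q_b u` -/
theorem sum_QTQT (h1 : ∀ i A x, (S.g i * (t A x)ᵀ).trace = 0) {u : (Cfg dc) → F}
    (hu : ContDiff ℝ ∞ u) (x : (Cfg dc)) :
    ∑ b, QT S t b (QT S t b u) x = -((8 : ℂ) • ∑ i, ∑ A, pd i A (pd i A u) x) +
      ((1 / 2 : ℂ) * ∑ A, (t A x * (t A x)ᵀ).trace) • u x + KT S t x (u x) := by
  have h0 : ∀ b, QT S t b (QT S t b u) x =
      -(∑ j, ∑ B, ∑ i, ∑ A, S.vec (S.g j) B b (S.vec (S.g i) A b (pd j B (pd i A u) x)))
      + ((-Complex.I) • ∑ j, ∑ B, S.vec (S.g j) B b * (∑ A, S.vec (dt t j B A x) A b)) (u x)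
      + (-Complex.I) • ∑ j, ∑ B, (S.vec (S.g j) B b * TT S t b x + TT S t b x * S.vec (S.g j) B b)
          (pd j B u x)
      + (TT S t b x * TT S t b x) (u x) := by
    intro b
    conv_lhs => rw [QT, Setup.Q0]
    simp only [pd_QT S t ht b hu]
    rw [QT, Setup.Q0]
    simp only [map_add, map_smul, map_sum, Finset.sum_add_distrib, smul_add,
      _root_.smul_apply, _root_.sum_apply, _root_.add_apply, mul_apply_eq_comp,
      ← Finset.smul_sum, smul_smul]
    have hI : (-Complex.I) * (-Complex.I) = -1 := by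
      rw [neg_mul_neg, Complex.I_mul_I]
    rw [hI, neg_one_smul]
    abel
  simp only [h0, Finset.sum_add_distrib, Finset.sum_neg_distrib]
  rw [S.second_order (fun j B i A => pd j B (pd i A u) x)
    (fun i A j B => pd_comm hu i j A B x)]
  have h2 : ∑ b, ((-Complex.I) • ∑ j, ∑ B, S.vec (S.g j) B b *
      (∑ A, S.vec (dt t j B A x) A b)) (u x) = KT S t x (u x) := by
    rw [← _root_.sum_apply, ← Finset.smul_sum]
    rfl
  have h3 : ∑ b, (-Complex.I) • ∑ j, ∑ B, (S.vec (S.g j) B b * TT S t b x +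
      TT S t b x * S.vec (S.g j) B b) (pd j B u x) = 0 := by
    rw [← Finset.smul_sum, Finset.sum_comm]
    have : ∀ j, ∑ b, ∑ B, (S.vec (S.g j) B b * TT S t b x +
      TT S t b x * S.vec (S.g j) B b) (pd j B u x) = 0 := by
      intro j
      rw [Finset.sum_comm]
      refine Finset.sum_eq_zero fun B _ => ?_
      rw [← _root_.sum_apply, first_order_TT S t h1]
      rfl
    simp only [this, Finset.sum_const_zero, smul_zero]
  have h4 : ∑ b, (TT S t b x * TT S t b x) (u x) =
      ((1 / 2 : ℂ) * ∑ A, (t A x * (t A x)ᵀ).trace) • u x := by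
    rw [← _root_.sum_apply, zero_order_TT]
    rfl
  rw [h2, h3, h4]
  abel

include ht hN in
/-- the energy identity -/
theorem energy_QT (h1 : ∀ i A x, (S.g i * (t A x)ᵀ).trace = 0) (q : (Cfg dc) → ℝ)
    (hq : Continuous q)
    (h2 : ∀ x, (1 / 2 : ℂ) * ∑ A, (t A x * (t A x)ᵀ).trace = ((q x : ℝ) : ℂ))
    (u : (Cfg dc) → F) (hu : Setup.Tst u) :
    ∑ β, nsq (QT S t β u) = 8 * (∑ i, ∑ A, nsq (pd i A u)) + (∫ x, q x * ‖u x‖ ^ 2)
        + (∫ x, inner ℂ (u x) (KT S t x (u x))).re := by
  have hI : ∀ v : (Cfg dc) → F, Setup.Tst v → ((nsq v : ℝ) : ℂ) = ∫ x, inner ℂ (v x) (v x) := by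
    intro v _
    rw [nsq, ← integral_complex_ofReal]
    congr 1
    ext x
    rw [inner_self_eq_norm_sq_to_K]
    norm_cast
  have h3 : ((∑ β, nsq (QT S t β u) : ℝ) : ℂ) =
      ∫ x, inner ℂ (u x) (∑ b, QT S t b (QT S t b u) x) := by
    push_cast
    simp only [inner_sum]
    rw [integral_finsetSum]
    · refine Finset.sum_congr rfl fun b _ => ?_
      rw [hI _ (tst_QT S t ht hu b), QT_symm S t ht hN b u _ hu (contDiff_QT S t ht b hu.1)]
    · intro b _
      exact hu.inner_int (contDiff_QT S t ht b (contDiff_QT S t ht b hu.1)).continuous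
  have hF : Continuous (fun x => KT S t x (u x)) := (cont_KT S t ht).clm_apply hu.1.continuous
  have h4 : ∀ x, inner ℂ (u x) (∑ b, QT S t b (QT S t b u) x) =
      -(8 : ℂ) * ∑ i, ∑ A, inner ℂ (u x) (pd i A (pd i A u) x) +
      ((q x * ‖u x‖ ^ 2 : ℝ) : ℂ) + inner ℂ (u x) (KT S t x (u x)) := by
    intro x
    rw [sum_QTQT S t ht h1 hu.1, h2, inner_add_right, inner_add_right, inner_neg_right,
      inner_smul_right, inner_smul_right]
    simp only [inner_sum, inner_self_eq_norm_sq_to_K]
    push_cast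
    simp only [Complex.coe_algebraMap]
    ring
  have h5 : (∫ x, inner ℂ (u x) (∑ b, QT S t b (QT S t b u) x)) =
      (8 : ℂ) * ∑ i, ∑ A, ((nsq (pd i A u) : ℝ) : ℂ) +
      ((∫ x, q x * ‖u x‖ ^ 2 : ℝ) : ℂ) +
      ∫ x, inner ℂ (u x) (KT S t x (u x)) := by
    simp only [h4]
    have i1 : ∀ i A, Integrable (fun x => inner ℂ (u x) (pd i A (pd i A u) x)) := fun i A =>
      hu.inner_int (contDiff_pd (contDiff_pd hu.1)).continuous
    have i1' : Integrable (fun x => -(8 : ℂ) * ∑ i, ∑ A, inner ℂ (u x) (pd i A (pd i A u) x)) :=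
      (integrable_finsetSum _ fun i _ => integrable_finsetSum _ fun A _ => i1 i A).const_mul _
    have i2 : Integrable (fun x => ((q x * ‖u x‖ ^ 2 : ℝ) : ℂ)) :=
      (hu.mul_norm_sq_int hq).ofReal
    have i3 : Integrable (fun x => inner ℂ (u x) (KT S t x (u x))) :=
      (hu.inner_int hF)
    have i12 : Integrable (fun x => -(8 : ℂ) * ∑ i, ∑ A, inner ℂ (u x) (pd i A (pd i A u) x) +
        ((q x * ‖u x‖ ^ 2 : ℝ) : ℂ)) := i1'.add i2
    rw [integral_add i12 i3, integral_add i1' i2, integral_const_mul, integral_complex_ofReal]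
    congr 2
    rw [integral_finsetSum _ fun i _ => integrable_finsetSum _ fun A _ => i1 i A, neg_mul,
      ← mul_neg, ← Finset.sum_neg_distrib]
    congr 1
    refine Finset.sum_congr rfl fun i _ => ?_
    rw [integral_finsetSum _ fun A _ => i1 i A, ← Finset.sum_neg_distrib]
    refine Finset.sum_congr rfl fun A _ => ?_
    rw [← integral_inner_pd u (pd i A u) (hu.1.of_le (by simp)) ((contDiff_pd hu.1).of_le (by simp))
      hu.2 i A, hI _ (hu.pd i A)]
  have h6 := h3.trans h5
  have h7 := congrArg Complex.re h6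
  rw [Complex.ofReal_re] at h7
  rw [h7]
  simp only [Complex.add_re, Complex.ofReal_re, ← Complex.ofReal_sum]
  congr 2
  simp

end Vale.Agent.P353.Z.AN.GenPf

namespace Vale.Agent.P353.Z.AN

variable {d : ℕ} {F : Type*} [NormedAddCommGroup F] [InnerProductSpace ℂ F]

theorem gen_stmt (S : Setup d F) : GenStmt S := by
  intro t ht hN h1 u hu
  have hre : ∀ x, ((1 / 2 : ℂ) * ∑ A, (t A x * (t A x).transpose).trace) =
      (((1 / 2) * (∑ A, (t A x * (t A x).transpose).trace).re : ℝ) : ℂ) := by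
    intro x
    have him : (∑ A, (t A x * (t A x).transpose).trace).im = 0 := by
      rw [Complex.im_sum]
      refine Finset.sum_eq_zero fun A _ => ?_
      rw [Matrix.trace, Complex.im_sum]
      refine Finset.sum_eq_zero fun α _ => ?_
      rw [Matrix.diag_apply, Matrix.mul_apply, Complex.im_sum]
      refine Finset.sum_eq_zero fun β _ => ?_
      rw [Matrix.transpose_apply, Complex.mul_im, hN]
      ring
    apply Complex.ext
    · simp [Complex.mul_re]
    · simp [Complex.mul_im, him]
  have hq : Continuous (fun x => (1 / 2) * (∑ A, (t A x * (t A x).transpose).trace).re) := by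
    refine continuous_const.mul (Complex.continuous_re.comp ?_)
    refine continuous_finsetSum _ fun A _ => ?_
    unfold Matrix.trace
    refine continuous_finsetSum _ fun α _ => ?_
    simp only [Matrix.diag_apply, Matrix.mul_apply, Matrix.transpose_apply]
    exact continuous_finsetSum _ fun β _ => (ht A α β).continuous.mul (ht A α β).continuous
  have key := GenPf.energy_QT S t ht hN h1 _ hq hre u hu
  have e1 : ∀ β, nsq (fun x => S.Q0 β u x + ∑ A, S.vec (t A x) A β (u x)) =
      nsq (GenPf.QT S t β u) := by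
    intro β
    congr 1
    funext x
    rw [GenPf.QT, GenPf.TT, _root_.sum_apply]
  simp only [e1]
  rw [key]
  have e2 : ∫ x, (1 / 2) * (∑ A, (t A x * (t A x).transpose).trace).re * ‖u x‖ ^ 2 =
      (1 / 2) * ∫ x, (∑ A, (t A x * (t A x).transpose).trace).re * ‖u x‖ ^ 2 := by
    rw [← integral_const_mul]
    congr 1
    funext x
    ring
  rw [e2]
  simp only [GenPf.KT_apply, GenPf.dt]

end Vale.Agent.P353.Z.AN
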