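import Vale.Agent.P353.AN.C.Stmt

/-! # P353, all `N`, block C: gain from the mass in a central direction (C-Mass) -/

open MeasureTheory Filter Topology
open scoped ContDiff Matrix

namespace Vale.Agent.P353.Z.AN.MassPf

variable {n : ℕ} {F : Type*} [NormedAddCommGroup F] [InnerProductSpace ℂ F]

/-- `-i ∑ a_k ∂_k + T` -/
noncomputable def QG (a : Fin 9 → Fin n → F →L[ℂ] F) (T : Cfg n → F →L[ℂ] F)
    (u : Cfg n → F) (x : Cfg n) : F :=
  (-Complex.I) • ∑ i, ∑ A, a i A (pd i A u x) + T x (u x)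

variable {a b : Fin 9 → Fin n → F →L[ℂ] F} {T X : Cfg n → F →L[ℂ] F}

lemma contDiff_QG (hT : ContDiff ℝ ∞ T) {u : Cfg n → F} (hu : ContDiff ℝ ∞ u) :
    ContDiff ℝ ∞ (QG a T u) := by
  unfold QG
  refine ContDiff.add (contDiff_const.smul (ContDiff.sum fun i _ => ContDiff.sum fun A _ => ?_))
    (Setup.contDiff_clm_apply' hT hu)
  exact Setup.contDiff_clm_apply' contDiff_const (contDiff_pd hu)

lemma hasCompactSupport_QG {u : Cfg n → F} (hu : HasCompactSupport u) :
    HasCompactSupport (QG a T u) := by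
  refine HasCompactSupport.intro' (K := tsupport u) hu (isClosed_tsupport u) ?_
  intro x hx
  have h0 : u x = 0 := image_eq_zero_of_notMem_tsupport hx
  have h1 : ∀ i A, pd i A u x = 0 := by
    intro i A
    have : fderiv ℝ u x = 0 := by
      have h := (tsupport_fderiv_subset ℝ (f := u))
      by_contra hne
      exact hx (h (subset_tsupport _ hne))
    simp [pd, this]
  simp [QG, h0, h1]

lemma tst_QG (hT : ContDiff ℝ ∞ T) {u : Cfg n → F} (hu : Setup.Tst u) : Setup.Tst (QG a T u) :=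
  ⟨contDiff_QG hT hu.1, hasCompactSupport_QG hu.2⟩

/-- symmetry -/
theorem QG_symm (hT : ContDiff ℝ ∞ T) (ha : ∀ i A v w, inner ℂ (a i A v) w = inner ℂ v (a i A w))
    (hs : ∀ x v w, inner ℂ (T x v) w = inner ℂ v (T x w)) (u v : Cfg n → F)
    (hu : Setup.Tst u) (hv : ContDiff ℝ ∞ v) :
    ∫ x, inner ℂ (QG a T u x) (v x) = ∫ x, inner ℂ (u x) (QG a T v x) := by
  have hv1 : ContDiff ℝ 1 v := hv.of_le (by simp)
  have hu1 : ContDiff ℝ 1 u := hu.1.of_le (by simp)
  have hpt : ∀ x, inner ℂ (QG a T u x) (v x) - inner ℂ (u x) (QG a T v x) =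
      ∑ i, ∑ A, Complex.I * (fderiv ℝ (fun y => inner ℂ (u y) (a i A (v y))) x
        (EuclideanSpace.single (i, A) (1 : ℝ))) := by
    intro x
    have hd : ∀ i A, fderiv ℝ (fun y => inner ℂ (u y) (a i A (v y))) x
        (EuclideanSpace.single (i, A) (1 : ℝ)) =
        inner ℂ (u x) (a i A (pd i A v x)) +
          inner ℂ (pd i A u x) (a i A (v x)) := by
      intro i A
      have hdv : DifferentiableAt ℝ v x := (hv1.differentiable (by simp)) x
      have hdT : DifferentiableAt ℝ (fun y => a i A (v y)) x :=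
        ((a i A).restrictScalars ℝ).differentiableAt.comp x hdv
      rw [fderiv_inner_apply ℂ ((hu1.differentiable (by simp)) x) hdT]
      have := pd_clm (i := i) (A := A) (a i A) hdv
      unfold pd at this ⊢
      rw [this]
    simp only [hd, QG, inner_add_left, inner_add_right, inner_smul_left, inner_smul_right,
      sum_inner, inner_sum, hs, ha]
    simp only [map_neg, Complex.conj_I, neg_neg]
    simp only [mul_add, Finset.sum_add_distrib, Finset.mul_sum]
    simp only [neg_mul, Finset.sum_neg_distrib]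
    ring
  have hI : ∫ x, (inner ℂ (QG a T u x) (v x) - inner ℂ (u x) (QG a T v x)) = 0 := by
    simp only [hpt]
    have hw : ∀ i A, ContDiff ℝ 1 (fun y => inner ℂ (u y) (a i A (v y))) := by
      intro i A
      exact hu1.inner ℂ ((a i A).restrictScalars ℝ |>.contDiff.comp hv1)
    have hcs : ∀ i A, HasCompactSupport (fun y => inner ℂ (u y) (a i A (v y))) :=
      fun i A => hu.inner_cs
    have hint : ∀ i A, Integrable (fun x => fderiv ℝ (fun y => inner ℂ (u y)
        (a i A (v y))) x (EuclideanSpace.single (i, A) (1 : ℝ))) := by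
      intro i A
      exact (((hw i A).continuous_fderiv (by simp)).clm_apply
        continuous_const).integrable_of_hasCompactSupport ((hcs i A).fderiv_apply (𝕜 := ℝ) _)
    rw [integral_finsetSum _ fun i _ => integrable_finsetSum _ fun A _ => (hint i A).const_mul _]
    refine Finset.sum_eq_zero fun i _ => ?_
    rw [integral_finsetSum _ fun A _ => (hint i A).const_mul _]
    refine Finset.sum_eq_zero fun A _ => ?_
    rw [integral_const_mul, integral_fderiv_eq_zero _ (hw i A) (hcs i A), mul_zero]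
  rw [integral_sub ((tst_QG hT hu).inner_int hv.continuous)
    (hu.inner_int (contDiff_QG hT hv).continuous)] at hI
  exact sub_eq_zero.mp hI

lemma pd_QG (hT : ContDiff ℝ ∞ T) {u : Cfg n → F} (hu : ContDiff ℝ ∞ u) (j : Fin 9) (B : Fin n)
    (x : Cfg n) :
    pd j B (QG a T u) x = (-Complex.I) • ∑ i, ∑ A, a i A (pd j B (pd i A u) x)
      + (fderiv ℝ T x (EuclideanSpace.single (j, B) 1)) (u x) + T x (pd j B u x) := by
  have hd : ∀ i A, DifferentiableAt ℝ (pd i A u) x := fun i A =>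
    (contDiff_pd hu).differentiable (by simp) x
  have hdv : ∀ i A, DifferentiableAt ℝ (fun y => a i A (pd i A u y)) x := fun i A =>
    ((a i A).restrictScalars ℝ).differentiableAt.comp x (hd i A)
  have hWd : DifferentiableAt ℝ T x := hT.differentiable (by simp) x
  have hud : DifferentiableAt ℝ u x := hu.differentiable (by simp) x
  have h1 : DifferentiableAt ℝ (fun y => (-Complex.I) • ∑ i, ∑ A, a i A (pd i A u y)) x := by
    refine DifferentiableAt.const_smul ?_ _
    refine DifferentiableAt.fun_sum fun i _ => DifferentiableAt.fun_sum fun A _ => hdv i A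
  have h2 : DifferentiableAt ℝ (fun y => T y (u y)) x :=
    (Setup.contDiff_clm_apply' hT hu).differentiable (by simp) x
  have e : QG a T u = fun y => (-Complex.I) • ∑ i, ∑ A, a i A (pd i A u y) + T y (u y) := rfl
  rw [e, pd_add h1 h2, pd_clm_apply hWd hud, ← add_assoc]
  congr 2
  have h3 : pd j B (fun y => (-Complex.I) • ∑ i, ∑ A, a i A (pd i A u y)) x =
      (-Complex.I) • pd j B (fun y => ∑ i, ∑ A, a i A (pd i A u y)) x := by
    unfold pd
    rw [fderiv_fun_const_smul]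
    · rfl
    · exact DifferentiableAt.fun_sum fun i _ => DifferentiableAt.fun_sum fun A _ => hdv i A
  rw [h3]
  congr 1
  rw [pd_sum _ (fun i _ => DifferentiableAt.fun_sum fun A _ => hdv i A)]
  refine Finset.sum_congr rfl fun i _ => ?_
  rw [pd_sum _ (fun A _ => hdv i A)]
  refine Finset.sum_congr rfl fun A _ => ?_
  rw [pd_clm _ (hd i A)]

/-- composition of two such operators -/
lemma QG_QG (hX : ContDiff ℝ ∞ X) {u : Cfg n → F} (hu : ContDiff ℝ ∞ u) (x : Cfg n) :
    QG a T (QG b X u) x = -(∑ j, ∑ B, ∑ i, ∑ A, a j B (b i A (pd j B (pd i A u) x)))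
      + (-Complex.I) • (∑ j, ∑ B, a j B (fderiv ℝ X x (EuclideanSpace.single (j, B) 1) (u x)))
      + (-Complex.I) • (∑ j, ∑ B, a j B (X x (pd j B u x)))
      + (-Complex.I) • (∑ i, ∑ A, T x (b i A (pd i A u x)))
      + T x (X x (u x)) := by
  conv_lhs => rw [QG]
  simp only [pd_QG hX hu]
  rw [QG]
  simp only [map_add, map_smul, map_sum, Finset.sum_add_distrib, smul_add,
    ← Finset.smul_sum, smul_smul]
  have hI : (-Complex.I) * (-Complex.I) = -1 := by
    rw [neg_mul_neg, Complex.I_mul_I]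
  rw [hI, neg_one_smul]
  abel

/-- two anticommuting operators have orthogonal ranges -/
theorem cross_zero (hT : ContDiff ℝ ∞ T) (hX : ContDiff ℝ ∞ X)
    (ha : ∀ i A v w, inner ℂ (a i A v) w = inner ℂ v (a i A w))
    (hb : ∀ i A v w, inner ℂ (b i A v) w = inner ℂ v (b i A w))
    (hTs : ∀ x v w, inner ℂ (T x v) w = inner ℂ v (T x w))
    (hXs : ∀ x v w, inner ℂ (X x v) w = inner ℂ v (X x w))
    (hab : ∀ i A j B v, a i A (b j B v) + b j B (a i A v) = 0)
    (haX : ∀ i A x v, a i A (X x v) + X x (a i A v) = 0)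
    (hTb : ∀ i A x v, T x (b i A v) + b i A (T x v) = 0)
    (hTX : ∀ x v, T x (X x v) + X x (T x v) = 0)
    (hdX : ∀ x v, ∑ j, ∑ B, a j B (fderiv ℝ X x (EuclideanSpace.single (j, B) 1) v) = 0)
    (hdT : ∀ x v, ∑ j, ∑ B, b j B (fderiv ℝ T x (EuclideanSpace.single (j, B) 1) v) = 0)
    {u : Cfg n → F} (hu : Setup.Tst u) :
    (∫ x, inner ℂ (QG a T u x) (QG b X u x)).re = 0 := by
  have h1 : ∫ x, inner ℂ (QG a T u x) (QG b X u x) = ∫ x, inner ℂ (u x) (QG a T (QG b X u) x) :=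
    QG_symm hT ha hTs u _ hu (contDiff_QG hX hu.1)
  have h2 : ∫ x, inner ℂ (QG b X u x) (QG a T u x) = ∫ x, inner ℂ (u x) (QG b X (QG a T u) x) :=
    QG_symm hX hb hXs u _ hu (contDiff_QG hT hu.1)
  have h3 : (∫ x, inner ℂ (QG a T u x) (QG b X u x)) =
      (starRingEnd ℂ) (∫ x, inner ℂ (QG b X u x) (QG a T u x)) := by
    rw [← integral_conj]
    refine integral_congr_ae (Eventually.of_forall fun x => ?_)
    exact (inner_conj_symm _ _).symm
  have h4 : ∀ x, QG a T (QG b X u) x + QG b X (QG a T u) x = 0 := by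
    intro x
    rw [QG_QG hX hu.1, QG_QG hT hu.1, hdX x (u x), hdT x (u x)]
    have e1 : ∑ j, ∑ B, ∑ i, ∑ A, b j B (a i A (pd j B (pd i A u) x)) =
        -∑ j, ∑ B, ∑ i, ∑ A, a j B (b i A (pd j B (pd i A u) x)) := by
      have e2 : ∑ j, ∑ B, ∑ i, ∑ A, b j B (a i A (pd j B (pd i A u) x)) =
          ∑ i, ∑ A, ∑ j, ∑ B, b j B (a i A (pd j B (pd i A u) x)) := by
        have : ∀ f : (Fin 9 × Fin n) → (Fin 9 × Fin n) → F,
            ∑ j, ∑ B, ∑ i, ∑ A, f (j, B) (i, A) = ∑ i, ∑ A, ∑ j, ∑ B, f (j, B) (i, A) := by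
          intro f
          have g1 : ∑ j, ∑ B, ∑ i, ∑ A, f (j, B) (i, A) =
              ∑ p : Fin 9 × Fin n, ∑ q : Fin 9 × Fin n, f p q := by
            rw [Fintype.sum_prod_type]; simp only [Fintype.sum_prod_type]
          have g2 : ∑ i, ∑ A, ∑ j, ∑ B, f (j, B) (i, A) =
              ∑ q : Fin 9 × Fin n, ∑ p : Fin 9 × Fin n, f p q := by
            rw [Fintype.sum_prod_type]; simp only [Fintype.sum_prod_type]
          rw [g1, g2]; exact Finset.sum_comm
        exact this fun p q => b p.1 p.2 (a q.1 q.2 (pd p.1 p.2 (pd q.1 q.2 u) x))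
      rw [e2, ← Finset.sum_neg_distrib]
      refine Finset.sum_congr rfl fun i _ => ?_
      rw [← Finset.sum_neg_distrib]
      refine Finset.sum_congr rfl fun A _ => ?_
      rw [← Finset.sum_neg_distrib]
      refine Finset.sum_congr rfl fun j _ => ?_
      rw [← Finset.sum_neg_distrib]
      refine Finset.sum_congr rfl fun B _ => ?_
      rw [pd_comm hu.1 j i B A x]
      exact eq_neg_of_add_eq_zero_right (hab _ _ _ _ _)
    have e3 : ∑ j, ∑ B, a j B (X x (pd j B u x)) + ∑ i, ∑ A, X x (a i A (pd i A u x)) = 0 := by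
      rw [← Finset.sum_add_distrib]
      refine Finset.sum_eq_zero fun j _ => ?_
      rw [← Finset.sum_add_distrib]
      exact Finset.sum_eq_zero fun B _ => haX _ _ _ _
    have e4 : ∑ i, ∑ A, T x (b i A (pd i A u x)) + ∑ j, ∑ B, b j B (T x (pd j B u x)) = 0 := by
      rw [← Finset.sum_add_distrib]
      refine Finset.sum_eq_zero fun j _ => ?_
      rw [← Finset.sum_add_distrib]
      exact Finset.sum_eq_zero fun B _ => hTb _ _ _ _
    have e5 := hTX x (u x)
    rw [e1]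
    rw [eq_neg_of_add_eq_zero_left e3, eq_neg_of_add_eq_zero_left e4, eq_neg_of_add_eq_zero_left e5]
    simp only [smul_zero, smul_neg, neg_neg]
    abel
  have h5 : (∫ x, inner ℂ (QG a T u x) (QG b X u x)) + ∫ x, inner ℂ (QG b X u x) (QG a T u x) = 0 := by
    rw [h1, h2, ← integral_add (hu.inner_int (contDiff_QG hT (contDiff_QG hX hu.1)).continuous)
      (hu.inner_int (contDiff_QG hX (contDiff_QG hT hu.1)).continuous)]
    simp only [← inner_add_right, h4, inner_zero_right, integral_zero]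
  have h6 := congrArg Complex.re h5
  rw [Complex.add_re, Complex.zero_re] at h6
  have h7 := congrArg Complex.re h3
  rw [Complex.conj_re] at h7
  linarith

/-- the norm of a sum -/
lemma nsq_add {u v : Cfg n → F} (hu : Setup.Tst u) (hv : Setup.Tst v) :
    nsq (fun x => u x + v x) = nsq u + nsq v + 2 * (∫ x, inner ℂ (u x) (v x)).re := by
  have h1 : ∀ x, ‖u x + v x‖ ^ 2 = ‖u x‖ ^ 2 + ‖v x‖ ^ 2 + 2 * (inner ℂ (u x) (v x)).re := by
    intro x
    have := norm_add_sq (𝕜 := ℂ) (u x) (v x)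
    simp only [RCLike.re_to_complex] at this
    rw [this]; ring
  have hi : Integrable (fun x => inner ℂ (u x) (v x)) := hu.inner_int hv.1.continuous
  have h2 : (∫ x, inner ℂ (u x) (v x)).re = ∫ x, (inner ℂ (u x) (v x)).re := by
    have := integral_re hi
    simpa using this.symm
  unfold nsq
  rw [h2]
  simp only [h1]
  have j1 : Integrable (fun x => ‖u x‖ ^ 2 + ‖v x‖ ^ 2) := hu.norm_sq_int.add hv.norm_sq_int
  have j2 : Integrable (fun x => 2 * (inner ℂ (u x) (v x)).re) := hi.re.const_mul 2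
  rw [integral_add j1 j2, integral_add hu.norm_sq_int hv.norm_sq_int, integral_const_mul]

lemma nsq_nonneg (u : Cfg n → F) : 0 ≤ nsq u := integral_nonneg fun x => by positivity

/-- lower bound for a family of operators whose first order terms cancel -/
theorem fam_lower (a : Fin 16 → Fin 9 → Fin n → F →L[ℂ] F) (T : Fin 16 → Cfg n → F →L[ℂ] F)
    (hT : ∀ β, ContDiff ℝ ∞ (T β))
    (ha : ∀ β i A v w, inner ℂ (a β i A v) w = inner ℂ v (a β i A w))
    (hTs : ∀ β x v w, inner ℂ (T β x v) w = inner ℂ v (T β x w))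
    (hfirst : ∀ i A x v, ∑ β, (a β i A (T β x v) + T β x (a β i A v)) = 0)
    (q : Cfg n → ℝ) (hq : Continuous q) (hTT : ∀ x v, ∑ β, T β x (T β x v) = ((q x : ℝ) : ℂ) • v)
    (K : F →L[ℂ] F) (hK : ∀ x v, (-Complex.I) • ∑ β, ∑ j, ∑ B,
      a β j B (fderiv ℝ (T β) x (EuclideanSpace.single (j, B) 1) v) = K v)
    {u : Cfg n → F} (hu : Setup.Tst u) :
    (∫ x, q x * ‖u x‖ ^ 2) - ‖K‖ * nsq u ≤ ∑ β, nsq (QG (a β) (T β) u) := by
  -- split off the derivative part
  set Z : Cfg n → F →L[ℂ] F := fun _ => 0 with hZ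
  have hZc : ContDiff ℝ ∞ Z := contDiff_const
  have hZs : ∀ x v w, inner ℂ (Z x v) w = inner ℂ v (Z x w) := by
    intro x v w; simp [hZ]
  have hTu : ∀ β, Setup.Tst (fun x => T β x (u x)) := fun β => Setup.Tst.clm (hT β) hu
  have hDu : ∀ β, Setup.Tst (QG (a β) Z u) := fun β => tst_QG hZc hu
  have e0 : ∀ β, QG (a β) (T β) u = fun x => QG (a β) Z u x + T β x (u x) := by
    intro β; funext x; simp [QG, hZ]
  have e1 : ∀ β, nsq (QG (a β) (T β) u) = nsq (QG (a β) Z u) + nsq (fun x => T β x (u x)) +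
      2 * (∫ x, inner ℂ (QG (a β) Z u x) (T β x (u x))).re := by
    intro β
    rw [e0 β, nsq_add (hDu β) (hTu β)]
  -- the norm of the multiplier
  have e2 : ∑ β, nsq (fun x => T β x (u x)) = ∫ x, q x * ‖u x‖ ^ 2 := by
    unfold nsq
    rw [← integral_finsetSum _ fun β _ => (hTu β).norm_sq_int]
    refine integral_congr_ae (Eventually.of_forall fun x => ?_)
    have h1 : ∀ β, ((‖T β x (u x)‖ ^ 2 : ℝ) : ℂ) = inner ℂ (u x) (T β x (T β x (u x))) := by
      intro β
      rw [← hTs, inner_self_eq_norm_sq_to_K]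
      norm_cast
    have h2 : ((∑ β, ‖T β x (u x)‖ ^ 2 : ℝ) : ℂ) = ((q x * ‖u x‖ ^ 2 : ℝ) : ℂ) := by
      rw [Complex.ofReal_sum]
      simp only [h1]
      rw [← inner_sum, hTT, inner_smul_right, inner_self_eq_norm_sq_to_K]
      push_cast
      rfl
    exact_mod_cast h2
  -- the cross terms
  have e3 : ∑ β, 2 * (∫ x, inner ℂ (QG (a β) Z u x) (T β x (u x))).re =
      (∫ x, inner ℂ (u x) (K (u x))).re := by
    have h1 : ∀ β, ∫ x, inner ℂ (QG (a β) Z u x) (T β x (u x)) =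
        ∫ x, inner ℂ (u x) (QG (a β) Z (fun y => T β y (u y)) x) := fun β =>
      QG_symm hZc (ha β) hZs u _ hu (Setup.contDiff_clm_apply' (hT β) hu.1)
    have h2 : ∀ β, ∫ x, inner ℂ (T β x (u x)) (QG (a β) Z u x) =
        ∫ x, inner ℂ (u x) (T β x (QG (a β) Z u x)) := by
      intro β
      refine integral_congr_ae (Eventually.of_forall fun x => ?_)
      exact hTs _ _ _ _
    have h3 : ∀ β, (∫ x, inner ℂ (QG (a β) Z u x) (T β x (u x))).re =
        (∫ x, inner ℂ (T β x (u x)) (QG (a β) Z u x)).re := by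
      intro β
      have : (∫ x, inner ℂ (QG (a β) Z u x) (T β x (u x))) =
          (starRingEnd ℂ) (∫ x, inner ℂ (T β x (u x)) (QG (a β) Z u x)) := by
        rw [← integral_conj]
        refine integral_congr_ae (Eventually.of_forall fun x => ?_)
        exact (inner_conj_symm _ _).symm
      rw [this, Complex.conj_re]
    have i1 : ∀ β, Integrable fun x => inner ℂ (u x) (QG (a β) Z (fun y => T β y (u y)) x) :=
      fun β => hu.inner_int (contDiff_QG hZc (Setup.contDiff_clm_apply' (hT β) hu.1)).continuous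
    have i2 : ∀ β, Integrable fun x => inner ℂ (u x) (T β x (QG (a β) Z u x)) :=
      fun β => hu.inner_int
        (Setup.contDiff_clm_apply' (hT β) (contDiff_QG hZc hu.1)).continuous
    have h4 : ∀ β, 2 * (∫ x, inner ℂ (QG (a β) Z u x) (T β x (u x))).re =
        (∫ x, (inner ℂ (u x) (QG (a β) Z (fun y => T β y (u y)) x) +
          inner ℂ (u x) (T β x (QG (a β) Z u x)))).re := by
      intro β
      rw [integral_add (i1 β) (i2 β), Complex.add_re, ← h1 β, ← h2 β, ← h3 β]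
      ring
    simp only [h4]
    have i3 : ∀ β ∈ (Finset.univ : Finset (Fin 16)), Integrable fun x =>
        (inner ℂ (u x) (QG (a β) Z (fun y => T β y (u y)) x) +
          inner ℂ (u x) (T β x (QG (a β) Z u x))) := fun β _ => (i1 β).add (i2 β)
    rw [← Complex.re_sum, ← integral_finsetSum _ i3]
    congr 1
    refine integral_congr_ae (Eventually.of_forall fun x => ?_)
    show ∑ β, (inner ℂ (u x) (QG (a β) Z (fun y => T β y (u y)) x) +
      inner ℂ (u x) (T β x (QG (a β) Z u x))) = inner ℂ (u x) (K (u x))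
    simp only [← inner_add_right]
    rw [← inner_sum]
    congr 1
    have hp : ∀ β j B, pd j B (fun y => T β y (u y)) x =
        (fderiv ℝ (T β) x (EuclideanSpace.single (j, B) 1)) (u x) + T β x (pd j B u x) :=
      fun β j B => pd_clm_apply ((hT β).differentiable (by simp) x) (hu.diff x)
    have h5 : ∀ β, QG (a β) Z (fun y => T β y (u y)) x + T β x (QG (a β) Z u x) =
        (-Complex.I) • (∑ j, ∑ B, a β j B (fderiv ℝ (T β) x (EuclideanSpace.single (j, B) 1) (u x))) +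
        (-Complex.I) • ∑ j, ∑ B, (a β j B (T β x (pd j B u x)) + T β x (a β j B (pd j B u x))) := by
      intro β
      simp only [QG, hZ, hp, _root_.zero_apply, add_zero, map_add, map_smul, map_sum,
        Finset.sum_add_distrib, smul_add]
      abel
    simp only [h5]
    rw [Finset.sum_add_distrib, ← Finset.smul_sum, hK, ← Finset.smul_sum]
    have h6 : ∑ β, ∑ j, ∑ B, (a β j B (T β x (pd j B u x)) + T β x (a β j B (pd j B u x))) = 0 := by
      rw [Finset.sum_comm]
      refine Finset.sum_eq_zero fun j _ => ?_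
      rw [Finset.sum_comm]
      exact Finset.sum_eq_zero fun B _ => hfirst _ _ _ _
    rw [h6, smul_zero, add_zero]
  -- the constant term
  have e4 : -(‖K‖ * nsq u) ≤ (∫ x, inner ℂ (u x) (K (u x))).re := by
    have hi : Integrable fun x => inner ℂ (u x) (K (u x)) :=
      hu.inner_int (K.continuous.comp hu.1.continuous)
    have h1 : (∫ x, inner ℂ (u x) (K (u x))).re = ∫ x, (inner ℂ (u x) (K (u x))).re := by
      have := integral_re hi
      simpa using this.symm
    rw [h1, nsq, ← integral_const_mul, ← integral_neg]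
    refine integral_mono (hu.norm_sq_int.const_mul _).neg (hi.re.congr
      (Eventually.of_forall fun x => by simp)) fun x => ?_
    have h2 : |(inner ℂ (u x) (K (u x))).re| ≤ ‖K‖ * ‖u x‖ ^ 2 := by
      calc |(inner ℂ (u x) (K (u x))).re| ≤ ‖inner ℂ (u x) (K (u x))‖ := Complex.abs_re_le_norm _
        _ ≤ ‖u x‖ * ‖K (u x)‖ := norm_inner_le_norm _ _
        _ ≤ ‖u x‖ * (‖K‖ * ‖u x‖) := by gcongr; exact K.le_opNorm _
        _ = ‖K‖ * ‖u x‖ ^ 2 := by ring
    exact neg_le_of_abs_le h2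
  have e5 : 0 ≤ ∑ β, nsq (QG (a β) Z u) := Finset.sum_nonneg fun β _ => nsq_nonneg _
  simp only [e1, Finset.sum_add_distrib, e2, e3]
  linarith

end Vale.Agent.P353.Z.AN.MassPf

namespace Vale.Agent.P353.Z.AN.MassPf

variable {d dh dm : ℕ} {F : Type*} [NormedAddCommGroup F] [InnerProductSpace ℂ F]
variable (S : Setup d F) (φ : Spl dh dm d) (c : Fin dh → ℝ)

/-- `(N θ_c)_β` -/
noncomputable def Vc (N : Matrix (Fin 16) (Fin 16) ℂ) (β : Fin 16) : F →L[ℂ] F :=
  ∑ A, ((c A : ℝ) : ℂ) • S.vec N (φ (Sum.inl A)) β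

/-- `(N θ^A)_β` minus its component along `c` -/
noncomputable def Vp (N : Matrix (Fin 16) (Fin 16) ℂ) (A : Fin dh) (β : Fin 16) : F →L[ℂ] F :=
  S.vec N (φ (Sum.inl A)) β - ((c A : ℝ) : ℂ) • Vc S φ c N β

lemma Vc_vec (N M : Matrix (Fin 16) (Fin 16) ℂ) (B : Fin dh) (β δ : Fin 16) :
    Vc S φ c N β * S.vec M (φ (Sum.inl B)) δ + S.vec M (φ (Sum.inl B)) δ * Vc S φ c N β =
      (((c B : ℝ) : ℂ) * (N * Mᵀ) β δ) • (1 : F →L[ℂ] F) := by
  unfold Vc
  rw [Finset.sum_mul, Finset.mul_sum, ← Finset.sum_add_distrib]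
  have h : ∀ A, ((c A : ℝ) : ℂ) • S.vec N (φ (Sum.inl A)) β * S.vec M (φ (Sum.inl B)) δ +
      S.vec M (φ (Sum.inl B)) δ * ((c A : ℝ) : ℂ) • S.vec N (φ (Sum.inl A)) β =
      if A = B then (((c A : ℝ) : ℂ) * (N * Mᵀ) β δ) • (1 : F →L[ℂ] F) else 0 := by
    intro A
    rw [smul_mul_assoc, mul_smul_comm, ← smul_add, S.vec_anti]
    simp only [EmbeddingLike.apply_eq_iff_eq, Sum.inl.injEq]
    by_cases hAB : A = B
    · simp [hAB, smul_smul]
    · simp [hAB]
  simp only [h, Finset.sum_ite_eq', Finset.mem_univ, if_true]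

lemma Vc_Vc (hc : ∑ A, c A ^ 2 = 1) (N M : Matrix (Fin 16) (Fin 16) ℂ) (β δ : Fin 16) :
    Vc S φ c N β * Vc S φ c M δ + Vc S φ c M δ * Vc S φ c N β =
      ((N * Mᵀ) β δ) • (1 : F →L[ℂ] F) := by
  have e : Vc S φ c M δ = ∑ B, ((c B : ℝ) : ℂ) • S.vec M (φ (Sum.inl B)) δ := rfl
  conv_lhs => rw [e]
  rw [Finset.sum_mul, Finset.mul_sum, ← Finset.sum_add_distrib]
  simp only [smul_mul_assoc, mul_smul_comm, ← smul_add, Vc_vec, smul_smul]
  rw [← Finset.sum_smul]
  congr 1
  have h1 : ∑ x, ((c x : ℝ) : ℂ) * (((c x : ℝ) : ℂ) * (N * Mᵀ) β δ) =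
      (((∑ A, c A ^ 2 : ℝ)) : ℂ) * (N * Mᵀ) β δ := by
    push_cast
    rw [Finset.sum_mul]
    exact Finset.sum_congr rfl fun x _ => by ring
  rw [h1, hc]
  simp

lemma anti (hc : ∑ A, c A ^ 2 = 1) (N M : Matrix (Fin 16) (Fin 16) ℂ) (B : Fin dh)
    (β δ : Fin 16) : Vc S φ c N β * Vp S φ c M B δ + Vp S φ c M B δ * Vc S φ c N β = 0 := by
  unfold Vp
  rw [mul_sub, sub_mul, mul_smul_comm, smul_mul_assoc, sub_add_sub_comm, ← smul_add,
    Vc_vec, Vc_Vc S φ c hc, smul_smul, sub_self]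

lemma anti_apply (hc : ∑ A, c A ^ 2 = 1) (N M : Matrix (Fin 16) (Fin 16) ℂ) (B : Fin dh)
    (β δ : Fin 16) (v : F) :
    Vc S φ c N β (Vp S φ c M B δ v) + Vp S φ c M B δ (Vc S φ c N β v) = 0 := by
  have h := congrArg (fun T : F →L[ℂ] F => T v) (anti S φ c hc N M B β δ)
  simpa only [_root_.add_apply, mul_apply_eq_comp, _root_.zero_apply] using h

lemma sum_Vp (hc : ∑ A, c A ^ 2 = 1) (N : Matrix (Fin 16) (Fin 16) ℂ) (β : Fin 16) :
    ∑ A, ((c A : ℝ) : ℂ) • Vp S φ c N A β = 0 := by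
  unfold Vp
  simp only [smul_sub, Finset.sum_sub_distrib, smul_smul]
  rw [← Finset.sum_smul]
  have h1 : ∑ A, ((c A : ℝ) : ℂ) * ((c A : ℝ) : ℂ) = 1 := by
    have : ∑ A, ((c A : ℝ) : ℂ) * ((c A : ℝ) : ℂ) = (((∑ A, c A ^ 2 : ℝ)) : ℂ) := by
      push_cast
      exact Finset.sum_congr rfl fun x _ => by ring
    rw [this, hc]; simp
  rw [h1, one_smul]
  exact sub_self _

lemma Vc_symm {N : Matrix (Fin 16) (Fin 16) ℂ} (hN : ∀ α β, (N α β).im = 0) (β : Fin 16) (v w : F) :
    inner ℂ (Vc S φ c N β v) w = inner ℂ v (Vc S φ c N β w) := by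
  unfold Vc
  simp only [_root_.sum_apply, _root_.smul_apply, sum_inner, inner_sum, inner_smul_left,
    inner_smul_right, S.vec_symm _ hN, Complex.conj_ofReal]

lemma Vp_symm {N : Matrix (Fin 16) (Fin 16) ℂ} (hN : ∀ α β, (N α β).im = 0) (A : Fin dh)
    (β : Fin 16) (v w : F) :
    inner ℂ (Vp S φ c N A β v) w = inner ℂ v (Vp S φ c N A β w) := by
  unfold Vp
  simp only [_root_.sub_apply, _root_.smul_apply, inner_sub_left, inner_sub_right, inner_smul_left,
    inner_smul_right, S.vec_symm _ hN, Vc_symm S φ c hN, Complex.conj_ofReal]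

lemma Vc_smul (s : ℂ) (N : Matrix (Fin 16) (Fin 16) ℂ) (β : Fin 16) :
    Vc S φ c (s • N) β = s • Vc S φ c N β := by
  unfold Vc
  simp only [S.vec_smul, Finset.smul_sum]
  exact Finset.sum_congr rfl fun A _ => smul_comm _ _ _

lemma Vc_sum {ι : Type*} (s : Finset ι) (N : ι → Matrix (Fin 16) (Fin 16) ℂ) (β : Fin 16) :
    Vc S φ c (∑ i ∈ s, N i) β = ∑ i ∈ s, Vc S φ c (N i) β := by
  unfold Vc
  simp only [S.vec_sum, Finset.smul_sum]
  rw [Finset.sum_comm]

/-- `y_{i,c}` -/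
noncomputable def yc (i : Fin 9) (y : Cfg dh) : ℝ := ∑ A, c A * y (i, A)

/-- mass matrix in direction `c` -/
noncomputable def tc (N : Fin 9 → Matrix (Fin 16) (Fin 16) ℂ) (m : ℝ) (y : Cfg dh) :
    Matrix (Fin 16) (Fin 16) ℂ := (m : ℂ) • ∑ i, ((yc c i y : ℝ) : ℂ) • N i

/-- multiplier of the `c` part -/
noncomputable def Tc (N : Fin 9 → Matrix (Fin 16) (Fin 16) ℂ) (m : ℝ) (β : Fin 16) (y : Cfg dh) :
    F →L[ℂ] F := (m : ℂ) • ∑ i, ((yc c i y : ℝ) : ℂ) • Vc S φ c (N i) β

lemma Tc_eq (N : Fin 9 → Matrix (Fin 16) (Fin 16) ℂ) (m : ℝ) (β : Fin 16) (y : Cfg dh) :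
    Tc S φ c N m β y = Vc S φ c (tc c N m y) β := by
  unfold Tc tc
  rw [Vc_smul, Vc_sum]
  simp only [Vc_smul]

/-- field strength of the subalgebra -/
noncomputable def FFh (A : Fin dh) (i j : Fin 9) (y : Cfg dh) : ℝ :=
  S.κ * ∑ B, ∑ C, S.f (φ (Sum.inl A)) (φ (Sum.inl B)) (φ (Sum.inl C)) * y (i, B) * y (j, C)

/-- multiplier of the rest -/
noncomputable def Xc (N : Fin 9 → Matrix (Fin 16) (Fin 16) ℂ) (m : ℝ) (β : Fin 16) (y : Cfg dh) :
    F →L[ℂ] F :=
  (1 / 2 : ℂ) • (∑ A, ∑ i, ∑ j, ((FFh S φ A i j y : ℝ) : ℂ) • Vp S φ c (S.g2 i j) A β) +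
    (m : ℂ) • ∑ i, ∑ A, ((y (i, A) : ℝ) : ℂ) • Vp S φ c (N i) A β

/-- coefficients -/
noncomputable def ac (β : Fin 16) (i : Fin 9) (A : Fin dh) : F →L[ℂ] F :=
  ((c A : ℝ) : ℂ) • Vc S φ c (S.g i) β

/-- coefficients -/
noncomputable def bc (β : Fin 16) (i : Fin 9) (A : Fin dh) : F →L[ℂ] F := Vp S φ c (S.g i) A β

variable {c}

/-- the decomposition of the block supercharge -/
lemma Qhm_eq (hcen : ∀ B C, ∑ A, S.f (φ (Sum.inl A)) (φ (Sum.inl B)) (φ (Sum.inl C)) * c A = 0)
    (N : Fin 9 → Matrix (Fin 16) (Fin 16) ℂ) (m : ℝ) (β : Fin 16) (v : Cfg dh → Wsp dm → F)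
    (y : Cfg dh) (w : Wsp dm) :
    S.Qhm φ N m β v y w = QG (ac S φ c β) (Tc S φ c N m β) (fun y' => v y' w) y +
      QG (bc S φ c β) (Xc S φ c N m β) (fun y' => v y' w) y := by
  have hF : ∀ i j, ∑ A, ((FFh S φ A i j y : ℝ) : ℂ) * ((c A : ℝ) : ℂ) = 0 := by
    intro i j
    have : ∑ A, FFh S φ A i j y * c A = 0 := by
      unfold FFh
      have e : ∀ A, (S.κ * ∑ B, ∑ C, S.f (φ (Sum.inl A)) (φ (Sum.inl B)) (φ (Sum.inl C)) *
          y (i, B) * y (j, C)) * c A = ∑ B, ∑ C, S.κ * (y (i, B) * y (j, C)) *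
          (S.f (φ (Sum.inl A)) (φ (Sum.inl B)) (φ (Sum.inl C)) * c A) := by
        intro A
        rw [mul_assoc, Finset.sum_mul, Finset.mul_sum]
        refine Finset.sum_congr rfl fun B _ => ?_
        rw [Finset.sum_mul, Finset.mul_sum]
        exact Finset.sum_congr rfl fun C _ => by ring
      simp only [e]
      rw [Finset.sum_comm]
      refine Finset.sum_eq_zero fun B _ => ?_
      rw [Finset.sum_comm]
      refine Finset.sum_eq_zero fun C _ => ?_
      rw [← Finset.mul_sum, hcen, mul_zero]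
    exact_mod_cast congrArg (fun t : ℝ => (t : ℂ)) this
  have h1 : (∑ A, ∑ i, ∑ j, ((FFh S φ A i j y : ℝ) : ℂ) • Vp S φ c (S.g2 i j) A β) (v y w) =
      ∑ A, ∑ i, ∑ j, ((FFh S φ A i j y : ℝ) : ℂ) • S.vec (S.g2 i j) (φ (Sum.inl A)) β (v y w) := by
    have e1 : ∀ A i j, (((FFh S φ A i j y : ℝ) : ℂ) • Vp S φ c (S.g2 i j) A β) (v y w) =
        ((FFh S φ A i j y : ℝ) : ℂ) • S.vec (S.g2 i j) (φ (Sum.inl A)) β (v y w) -
        (((FFh S φ A i j y : ℝ) : ℂ) * ((c A : ℝ) : ℂ)) • Vc S φ c (S.g2 i j) β (v y w) := by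
      intro A i j
      unfold Vp
      rw [_root_.smul_apply, _root_.sub_apply, _root_.smul_apply, smul_sub, smul_smul]
    simp only [_root_.sum_apply, e1, Finset.sum_sub_distrib]
    have e2 : ∑ A, ∑ i, ∑ j, (((FFh S φ A i j y : ℝ) : ℂ) * ((c A : ℝ) : ℂ)) •
        Vc S φ c (S.g2 i j) β (v y w) = 0 := by
      rw [Finset.sum_comm]
      refine Finset.sum_eq_zero fun i _ => ?_
      rw [Finset.sum_comm]
      refine Finset.sum_eq_zero fun j _ => ?_
      rw [← Finset.sum_smul, hF, zero_smul]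
    rw [e2, sub_zero]
  have h2 : (∑ i, ∑ A, ((y (i, A) : ℝ) : ℂ) • Vp S φ c (N i) A β) (v y w) +
      (∑ i, ((yc c i y : ℝ) : ℂ) • Vc S φ c (N i) β) (v y w) =
      ∑ i, ∑ A, ((y (i, A) : ℝ) : ℂ) • S.vec (N i) (φ (Sum.inl A)) β (v y w) := by
    have e1 : ∀ i A, (((y (i, A) : ℝ) : ℂ) • Vp S φ c (N i) A β) (v y w) =
        ((y (i, A) : ℝ) : ℂ) • S.vec (N i) (φ (Sum.inl A)) β (v y w) -
        (((c A * y (i, A) : ℝ)) : ℂ) • Vc S φ c (N i) β (v y w) := by
      intro i A
      unfold Vp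
      rw [_root_.smul_apply, _root_.sub_apply, _root_.smul_apply, smul_sub, smul_smul]
      push_cast
      rw [mul_comm ((c A : ℝ) : ℂ)]
    simp only [_root_.sum_apply, e1, Finset.sum_sub_distrib, _root_.smul_apply]
    have e2 : ∑ i, ∑ A, (((c A * y (i, A) : ℝ)) : ℂ) • Vc S φ c (N i) β (v y w) =
        ∑ i, ((yc c i y : ℝ) : ℂ) • Vc S φ c (N i) β (v y w) := by
      refine Finset.sum_congr rfl fun i _ => ?_
      rw [← Finset.sum_smul, yc]
      push_cast
      rfl
    rw [e2, sub_add_cancel]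
  have h3 : ∑ i, ∑ A, ac S φ c β i A (pd i A (fun y' => v y' w) y) +
      ∑ i, ∑ A, bc S φ c β i A (pd i A (fun y' => v y' w) y) =
      ∑ i, ∑ A, S.vec (S.g i) (φ (Sum.inl A)) β (py i A v y w) := by
    rw [← Finset.sum_add_distrib]
    refine Finset.sum_congr rfl fun i _ => ?_
    rw [← Finset.sum_add_distrib]
    refine Finset.sum_congr rfl fun A _ => ?_
    unfold ac bc Vp
    rw [_root_.sub_apply]
    exact add_sub_cancel _ _
  unfold Setup.Qhm Setup.Qh Setup.Mh QG Tc Xc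
  rw [← h3]
  simp only [_root_.add_apply, _root_.smul_apply]
  rw [h1]
  have h4 : (∑ i, ∑ A, ((y (i, A) : ℝ) : ℂ) • S.vec (N i) (φ (Sum.inl A)) β) (v y w) =
      (∑ i, ∑ A, ((y (i, A) : ℝ) : ℂ) • Vp S φ c (N i) A β) (v y w) +
      (∑ i, ((yc c i y : ℝ) : ℂ) • Vc S φ c (N i) β) (v y w) := by
    rw [h2]
    simp only [_root_.sum_apply, _root_.smul_apply]
  rw [h4]
  simp only [smul_add]
  unfold FFh
  abel

end Vale.Agent.P353.Z.AN.MassPf

namespace Vale.Agent.P353.Z.AN.MassPf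

variable {d dh dm : ℕ} {F : Type*} [NormedAddCommGroup F] [InnerProductSpace ℂ F]
variable (S : Setup d F) (φ : Spl dh dm d) {c : Fin dh → ℝ}
variable (N : Fin 9 → Matrix (Fin 16) (Fin 16) ℂ) (m : ℝ) (β : Fin 16)

lemma contDiff_yc (i : Fin 9) : ContDiff ℝ ∞ (yc c i) := by
  unfold yc
  exact ContDiff.sum fun A _ => contDiff_const.mul (Setup.contDiff_coord _)

lemma contDiff_Tc : ContDiff ℝ ∞ (Tc S φ c N m β) := by
  unfold Tc
  refine ContDiff.const_smul (m : ℂ) (ContDiff.sum fun i _ => ?_)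
  exact (Setup.contDiff_ofReal (contDiff_yc i)).smul contDiff_const

lemma contDiff_FFh (A : Fin dh) (i j : Fin 9) : ContDiff ℝ ∞ (FFh S φ A i j) := by
  unfold FFh
  refine contDiff_const.mul (ContDiff.sum fun B _ => ContDiff.sum fun C _ => ?_)
  exact (contDiff_const.mul (Setup.contDiff_coord _)).mul (Setup.contDiff_coord _)

lemma contDiff_Xc : ContDiff ℝ ∞ (Xc S φ c N m β) := by
  unfold Xc
  refine ContDiff.add (ContDiff.const_smul (1 / 2 : ℂ) (ContDiff.sum fun A _ => ContDiff.sum fun i _ =>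
    ContDiff.sum fun j _ => ?_)) (ContDiff.const_smul (m : ℂ) (ContDiff.sum fun i _ => ContDiff.sum fun A _ => ?_))
  · exact (Setup.contDiff_ofReal (contDiff_FFh S φ A i j)).smul contDiff_const
  · exact (Setup.contDiff_ofReal (Setup.contDiff_coord _)).smul contDiff_const

lemma ac_symm (i : Fin 9) (A : Fin dh) (v w : F) :
    inner ℂ (ac S φ c β i A v) w = inner ℂ v (ac S φ c β i A w) := by
  unfold ac
  simp only [_root_.smul_apply, inner_smul_left, inner_smul_right, Vc_symm S φ c (S.g_im i),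
    Complex.conj_ofReal]

lemma bc_symm (i : Fin 9) (A : Fin dh) (v w : F) :
    inner ℂ (bc S φ c β i A v) w = inner ℂ v (bc S φ c β i A w) := by
  unfold bc
  exact Vp_symm S φ c (S.g_im i) A β v w

variable {N}

lemma Tc_symm (hN : ∀ i α β, (N i α β).im = 0) (y : Cfg dh) (v w : F) :
    inner ℂ (Tc S φ c N m β y v) w = inner ℂ v (Tc S φ c N m β y w) := by
  unfold Tc
  simp only [_root_.smul_apply, _root_.sum_apply, sum_inner, inner_sum, inner_smul_left,
    inner_smul_right, Vc_symm S φ c (hN _), Complex.conj_ofReal]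

lemma Xc_symm (hN : ∀ i α β, (N i α β).im = 0) (y : Cfg dh) (v w : F) :
    inner ℂ (Xc S φ c N m β y v) w = inner ℂ v (Xc S φ c N m β y w) := by
  unfold Xc
  have h2 : (starRingEnd ℂ) (1 / 2 : ℂ) = 1 / 2 := by
    norm_num [Complex.ext_iff]
  simp only [_root_.add_apply, _root_.smul_apply, _root_.sum_apply, inner_add_left, inner_add_right,
    sum_inner, inner_sum, inner_smul_left,
    inner_smul_right, Vp_symm S φ c (hN _), Vp_symm S φ c (S.g2_im _ _), Complex.conj_ofReal, h2]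

/-- everything built from `θ_c` anticommutes with the rest -/
lemma anti_X (hc : ∑ A, c A ^ 2 = 1) (M : Matrix (Fin 16) (Fin 16) ℂ) (y : Cfg dh) (v : F) :
    Vc S φ c M β (Xc S φ c N m β y v) + Xc S φ c N m β y (Vc S φ c M β v) = 0 := by
  have h : ∀ (M' : Matrix (Fin 16) (Fin 16) ℂ) (A : Fin dh) (v : F),
      Vp S φ c M' A β (Vc S φ c M β v) = -(Vc S φ c M β (Vp S φ c M' A β v)) := fun M' A v =>
    eq_neg_of_add_eq_zero_right (anti_apply S φ c hc M M' A β β v)
  unfold Xc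
  simp only [_root_.add_apply, _root_.smul_apply, _root_.sum_apply, map_add, map_smul, map_sum, h,
    smul_neg, Finset.sum_neg_distrib]
  abel

lemma dTc (y e : Cfg dh) : fderiv ℝ (Tc S φ c N m β) y e =
    (m : ℂ) • ∑ i, ((yc c i e : ℝ) : ℂ) • Vc S φ c (N i) β := by
  have hd : DifferentiableAt ℝ (Tc S φ c N m β) y :=
    (contDiff_Tc S φ N m β).differentiable (by simp) y
  have hlin : ∀ t : ℝ, Tc S φ c N m β (y + t • e) = Tc S φ c N m β y +
      t • ((m : ℂ) • ∑ i, ((yc c i e : ℝ) : ℂ) • Vc S φ c (N i) β) := by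
    intro t
    unfold Tc
    rw [smul_comm t (m : ℂ), ← smul_add]
    congr 1
    rw [Finset.smul_sum, ← Finset.sum_add_distrib]
    refine Finset.sum_congr rfl fun i _ => ?_
    have : yc c i (y + t • e) = yc c i y + t * yc c i e := by
      unfold yc
      rw [Finset.mul_sum, ← Finset.sum_add_distrib]
      refine Finset.sum_congr rfl fun A _ => ?_
      simp only [PiLp.add_apply, PiLp.smul_apply, smul_eq_mul]
      ring
    rw [this]
    push_cast
    rw [add_smul, mul_smul]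
    rfl
  have h1 : lineDeriv ℝ (Tc S φ c N m β) y e = fderiv ℝ (Tc S φ c N m β) y e :=
    hd.lineDeriv_eq_fderiv
  rw [← h1, lineDeriv]
  simp only [hlin]
  rw [deriv_const_add]
  generalize ((m : ℂ) • ∑ i, ((yc c i e : ℝ) : ℂ) • Vc S φ c (N i) β) = K
  have h2 : HasDerivAt (fun t : ℝ => t • K) ((1 : ℝ) • K) 0 :=
    (hasDerivAt_id' (0 : ℝ)).smul_const K
  rw [h2.deriv, one_smul]

lemma yc_single (i j : Fin 9) (B : Fin dh) :
    yc c i (EuclideanSpace.single (j, B) (1 : ℝ)) = if i = j then c B else 0 := by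
  unfold yc
  by_cases h : i = j
  · subst h
    simp [PiLp.single_apply]
  · simp [PiLp.single_apply, h]

lemma dTc_single (y : Cfg dh) (j : Fin 9) (B : Fin dh) :
    fderiv ℝ (Tc S φ c N m β) y (EuclideanSpace.single (j, B) (1 : ℝ)) =
    (m : ℂ) • ((c B : ℝ) : ℂ) • Vc S φ c (N j) β := by
  rw [dTc]
  simp only [yc_single]
  congr 1
  rw [Finset.sum_eq_single j]
  · simp
  · intro i _ hij
    simp [hij]
  · intro h; exact absurd (Finset.mem_univ _) h

/-- direction `c` in the `k`-th vector component -/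
noncomputable def ec (c : Fin dh → ℝ) (k : Fin 9) : Cfg dh := ∑ B, c B • EuclideanSpace.single (k, B) (1 : ℝ)

lemma ec_apply (k i : Fin 9) (A : Fin dh) : ec c k (i, A) = if i = k then c A else 0 := by
  unfold ec
  rw [WithLp.ofLp_sum, Finset.sum_apply]
  simp only [PiLp.smul_apply, PiLp.single_apply, smul_eq_mul, Prod.mk.injEq]
  by_cases h : i = k
  · subst h
    simp
  · simp [h]

lemma dXc (hc : ∑ A, c A ^ 2 = 1)
    (hcen : ∀ B C, ∑ A, S.f (φ (Sum.inl A)) (φ (Sum.inl B)) (φ (Sum.inl C)) * c A = 0)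
    (y : Cfg dh) (k : Fin 9) : fderiv ℝ (Xc S φ c N m β) y (ec c k) = 0 := by
  have hd : DifferentiableAt ℝ (Xc S φ c N m β) y :=
    (contDiff_Xc S φ N m β).differentiable (by simp) y
  have hB : ∀ A C, ∑ B, S.f (φ (Sum.inl A)) (φ (Sum.inl B)) (φ (Sum.inl C)) * c B = 0 := by
    intro A C
    have := hcen A C
    have e : ∀ B, S.f (φ (Sum.inl A)) (φ (Sum.inl B)) (φ (Sum.inl C)) * c B =
        -(S.f (φ (Sum.inl B)) (φ (Sum.inl A)) (φ (Sum.inl C)) * c B) := by
      intro B; rw [S.f_swap]; ring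
    simp only [e, Finset.sum_neg_distrib, this, neg_zero]
  have hC : ∀ A B, ∑ C, S.f (φ (Sum.inl A)) (φ (Sum.inl B)) (φ (Sum.inl C)) * c C = 0 := by
    intro A B
    have := hcen A B
    have e : ∀ C, S.f (φ (Sum.inl A)) (φ (Sum.inl B)) (φ (Sum.inl C)) * c C =
        (S.f (φ (Sum.inl C)) (φ (Sum.inl A)) (φ (Sum.inl B)) * c C) := by
      intro C; rw [S.f_cyc (φ (Sum.inl C))]
    simp only [e, this]
  have hFF : ∀ (t : ℝ) A i j, FFh S φ A i j (y + t • ec c k) = FFh S φ A i j y := by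
    intro t A i j
    unfold FFh
    congr 1
    have e1 : ∀ B C, S.f (φ (Sum.inl A)) (φ (Sum.inl B)) (φ (Sum.inl C)) * (y + t • ec c k) (i, B) *
        (y + t • ec c k) (j, C) = S.f (φ (Sum.inl A)) (φ (Sum.inl B)) (φ (Sum.inl C)) * y (i, B) * y (j, C) +
        (if i = k then t else 0) * (y + t • ec c k) (j, C) *
          (S.f (φ (Sum.inl A)) (φ (Sum.inl B)) (φ (Sum.inl C)) * c B) +
        (if j = k then t else 0) * y (i, B) *
          (S.f (φ (Sum.inl A)) (φ (Sum.inl B)) (φ (Sum.inl C)) * c C) := by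
      intro B C
      simp only [PiLp.add_apply, PiLp.smul_apply, smul_eq_mul, ec_apply]
      split_ifs <;> ring
    simp only [e1, Finset.sum_add_distrib]
    have e2 : ∑ B, ∑ C, (if i = k then t else 0) * (y + t • ec c k) (j, C) *
          (S.f (φ (Sum.inl A)) (φ (Sum.inl B)) (φ (Sum.inl C)) * c B) = 0 := by
      rw [Finset.sum_comm]
      refine Finset.sum_eq_zero fun C _ => ?_
      rw [← Finset.mul_sum, hB, mul_zero]
    have e3 : ∑ B, ∑ C, (if j = k then t else 0) * y (i, B) *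
          (S.f (φ (Sum.inl A)) (φ (Sum.inl B)) (φ (Sum.inl C)) * c C) = 0 := by
      refine Finset.sum_eq_zero fun B _ => ?_
      rw [← Finset.mul_sum, hC, mul_zero]
    rw [e2, e3, add_zero, add_zero]
  have hX : ∀ t : ℝ, Xc S φ c N m β (y + t • ec c k) = Xc S φ c N m β y := by
    intro t
    unfold Xc
    simp only [hFF]
    congr 2
    have e1 : ∀ i A, (((y + t • ec c k) (i, A) : ℝ) : ℂ) • Vp S φ c (N i) A β =
        ((y (i, A) : ℝ) : ℂ) • Vp S φ c (N i) A β +
        (if i = k then (t : ℂ) else 0) • (((c A : ℝ) : ℂ) • Vp S φ c (N i) A β) := by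
      intro i A
      simp only [PiLp.add_apply, PiLp.smul_apply, smul_eq_mul, ec_apply]
      by_cases h : i = k
      · simp only [h, if_true]
        push_cast
        rw [add_smul, mul_smul]
      · simp [h]
    simp only [e1, Finset.sum_add_distrib]
    have e2 : ∑ i, ∑ A, (if i = k then (t : ℂ) else 0) • (((c A : ℝ) : ℂ) • Vp S φ c (N i) A β) = 0 := by
      refine Finset.sum_eq_zero fun i _ => ?_
      rw [← Finset.smul_sum, sum_Vp S φ c hc, smul_zero]
    rw [e2, add_zero]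
  have h1 : lineDeriv ℝ (Xc S φ c N m β) y (ec c k) = fderiv ℝ (Xc S φ c N m β) y (ec c k) :=
    hd.lineDeriv_eq_fderiv
  rw [← h1, lineDeriv]
  simp only [hX]
  simp

variable {m β}

/-- the per-slice inequality -/
theorem slice_ineq (hN : S.IsMass N) (hc : ∑ A, c A ^ 2 = 1)
    (hcen : ∀ B C, ∑ A, S.f (φ (Sum.inl A)) (φ (Sum.inl B)) (φ (Sum.inl C)) * c A = 0)
    (hm : 0 ≤ m) {u : Cfg dh → F} (hu : Setup.Tst u) (L : ℝ)
    (hL : ∀ y, u y ≠ 0 → L ^ 2 ≤ ∑ i, (yc c i y) ^ 2) :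
    8 * m ^ 2 * L ^ 2 * nsq u ≤
      ∑ β, nsq (fun y => QG (ac S φ c β) (Tc S φ c N m β) u y + QG (bc S φ c β) (Xc S φ c N m β) u y) +
      ‖((-Complex.I) • ∑ β, ∑ j, Vc S φ c (S.g j) β * Vc S φ c (N j) β : F →L[ℂ] F)‖ * m * nsq u := by
  set K0 : F →L[ℂ] F := (-Complex.I) • ∑ β, ∑ j, Vc S φ c (S.g j) β * Vc S φ c (N j) β with hK0
  have hc2 : ∑ A, ((c A : ℝ) : ℂ) * ((c A : ℝ) : ℂ) = 1 := by
    have : ∑ A, ((c A : ℝ) : ℂ) * ((c A : ℝ) : ℂ) = (((∑ A, c A ^ 2 : ℝ)) : ℂ) := by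
      push_cast
      exact Finset.sum_congr rfl fun x _ => by ring
    rw [this, hc]; simp
  -- the cross terms vanish
  have hcross : ∀ β, (∫ x, inner ℂ (QG (ac S φ c β) (Tc S φ c N m β) u x)
      (QG (bc S φ c β) (Xc S φ c N m β) u x)).re = 0 := by
    intro β
    refine cross_zero (contDiff_Tc S φ N m β) (contDiff_Xc S φ N m β) (ac_symm S φ β)
      (bc_symm S φ β) (Tc_symm S φ m β hN.real) (Xc_symm S φ m β hN.real) ?_ ?_ ?_ ?_ ?_ ?_ hu
    · intro i A j B v
      unfold ac bc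
      rw [_root_.smul_apply, _root_.smul_apply, map_smul, ← smul_add, anti_apply S φ c hc, smul_zero]
    · intro i A x v
      unfold ac
      rw [_root_.smul_apply, _root_.smul_apply, map_smul, ← smul_add, anti_X S φ m β hc, smul_zero]
    · intro i A x v
      unfold bc
      rw [Tc_eq]
      exact anti_apply S φ c hc _ _ _ _ _ v
    · intro x v
      rw [Tc_eq]
      exact anti_X S φ m β hc _ x v
    · intro x v
      refine Finset.sum_eq_zero fun j _ => ?_
      unfold ac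
      have e1 : ∑ B, (((c B : ℝ) : ℂ) • Vc S φ c (S.g j) β)
          (fderiv ℝ (Xc S φ c N m β) x (EuclideanSpace.single (j, B) 1) v) =
          Vc S φ c (S.g j) β ((fderiv ℝ (Xc S φ c N m β) x (ec c j)) v) := by
        unfold ec
        rw [map_sum, _root_.sum_apply, map_sum]
        refine Finset.sum_congr rfl fun B _ => ?_
        rw [map_smul, _root_.smul_apply, _root_.smul_apply]
        rw [show (c B • (fderiv ℝ (Xc S φ c N m β) x (EuclideanSpace.single (j, B) 1)) v : F) =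
          ((c B : ℝ) : ℂ) • (fderiv ℝ (Xc S φ c N m β) x (EuclideanSpace.single (j, B) 1)) v from
          (Complex.coe_smul _ _).symm, map_smul]
      rw [e1, dXc S φ m β hc hcen]
      simp
    · intro x v
      refine Finset.sum_eq_zero fun j _ => ?_
      simp only [dTc_single, _root_.smul_apply]
      unfold bc
      have e1 : ∑ B, (Vp S φ c (S.g j) B β) ((m : ℂ) • ((c B : ℝ) : ℂ) • (Vc S φ c (N j) β) v) =
          (m : ℂ) • (∑ B, ((c B : ℝ) : ℂ) • Vp S φ c (S.g j) B β) ((Vc S φ c (N j) β) v) := by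
        rw [_root_.sum_apply, Finset.smul_sum]
        refine Finset.sum_congr rfl fun B _ => ?_
        rw [map_smul, map_smul, _root_.smul_apply]
      rw [e1, sum_Vp S φ c hc]
      simp
  -- the trace of the square of the mass matrix
  have htr : ∀ x, (tc c N m x * (tc c N m x)ᵀ).trace =
      ((m ^ 2 * ∑ i, ∑ j, yc c i x * yc c j x * ((N i * (N j)ᵀ).trace).re : ℝ) : ℂ) := by
    intro x
    have him : ∀ i j, (N i * (N j)ᵀ).trace = ((((N i * (N j)ᵀ).trace).re : ℝ) : ℂ) := by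
      intro i j
      apply Complex.ext
      · simp
      · rw [Complex.ofReal_im, Matrix.trace, Complex.im_sum]
        refine Finset.sum_eq_zero fun α _ => ?_
        rw [Matrix.diag_apply, Matrix.mul_apply, Complex.im_sum]
        refine Finset.sum_eq_zero fun γ _ => ?_
        rw [Matrix.transpose_apply, Complex.mul_im, hN.real, hN.real]
        ring
    obtain ⟨r, hr⟩ : ∃ r : Fin 9 → Fin 9 → ℝ, ∀ i j, (N i * (N j)ᵀ).trace = ((r i j : ℝ) : ℂ) :=
      ⟨fun i j => ((N i * (N j)ᵀ).trace).re, him⟩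
    unfold tc
    rw [Matrix.transpose_smul, Matrix.transpose_sum, smul_mul_smul_comm, Finset.sum_mul_sum,
      Matrix.trace_smul, Matrix.trace_sum]
    simp only [Matrix.trace_sum, Matrix.transpose_smul, smul_mul_smul_comm, Matrix.trace_smul]
    simp only [hr, smul_eq_mul, Complex.ofReal_re]
    push_cast
    ring
  set q : Cfg dh → ℝ := fun x => (1 / 2) *
    (m ^ 2 * ∑ i, ∑ j, yc c i x * yc c j x * ((N i * (N j)ᵀ).trace).re) with hq
  have hqc : Continuous q := by
    refine continuous_const.mul (continuous_const.mul (continuous_finsetSum _ fun i _ =>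
      continuous_finsetSum _ fun j _ => ?_))
    exact (((contDiff_yc i).continuous).mul ((contDiff_yc j).continuous)).mul continuous_const
  have hsq : ∀ (M : Matrix (Fin 16) (Fin 16) ℂ) (v : F),
      ∑ β, Vc S φ c M β (Vc S φ c M β v) = ((1 / 2 : ℂ) * (M * Mᵀ).trace) • v := by
    intro M v
    have h1 : ∀ β, (2 : ℂ) • (Vc S φ c M β (Vc S φ c M β v)) = ((M * Mᵀ) β β) • v := by
      intro β
      have h := congrArg (fun T : F →L[ℂ] F => T v) (Vc_Vc S φ c hc M M β β)
      simp only [_root_.add_apply, mul_apply_eq_comp, _root_.smul_apply,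
        _root_.one_apply_eq_self] at h
      rw [two_smul]
      exact h
    have h2 : (2 : ℂ) • ∑ β, Vc S φ c M β (Vc S φ c M β v) = (M * Mᵀ).trace • v := by
      rw [Finset.smul_sum]
      simp only [h1]
      rw [← Finset.sum_smul]
      rfl
    rw [mul_smul, ← h2, smul_smul]
    norm_num
  have hlow := fam_lower (fun β => ac S φ c β) (fun β => Tc S φ c N m β) (fun β => contDiff_Tc S φ N m β)
    (fun β => ac_symm S φ β) (fun β => Tc_symm S φ m β hN.real) (by
      intro i A x v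
      simp only [Tc_eq]
      have h1 : ∀ β, (ac S φ c β i A) ((Vc S φ c (tc c N m x) β) v) +
          (Vc S φ c (tc c N m x) β) ((ac S φ c β i A) v) =
          (((c A : ℝ) : ℂ) * (S.g i * (tc c N m x)ᵀ) β β) • v := by
        intro β
        unfold ac
        have h := congrArg (fun T : F →L[ℂ] F => T v) (Vc_Vc S φ c hc (S.g i) (tc c N m x) β β)
        simp only [_root_.add_apply, mul_apply_eq_comp, _root_.smul_apply,
          _root_.one_apply_eq_self] at h
        rw [_root_.smul_apply, _root_.smul_apply, map_smul, ← smul_add, h, smul_smul]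
      simp only [h1]
      rw [← Finset.sum_smul, ← Finset.mul_sum]
      have h2 : ∑ β, (S.g i * (tc c N m x)ᵀ) β β = (S.g i * (tc c N m x)ᵀ).trace := rfl
      have h3 : (S.g i * (tc c N m x)ᵀ).trace = 0 := by
        unfold tc
        rw [Matrix.transpose_smul, Matrix.transpose_sum, Matrix.mul_smul, Matrix.trace_smul,
          Finset.mul_sum, Matrix.trace_sum]
        simp only [Matrix.transpose_smul, Matrix.mul_smul, Matrix.trace_smul, hN.tr, smul_zero,
          Finset.sum_const_zero]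
      rw [h2, h3, mul_zero, zero_smul]) q hqc (by
      intro x v
      simp only [Tc_eq]
      rw [hsq, htr, hq]
      push_cast
      rfl) ((m : ℂ) • K0) (by
      intro x v
      simp only [dTc_single, ac, _root_.smul_apply, map_smul]
      rw [hK0, _root_.smul_apply, _root_.sum_apply, smul_comm (m : ℂ)]
      congr 1
      rw [Finset.smul_sum]
      refine Finset.sum_congr rfl fun β _ => ?_
      rw [_root_.sum_apply, Finset.smul_sum]
      refine Finset.sum_congr rfl fun j _ => ?_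
      rw [mul_apply_eq_comp]
      have h1 : ∀ B, (m : ℂ) • ((c B : ℝ) : ℂ) • ((c B : ℝ) : ℂ) • (Vc S φ c (S.g j) β) ((Vc S φ c (N j) β) v) =
          (((c B : ℝ) : ℂ) * ((c B : ℝ) : ℂ)) • ((m : ℂ) • (Vc S φ c (S.g j) β) ((Vc S φ c (N j) β) v)) := by
        intro B
        rw [smul_smul ((c B : ℝ) : ℂ), smul_comm (m : ℂ)]
      simp only [h1]
      rw [← Finset.sum_smul, hc2, one_smul]) hu
  -- sum up
  have hP : ∀ β, Setup.Tst (QG (ac S φ c β) (Tc S φ c N m β) u) := fun β =>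
    tst_QG (contDiff_Tc S φ N m β) hu
  have hR : ∀ β, Setup.Tst (QG (bc S φ c β) (Xc S φ c N m β) u) := fun β =>
    tst_QG (contDiff_Xc S φ N m β) hu
  have hsum : ∑ β, nsq (QG (ac S φ c β) (Tc S φ c N m β) u) ≤
      ∑ β, nsq (fun y => QG (ac S φ c β) (Tc S φ c N m β) u y + QG (bc S φ c β) (Xc S φ c N m β) u y) := by
    refine Finset.sum_le_sum fun β _ => ?_
    rw [nsq_add (hP β) (hR β), hcross β]
    have := nsq_nonneg (QG (bc S φ c β) (Xc S φ c N m β) u)
    linarith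
  have hqlow : 8 * m ^ 2 * L ^ 2 * nsq u ≤ ∫ x, q x * ‖u x‖ ^ 2 := by
    rw [nsq, ← integral_const_mul]
    refine integral_mono (hu.norm_sq_int.const_mul _) (hu.mul_norm_sq_int hqc) fun x => ?_
    show 8 * m ^ 2 * L ^ 2 * ‖u x‖ ^ 2 ≤ q x * ‖u x‖ ^ 2
    by_cases h0 : u x = 0
    · simp [h0]
    · refine mul_le_mul_of_nonneg_right ?_ (by positivity)
      have h1 := hL x h0
      have h2 := hN.pos (fun i => yc c i x)
      have h3 : 0 ≤ m ^ 2 := by positivity
      have h4 : m ^ 2 * (16 * L ^ 2) ≤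
          m ^ 2 * ∑ i, ∑ j, yc c i x * yc c j x * ((N i * (N j)ᵀ).trace).re :=
        mul_le_mul_of_nonneg_left (le_trans (by linarith) h2) h3
      rw [hq]
      show 8 * m ^ 2 * L ^ 2 ≤ (1 / 2) * (m ^ 2 * ∑ i, ∑ j, yc c i x * yc c j x * ((N i * (N j)ᵀ).trace).re)
      linarith
  have hnorm : ‖((m : ℂ) • K0 : F →L[ℂ] F)‖ = m * ‖K0‖ := by
    rw [norm_smul, Complex.norm_real, Real.norm_of_nonneg hm]
  rw [hnorm] at hlow
  have : ‖K0‖ * m * nsq u = m * ‖K0‖ * nsq u := by ring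
  rw [this]
  linarith

end Vale.Agent.P353.Z.AN.MassPf

namespace Vale.Agent.P353.Z.AN.MassPf

variable {d dh dm : ℕ} {F : Type*} [NormedAddCommGroup F] [InnerProductSpace ℂ F]
variable (S : Setup d F) (φ : Spl dh dm d)

lemma tst2_sum (hA : CalcA dh dm F) {ι : Type*} (s : Finset ι) (f : ι → Cfg dh → Wsp dm → F)
    (h : ∀ i ∈ s, Tst2 (f i)) : Tst2 (fun y w => ∑ i ∈ s, f i y w) := by
  classical
  induction s using Finset.induction_on with
  | empty => simpa using hA.zero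
  | insert a s ha ih =>
    have h1 := hA.add (f a) (fun y w => ∑ i ∈ s, f i y w) (h a (Finset.mem_insert_self _ _))
      (ih fun i hi => h i (Finset.mem_insert_of_mem hi))
    simpa only [Finset.sum_insert ha] using h1

lemma tst2_Qhm (hA : CalcA dh dm F) (N : Fin 9 → Matrix (Fin 16) (Fin 16) ℂ) (m : ℝ) (β : Fin 16)
    {v : Cfg dh → Wsp dm → F} (hv : Tst2 v) : Tst2 (S.Qhm φ N m β v) := by
  have h1 : Tst2 (fun y w => (-Complex.I) • ∑ i, ∑ A, S.vec (S.g i) (φ (Sum.inl A)) β (Z.py i A v y w)) :=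
    hA.smul _ _ (tst2_sum hA _ _ fun i _ => tst2_sum hA _ _ fun A _ => hA.clm _ _ (hA.py i A v hv))
  have h2 : Tst2 (fun y w => (1 / 2 : ℂ) • ∑ A, ∑ i, ∑ j, ((FFh S φ A i j y : ℝ) : ℂ) •
      S.vec (S.g2 i j) (φ (Sum.inl A)) β (v y w)) := by
    refine hA.smul _ _ (tst2_sum hA _ _ fun A _ => tst2_sum hA _ _ fun i _ => tst2_sum hA _ _ fun j _ => ?_)
    exact hA.mul (fun y _ => FFh S φ A i j y) (fun y w => S.vec (S.g2 i j) (φ (Sum.inl A)) β (v y w))
      ((contDiff_FFh S φ A i j).comp contDiff_fst) (hA.clm _ _ hv)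
  have h3 : Tst2 (fun y w => (m : ℂ) • ∑ i, ∑ A, ((y (i, A) : ℝ) : ℂ) •
      S.vec (N i) (φ (Sum.inl A)) β (v y w)) := by
    refine hA.smul _ _ (tst2_sum hA _ _ fun i _ => tst2_sum hA _ _ fun A _ => ?_)
    exact hA.mul (fun y _ => y (i, A)) (fun y w => S.vec (N i) (φ (Sum.inl A)) β (v y w))
      ((Setup.contDiff_coord (i, A)).comp contDiff_fst) (hA.clm _ _ hv)
  have h4 := hA.add _ _ (hA.add _ _ h1 h2) h3
  have e : S.Qhm φ N m β v = fun y w => ((-Complex.I) • ∑ i, ∑ A, S.vec (S.g i) (φ (Sum.inl A)) β (Z.py i A v y w) +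
      (1 / 2 : ℂ) • ∑ A, ∑ i, ∑ j, ((FFh S φ A i j y : ℝ) : ℂ) •
      S.vec (S.g2 i j) (φ (Sum.inl A)) β (v y w)) + (m : ℂ) • ∑ i, ∑ A, ((y (i, A) : ℝ) : ℂ) •
      S.vec (N i) (φ (Sum.inl A)) β (v y w) := by
    funext y w
    unfold Setup.Qhm Setup.Qh Setup.Mh FFh
    simp only [_root_.sum_apply, _root_.smul_apply]
  rw [e]
  exact h4

end Vale.Agent.P353.Z.AN.MassPf

namespace Vale.Agent.P353.Z.AN

variable {d dh dm : ℕ} {F : Type*} [NormedAddCommGroup F] [InnerProductSpace ℂ F]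

theorem mass_stmt (S : Setup d F) (φ : Spl dh dm d) : CalcA dh dm F → CalcB dh dm F → MassStmt S φ := by
  intro hA hB _ N hN c hc hcen
  refine ⟨‖((-Complex.I) • ∑ β, ∑ j, MassPf.Vc S φ c (S.g j) β * MassPf.Vc S φ c (N j) β : F →L[ℂ] F)‖,
    norm_nonneg _, ?_⟩
  intro m hm _ v hv L hL0 hL
  have hQ : ∀ β, Tst2 (S.Qhm φ N m β v) := fun β => MassPf.tst2_Qhm S φ hA N m β hv
  have h1 : S.EH φ N m v = ∫ w, ∑ β, nsq (fun y => S.Qhm φ N m β v y w) := by
    unfold Setup.EH
    rw [integral_finsetSum _ fun β _ => (hB.wy _ (hQ β)).1]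
    exact Finset.sum_congr rfl fun β _ => (hB.wy _ (hQ β)).2
  have h2 := hB.wy v hv
  set K := ‖((-Complex.I) • ∑ β, ∑ j, MassPf.Vc S φ c (S.g j) β * MassPf.Vc S φ c (N j) β : F →L[ℂ] F)‖ with hK
  have h3 : ∀ w, 8 * m ^ 2 * L ^ 2 * nsq (fun y => v y w) ≤
      ∑ β, nsq (fun y => S.Qhm φ N m β v y w) + K * m * nsq (fun y => v y w) := by
    intro w
    have h := MassPf.slice_ineq S φ hN hc hcen hm (hA.sly v hv w) L (fun y hy => hL y w hy)
    have e : ∀ β, (fun y => S.Qhm φ N m β v y w) = fun y =>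
        MassPf.QG (MassPf.ac S φ c β) (MassPf.Tc S φ c N m β) (fun y' => v y' w) y +
        MassPf.QG (MassPf.bc S φ c β) (MassPf.Xc S φ c N m β) (fun y' => v y' w) y := by
      intro β
      funext y
      exact MassPf.Qhm_eq S φ hcen N m β v y w
    simp only [e]
    exact h
  have i1 : Integrable fun w => ∑ β, nsq (fun y => S.Qhm φ N m β v y w) :=
    integrable_finsetSum _ fun β _ => (hB.wy _ (hQ β)).1
  rw [h1, h2.2, ← integral_const_mul, ← integral_const_mul, ← integral_add i1 (h2.1.const_mul _)]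
  exact integral_mono (h2.1.const_mul _) (i1.add (h2.1.const_mul _)) h3

end Vale.Agent.P353.Z.AN
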