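import Vale.Agent.P353.AN.C.Stmt
import Vale.Agent.P353.AN.A.SymCoef

/-! # P353, all `N`, block C, C-Op: the operators on test functions -/

open MeasureTheory Filter Topology
open scoped ContDiff

namespace Vale.Agent.P353.Z.AN.Op687

open Vale.Agent.P353.Z.AN.Sy

variable {d dh dm : ℕ} {F : Type*} [NormedAddCommGroup F] [InnerProductSpace ℂ F]

/-! ### closure properties of test functions -/

lemma t_sum (hA : CalcA dh dm F) {ι : Type*} (s : Finset ι) (v : ι → Cfg dh → Wsp dm → F)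
    (h : ∀ i ∈ s, Tst2 (v i)) : Tst2 (fun y w => ∑ i ∈ s, v i y w) := by
  classical
  induction s using Finset.induction_on with
  | empty => simpa using hA.zero
  | insert a s ha ih =>
    have h1 := hA.add (v a) (fun y w => ∑ i ∈ s, v i y w) (h a (Finset.mem_insert_self a s))
      (ih fun i hi => h i (Finset.mem_insert_of_mem hi))
    simpa [Finset.sum_insert ha] using h1

lemma t_mulc (hA : CalcA dh dm F) (c : Cfg dh → Wsp dm → ℝ)
    (hc : ContDiff ℝ ∞ (fun p : Cfg dh × Wsp dm => c p.1 p.2)) (v : Cfg dh → Wsp dm → F)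
    (hv : Tst2 v) : Tst2 (fun y w => ((c y w : ℝ) : ℂ) • v y w) :=
  hA.mul c v hc hv

lemma t_mulT (hA : CalcA dh dm F) (c : Cfg dh → Wsp dm → ℝ)
    (hc : ContDiff ℝ ∞ (fun p : Cfg dh × Wsp dm => c p.1 p.2)) (T : F →L[ℂ] F)
    (v : Cfg dh → Wsp dm → F) (hv : Tst2 v) : Tst2 (fun y w => ((c y w : ℝ) : ℂ) • T (v y w)) :=
  hA.mul c (fun y w => T (v y w)) hc (hA.clm T v hv)

/-! ### inner products -/

lemma ip_smul_left (c : ℂ) (u v : Cfg dh → Wsp dm → F) :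
    ip2 (fun y w => c • u y w) v = (starRingEnd ℂ) c * ip2 u v := by
  unfold ip2
  simp only [inner_smul_left]
  exact integral_const_mul _ _

lemma ip_add_left (hB : CalcB dh dm F) (u u' v : Cfg dh → Wsp dm → F) (hu : Tst2 u) (hu' : Tst2 u')
    (hv : Tst2 v) : ip2 (fun y w => u y w + u' y w) v = ip2 u v + ip2 u' v := by
  rw [hB.conj, hB.ip_add v u u' hv hu hu', map_add, ← hB.conj, ← hB.conj]

/-- symmetric operators on test functions -/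
def Sm (L : (Cfg dh → Wsp dm → F) → Cfg dh → Wsp dm → F) : Prop :=
  (∀ u, Tst2 u → Tst2 (L u)) ∧ ∀ u v, Tst2 u → Tst2 v → ip2 (L u) v = ip2 u (L v)

lemma sm_add (hA : CalcA dh dm F) (hB : CalcB dh dm F)
    {L L' : (Cfg dh → Wsp dm → F) → Cfg dh → Wsp dm → F} (h : Sm L) (h' : Sm L') :
    Sm (fun v y w => L v y w + L' v y w) := by
  refine ⟨fun u hu => hA.add _ _ (h.1 u hu) (h'.1 u hu), fun u v hu hv => ?_⟩
  rw [ip_add_left hB (L u) (L' u) v (h.1 u hu) (h'.1 u hu) hv,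
    hB.ip_add u (L v) (L' v) hu (h.1 v hv) (h'.1 v hv), h.2 u v hu hv, h'.2 u v hu hv]

lemma sm_zero (hA : CalcA dh dm F) : Sm (fun (_ : Cfg dh → Wsp dm → F) _ _ => (0 : F)) := by
  refine ⟨fun u _ => hA.zero, fun u v _ _ => ?_⟩
  unfold ip2
  simp

lemma sm_sum (hA : CalcA dh dm F) (hB : CalcB dh dm F) {ι : Type*} (s : Finset ι)
    (L : ι → (Cfg dh → Wsp dm → F) → Cfg dh → Wsp dm → F) (h : ∀ i, Sm (L i)) :
    Sm (fun v y w => ∑ i ∈ s, L i v y w) := by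
  classical
  induction s using Finset.induction_on with
  | empty => simpa using sm_zero hA
  | insert a s ha ih =>
    have h1 := sm_add hA hB (h a) ih
    simpa [Finset.sum_insert ha] using h1

lemma sm_mul (hA : CalcA dh dm F) (c : Cfg dh → Wsp dm → ℝ)
    (hc : ContDiff ℝ ∞ (fun p : Cfg dh × Wsp dm => c p.1 p.2)) (T : F →L[ℂ] F)
    (hT : ∀ a b : F, inner ℂ (T a) b = inner ℂ a (T b)) :
    Sm (fun (v : Cfg dh → Wsp dm → F) y w => ((c y w : ℝ) : ℂ) • T (v y w)) := by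
  refine ⟨fun u hu => t_mulT hA c hc T u hu, fun u v _ _ => ?_⟩
  unfold ip2
  refine integral_congr_ae (Eventually.of_forall fun p => ?_)
  simp only [inner_smul_left, inner_smul_right, Complex.conj_ofReal, hT]

lemma sm_der (hA : CalcA dh dm F) (hB : CalcB dh dm F) (i : Fin 9) (A : Fin dh) (T : F →L[ℂ] F)
    (hT : ∀ a b : F, inner ℂ (T a) b = inner ℂ a (T b)) :
    Sm (fun (v : Cfg dh → Wsp dm → F) y w => (-Complex.I) • T (py i A v y w)) := by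
  refine ⟨fun u hu => hA.smul _ _ (hA.clm T _ (hA.py i A u hu)), fun u v hu hv => ?_⟩
  have h1 : ip2 (fun y w => T (py i A u y w)) v = ip2 (py i A u) (fun y w => T (v y w)) := by
    unfold ip2
    refine integral_congr_ae (Eventually.of_forall fun p => ?_)
    exact hT _ _
  have h2 : py i A (fun y w => T (v y w)) = fun y w => T (py i A v y w) := by
    funext y w
    exact hA.py_clm i A T v hv y w
  rw [ip_smul_left, h1, hB.ibp_y i A u _ hu (hA.clm T v hv), h2, hB.ip_smul]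
  simp

/-! ### the block diagonal operator -/

variable (S : Setup d F) (φ : Spl dh dm d)

/-- coefficient of the potential in `Q^h` -/
noncomputable def c1 (A : Fin dh) (i j : Fin 9) (y : Cfg dh) : ℝ :=
  (1 / 2) * (S.κ * ∑ B, ∑ C, S.f (φ (Sum.inl A)) (φ (Sum.inl B)) (φ (Sum.inl C)) * y (i, B) * y (j, C))

lemma Qhm_exp (N : Fin 9 → Matrix (Fin 16) (Fin 16) ℂ) (m : ℝ) (β : Fin 16)
    (v : Cfg dh → Wsp dm → F) (y : Cfg dh) (w : Wsp dm) :
    S.Qhm φ N m β v y w = (∑ i, ∑ A, (-Complex.I) • S.vec (S.g i) (φ (Sum.inl A)) β (py i A v y w)) +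
      (∑ A, ∑ i, ∑ j, ((c1 S φ A i j y : ℝ) : ℂ) • S.vec (S.g2 i j) (φ (Sum.inl A)) β (v y w)) +
      ∑ i, ∑ A, ((m * y (i, A) : ℝ) : ℂ) • S.vec (N i) (φ (Sum.inl A)) β (v y w) := by
  unfold Setup.Qhm Setup.Qh Setup.Mh c1
  simp only [Finset.smul_sum, _root_.sum_apply, _root_.smul_apply, smul_smul]
  congr 1
  · congr 1
    refine Finset.sum_congr rfl fun A _ => Finset.sum_congr rfl fun i _ => Finset.sum_congr rfl fun j _ => ?_
    congr 1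
    push_cast
    ring
  · refine Finset.sum_congr rfl fun A _ => Finset.sum_congr rfl fun i _ => ?_
    congr 1
    push_cast
    ring

lemma cd_c1 (A : Fin dh) (i j : Fin 9) :
    ContDiff ℝ ∞ (fun p : Cfg dh × Wsp dm => c1 S φ A i j p.1) := by
  unfold c1
  exact contDiff_const.mul (contDiff_const.mul (ContDiff.sum fun B _ => ContDiff.sum fun C _ =>
    (contDiff_const.mul (contDiff_y _)).mul (contDiff_y _)))

lemma sm_Qhm (hA : CalcA dh dm F) (hB : CalcB dh dm F) (N : Fin 9 → Matrix (Fin 16) (Fin 16) ℂ)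
    (hN : ∀ i α β, (N i α β).im = 0) (m : ℝ) (β : Fin 16) : Sm (S.Qhm φ N m β) := by
  have h : S.Qhm φ N m β = fun (v : Cfg dh → Wsp dm → F) y w =>
      (∑ i, ∑ A, (-Complex.I) • S.vec (S.g i) (φ (Sum.inl A)) β (py i A v y w)) +
      (∑ A, ∑ i, ∑ j, ((c1 S φ A i j y : ℝ) : ℂ) • S.vec (S.g2 i j) (φ (Sum.inl A)) β (v y w)) +
      ∑ i, ∑ A, ((m * y (i, A) : ℝ) : ℂ) • S.vec (N i) (φ (Sum.inl A)) β (v y w) := by
    funext v y w
    exact Qhm_exp S φ N m β v y w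
  rw [h]
  refine sm_add hA hB (sm_add hA hB ?_ ?_) ?_
  · exact sm_sum hA hB _ _ fun i => sm_sum hA hB _ _ fun A =>
      sm_der hA hB i A _ (S.vec_symm _ (S.g_im i) _ _)
  · exact sm_sum hA hB _ _ fun A => sm_sum hA hB _ _ fun i => sm_sum hA hB _ _ fun j =>
      sm_mul hA (fun y _ => c1 S φ A i j y) (cd_c1 S φ A i j) _ (S.vec_symm _ (S.g2_im i j) _ _)
  · exact sm_sum hA hB _ _ fun i => sm_sum hA hB _ _ fun A =>
      sm_mul hA (fun y _ => m * y (i, A)) (contDiff_const.mul (contDiff_y _)) _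
        (S.vec_symm _ (hN i) _ _)

lemma t_Mw (hA : CalcA dh dm F) (N : Fin 9 → Matrix (Fin 16) (Fin 16) ℂ) (β : Fin 16)
    (v : Cfg dh → Wsp dm → F) (hv : Tst2 v) : Tst2 (fun y w => S.Mw φ N β w (v y w)) := by
  have h : (fun y w => S.Mw φ N β w (v y w)) = fun y w =>
      ∑ i, ∑ B, ((wt w i B : ℝ) : ℂ) • S.vec (N i) (φ (Sum.inr B)) β (v y w) := by
    funext y w
    unfold Setup.Mw
    simp only [_root_.sum_apply, _root_.smul_apply]
  rw [h]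
  exact t_sum hA _ _ fun i _ => t_sum hA _ _ fun B _ =>
    t_mulT hA (fun _ w => wt w i B) (contDiff_wt i B) _ v hv

/-! ### supports -/

lemma van (hA : CalcA dh dm F) {Y : Cfg dh} {ε R : ℝ} {v : Cfg dh → Wsp dm → F} (hv : Tst2 v)
    (hs : Sup2 Y ε R v) {y : Cfg dh} {w : Wsp dm} (h : ¬ (‖y - R • Y‖ ≤ ε * R ∧ ‖w‖ ≤ ε * R)) :
    v y w = 0 ∧ (∀ i A, py i A v y w = 0) ∧ ∀ j B, pw j B v y w = 0 := by
  refine ⟨?_, fun i A => ?_, fun j B => ?_⟩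
  · by_contra h1
    exact h (hs y w h1)
  · by_contra h1
    exact h (hA.supy Y ε R i A v hv hs y w h1)
  · by_contra h1
    exact h (hA.supw Y ε R j B v hv hs y w h1)

lemma sup_Qhm (hA : CalcA dh dm F) (N : Fin 9 → Matrix (Fin 16) (Fin 16) ℂ) (Y : Cfg dh) (ε R : ℝ)
    (v : Cfg dh → Wsp dm → F) (hv : Tst2 v) (hs : Sup2 Y ε R v) (m : ℝ) (β : Fin 16) :
    Sup2 Y ε R (S.Qhm φ N m β v) := by
  intro y w h
  by_contra hn
  obtain ⟨h0, h1, _⟩ := van hA hv hs hn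
  apply h
  rw [Qhm_exp]
  simp [h0, h1]

lemma sup_Q1 (hA : CalcA dh dm F) (Y : Cfg dh) (ε R : ℝ)
    (v : Cfg dh → Wsp dm → F) (hv : Tst2 v) (hs : Sup2 Y ε R v) (β : Fin 16) :
    Sup2 Y ε R (S.Q1 φ β v) := by
  intro y w h
  by_contra hn
  obtain ⟨h0, _, h2⟩ := van hA hv hs hn
  apply h
  unfold Setup.Q1
  simp [h0, h2]

/-! ### operators with coefficients which are smooth near the support -/

/-- the set where `D_8` is invertible -/
def UU : Set (Cfg dh) := {y | (S.Dy φ 8 y).det ≠ 0}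

lemma isOpen_UU : IsOpen (UU S φ : Set (Cfg dh)) := by
  have h : Continuous fun y : Cfg dh => (S.Dy φ 8 y).det :=
    (contDiff_det (M := fun y : Cfg dh => S.Dy φ 8 y)
      (fun i j => contDiff_Dy S φ 8 i j)).continuous
  exact isOpen_ne_fun h continuous_const

lemma cd_inv (B C : Fin dm) : ContDiffOn ℝ ∞ (fun y : Cfg dh => (S.Dy φ 8 y)⁻¹ B C) (UU S φ) :=
  contDiffOn_inv (M := fun y : Cfg dh => S.Dy φ 8 y) (fun i j => contDiff_Dy S φ 8 i j) B C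

lemma cd_log (A : Fin dh) : ContDiffOn ℝ ∞ (fun y : Cfg dh =>
    fderiv ℝ (fun y' => Real.log (S.Jd φ y')) y (EuclideanSpace.single ((8 : Fin 9), A) 1)) (UU S φ) := by
  have h1 : ContDiffOn ℝ ∞ (fun y : Cfg dh =>
      ∑ B, ∑ C, (S.Dy φ 8 y)⁻¹ B C * S.f (φ (Sum.inr C)) (φ (Sum.inl A)) (φ (Sum.inr B))) (UU S φ) :=
    ContDiffOn.sum fun B _ => ContDiffOn.sum fun C _ => (cd_inv S φ B C).mul contDiffOn_const
  exact h1.congr fun y hy => logJ S φ hy A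

lemma t_loc (hA : CalcA dh dm F) {Y : Cfg dh} {ε0 C0 R : ℝ} (hbd : S.CoefBd φ Y ε0 C0) (hR : 0 < R)
    {c : Cfg dh → ℝ} (hc : ContDiffOn ℝ ∞ c (UU S φ)) {v : Cfg dh → Wsp dm → F} (hv : Tst2 v)
    (hs : ∀ y w, v y w ≠ 0 → ‖y - R • Y‖ ≤ ε0 * R) : Tst2 (fun y w => ((c y : ℝ) : ℂ) • v y w) := by
  refine hA.mulOn c v {y | ‖y - R • Y‖ ≤ ε0 * R} (UU S φ) ?_ (isOpen_UU S φ) ?_ hc hs hv
  · exact isClosed_le (by fun_prop) continuous_const
  · intro y hy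
    exact hbd.det R hR y hy

lemma cd_Dy (i : Fin 9) (B C : Fin dm) :
    ContDiff ℝ ∞ (fun p : Cfg dh × Wsp dm => S.Dy φ i p.1 B C) :=
  (contDiff_Dy S φ i B C).comp contDiff_fst

lemma cd_FL (B : Fin dm) (i j : Fin 9) :
    ContDiff ℝ ∞ (fun p : Cfg dh × Wsp dm => S.FL φ B i j p.1 p.2) := by
  unfold Setup.FL
  refine contDiff_const.mul (ContDiff.sub (ContDiff.sum fun C _ => ?_) (ContDiff.sum fun C _ => ?_))
  · exact (cd_Dy S φ i B C).mul (contDiff_wt j C)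
  · exact (cd_Dy S φ j B C).mul (contDiff_wt i C)

lemma t_Q1 (hA : CalcA dh dm F) {Y : Cfg dh} {ε0 C0 R : ℝ} (hbd : S.CoefBd φ Y ε0 C0) (hR : 0 < R)
    (v : Cfg dh → Wsp dm → F) (hv : Tst2 v) (hs : Sup2 Y ε0 R v) (β : Fin 16) :
    Tst2 (S.Q1 φ β v) := by
  have h1 : Tst2 (fun y w => (-Complex.I) • (∑ j : Fin 8, ∑ B,
      S.vec (S.g j.castSucc) (φ (Sum.inr B)) β (pw j B v y w))) :=
    hA.smul _ _ (t_sum hA _ _ fun j _ => t_sum hA _ _ fun B _ => hA.clm _ _ (hA.pw j B v hv))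
  have h2 : ∀ C : Fin dm, Tst2 (fun y w => ∑ j : Fin 8, ∑ E,
      ((S.Dy φ j.castSucc y C E : ℝ) : ℂ) • pw j E v y w) := fun C =>
    t_sum hA _ _ fun j _ => t_sum hA _ _ fun E _ =>
      t_mulc hA (fun y _ => S.Dy φ j.castSucc y C E) (cd_Dy S φ _ C E) _ (hA.pw j E v hv)
  have h3 : ∀ (C : Fin dm) (y : Cfg dh) (w : Wsp dm), (∑ j : Fin 8, ∑ E,
      ((S.Dy φ j.castSucc y C E : ℝ) : ℂ) • pw j E v y w) ≠ 0 → ‖y - R • Y‖ ≤ ε0 * R := by
    intro C y w h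
    by_contra hn
    obtain ⟨_, _, h0⟩ := van hA hv hs (y := y) (w := w) fun h' => hn h'.1
    apply h
    simp [h0]
  have h4 : Tst2 (fun y w => Complex.I • (∑ B, S.vec (S.g 8) (φ (Sum.inr B)) β
      (∑ C, (((S.Dy φ 8 y)⁻¹ B C : ℝ) : ℂ) • ∑ j : Fin 8, ∑ E,
        ((S.Dy φ j.castSucc y C E : ℝ) : ℂ) • pw j E v y w))) :=
    hA.smul _ _ (t_sum hA _ _ fun B _ => hA.clm _ _ (t_sum hA _ _ fun C _ =>
      t_loc S φ hA hbd hR (cd_inv S φ B C) (h2 C) (h3 C)))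
  have h5 : Tst2 (fun y w => (1 / 2 : ℂ) • ∑ B, ∑ i, ∑ j, ((S.FL φ B i j y w : ℝ) : ℂ) •
      S.vec (S.g2 i j) (φ (Sum.inr B)) β (v y w)) :=
    hA.smul _ _ (t_sum hA _ _ fun B _ => t_sum hA _ _ fun i _ => t_sum hA _ _ fun j _ =>
      t_mulT hA (fun y w => S.FL φ B i j y w) (cd_FL S φ B i j) _ v hv)
  exact hA.add _ _ (hA.add _ _ h1 h4) h5

lemma cd_ww (f : Fin dm → Fin dm → ℝ) (i j : Fin 9) :
    ContDiff ℝ ∞ (fun p : Cfg dh × Wsp dm => S.κ * ∑ B, ∑ C, f B C * wt p.2 i B * wt p.2 j C) :=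
  contDiff_const.mul (ContDiff.sum fun B _ => ContDiff.sum fun C _ =>
    (contDiff_const.mul (contDiff_wt i B)).mul (contDiff_wt j C))

lemma t_Qr (hA : CalcA dh dm F) {Y : Cfg dh} {ε0 C0 R : ℝ} (hbd : S.CoefBd φ Y ε0 C0) (hR : 0 < R)
    (v : Cfg dh → Wsp dm → F) (hv : Tst2 v) (hs : Sup2 Y ε0 R v) (β : Fin 16) :
    Tst2 (S.Qr φ β v) := by
  have h2 : ∀ C : Fin dm, Tst2 (fun y w =>
      (∑ j : Fin 8, ∑ E, ∑ A, ((S.f (φ (Sum.inr C)) (φ (Sum.inr E)) (φ (Sum.inl A)) * w (j, E) : ℝ) : ℂ) •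
          py j.castSucc A v y w) +
        (∑ j : Fin 8, ∑ E, ∑ G, ((S.f (φ (Sum.inr C)) (φ (Sum.inr E)) (φ (Sum.inr G)) * w (j, E) : ℝ) : ℂ) •
          pw j G v y w) +
        Complex.I • S.cS (φ (Sum.inr C)) (v y w)) := fun C =>
    hA.add _ _ (hA.add _ _
      (t_sum hA _ _ fun j _ => t_sum hA _ _ fun E _ => t_sum hA _ _ fun A _ =>
        t_mulc hA (fun _ w => S.f (φ (Sum.inr C)) (φ (Sum.inr E)) (φ (Sum.inl A)) * w (j, E))
          (contDiff_const.mul (contDiff_w _)) _ (hA.py _ _ v hv))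
      (t_sum hA _ _ fun j _ => t_sum hA _ _ fun E _ => t_sum hA _ _ fun G _ =>
        t_mulc hA (fun _ w => S.f (φ (Sum.inr C)) (φ (Sum.inr E)) (φ (Sum.inr G)) * w (j, E))
          (contDiff_const.mul (contDiff_w _)) _ (hA.pw _ _ v hv)))
      (hA.smul _ _ (hA.clm _ _ hv))
  have h3 : ∀ (C : Fin dm) (y : Cfg dh) (w : Wsp dm), (
      (∑ j : Fin 8, ∑ E, ∑ A, ((S.f (φ (Sum.inr C)) (φ (Sum.inr E)) (φ (Sum.inl A)) * w (j, E) : ℝ) : ℂ) •
          py j.castSucc A v y w) +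
        (∑ j : Fin 8, ∑ E, ∑ G, ((S.f (φ (Sum.inr C)) (φ (Sum.inr E)) (φ (Sum.inr G)) * w (j, E) : ℝ) : ℂ) •
          pw j G v y w) +
        Complex.I • S.cS (φ (Sum.inr C)) (v y w)) ≠ 0 → ‖y - R • Y‖ ≤ ε0 * R := by
    intro C y w h
    by_contra hn
    obtain ⟨h0, h0', h0''⟩ := van hA hv hs (y := y) (w := w) fun h' => hn h'.1
    apply h
    simp [h0, h0', h0'']
  have h4 : Tst2 (fun y w => Complex.I • (∑ B, S.vec (S.g 8) (φ (Sum.inr B)) β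
      (∑ C, (((S.Dy φ 8 y)⁻¹ B C : ℝ) : ℂ) • (
      (∑ j : Fin 8, ∑ E, ∑ A, ((S.f (φ (Sum.inr C)) (φ (Sum.inr E)) (φ (Sum.inl A)) * w (j, E) : ℝ) : ℂ) •
          py j.castSucc A v y w) +
        (∑ j : Fin 8, ∑ E, ∑ G, ((S.f (φ (Sum.inr C)) (φ (Sum.inr E)) (φ (Sum.inr G)) * w (j, E) : ℝ) : ℂ) •
          pw j G v y w) +
        Complex.I • S.cS (φ (Sum.inr C)) (v y w))))) :=
    hA.smul _ _ (t_sum hA _ _ fun B _ => hA.clm _ _ (t_sum hA _ _ fun C _ =>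
      t_loc S φ hA hbd hR (cd_inv S φ B C) (h2 C) (h3 C)))
  have h5 : Tst2 (fun y w => (1 / 2 : ℂ) • (∑ A, ∑ i, ∑ j,
      ((S.κ * ∑ B, ∑ C, S.f (φ (Sum.inl A)) (φ (Sum.inr B)) (φ (Sum.inr C)) * wt w i B * wt w j C : ℝ) : ℂ) •
        S.vec (S.g2 i j) (φ (Sum.inl A)) β (v y w))) :=
    hA.smul _ _ (t_sum hA _ _ fun A _ => t_sum hA _ _ fun i _ => t_sum hA _ _ fun j _ =>
      t_mulT hA (fun _ w => S.κ * ∑ B, ∑ C, S.f (φ (Sum.inl A)) (φ (Sum.inr B)) (φ (Sum.inr C)) *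
        wt w i B * wt w j C) (cd_ww S _ i j) _ v hv)
  have h6 : Tst2 (fun y w => (1 / 2 : ℂ) • (∑ A, ∑ i, ∑ j,
      ((S.κ * ∑ B, ∑ C, S.f (φ (Sum.inr A)) (φ (Sum.inr B)) (φ (Sum.inr C)) * wt w i B * wt w j C : ℝ) : ℂ) •
        S.vec (S.g2 i j) (φ (Sum.inr A)) β (v y w))) :=
    hA.smul _ _ (t_sum hA _ _ fun A _ => t_sum hA _ _ fun i _ => t_sum hA _ _ fun j _ =>
      t_mulT hA (fun _ w => S.κ * ∑ B, ∑ C, S.f (φ (Sum.inr A)) (φ (Sum.inr B)) (φ (Sum.inr C)) *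
        wt w i B * wt w j C) (cd_ww S _ i j) _ v hv)
  have h8 : ∀ (A : Fin dh) (y : Cfg dh) (w : Wsp dm),
      S.vec (S.g 8) (φ (Sum.inl A)) β (v y w) ≠ 0 → ‖y - R • Y‖ ≤ ε0 * R := by
    intro A y w h
    by_contra hn
    obtain ⟨h0, _, _⟩ := van hA hv hs (y := y) (w := w) fun h' => hn h'.1
    apply h
    simp [h0]
  have h7 : Tst2 (fun y w => (Complex.I / 2) • ∑ A, ((fderiv ℝ (fun y' => Real.log (S.Jd φ y')) y
      (EuclideanSpace.single ((8 : Fin 9), A) 1) : ℝ) : ℂ) •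
      S.vec (S.g 8) (φ (Sum.inl A)) β (v y w)) :=
    hA.smul _ _ (t_sum hA _ _ fun A _ =>
      t_loc S φ hA hbd hR (cd_log S φ A) (hA.clm _ _ hv) (h8 A))
  exact hA.add _ _ (hA.add _ _ (hA.add _ _ h4 h5) h6) h7

end Vale.Agent.P353.Z.AN.Op687

namespace Vale.Agent.P353.Z.AN

open Op687

variable {d dh dm : ℕ} {F : Type*} [NormedAddCommGroup F] [InnerProductSpace ℂ F]

/-- C-Op -/
theorem op_stmt (S : Setup d F) (φ : Spl dh dm d) : CalcA dh dm F → CalcB dh dm F → OpStmt S φ := by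
  intro hA hB N hN Y ε0 C0 _ hbd
  refine
    { th := fun v hv m β => (sm_Qhm S φ hA hB N hN m β).1 v hv
      tm := fun v hv β => t_Mw S φ hA N β v hv
      t1 := fun R hR v hv hs β => t_Q1 S φ hA hbd hR v hv hs β
      tr := fun R hR v hv hs β => t_Qr S φ hA hbd hR v hv hs β
      ts := fun R hR v hv hs m β => ?_
      suh := fun ε R v hv hs m β => sup_Qhm S φ hA N Y ε R v hv hs m β
      su1 := fun ε R v hv hs β => sup_Q1 S φ hA Y ε R v hv hs β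
      symm := fun u v hu hv m β => (sm_Qhm S φ hA hB N hN m β).2 u v hu hv }
  exact hA.add _ _ (hA.add _ _ ((sm_Qhm S φ hA hB N hN m β).1 v hv) (t_Q1 S φ hA hbd hR v hv hs β))
    (hA.add _ _ (t_Qr S φ hA hbd hR v hv hs β) (hA.smul _ _ (t_Mw S φ hA N β v hv)))

end Vale.Agent.P353.Z.AN
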