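import Vale.Agent.P353.AN.C.Stmt

/-! # P353, all `N`, block C: output -/

open MeasureTheory Filter Topology
open scoped ContDiff

namespace Vale.Agent.P353.Z.AN

set_option linter.unusedSectionVars false

variable {d dh dm : ℕ} {F : Type*} [NormedAddCommGroup F] [InnerProductSpace ℂ F]

theorem co359_mono {S : Setup d F} {φ : Spl dh dm d} {Y : Cfg dh} {e e' C : ℝ} (h : S.CoefBd φ Y e C)
    (he : e' ≤ e) : S.CoefBd φ Y e' C := by
  have key : ∀ (R : ℝ), 0 < R → e' * R ≤ e * R := fun R hR => mul_le_mul_of_nonneg_right he hR.le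
  exact ⟨fun R hR y hy => h.det R hR y (hy.trans (key R hR)),
    fun R hR y hy => h.dy R hR y (hy.trans (key R hR)),
    fun R hR y hy => h.inv R hR y (hy.trans (key R hR)),
    fun R hR y hy => h.dcf R hR y (hy.trans (key R hR)),
    fun R hR y hy w hw => h.rem R hR y (hy.trans (key R hR)) w (hw.trans (key R hR))⟩

theorem ff359_mono {S : Setup d F} {φ : Spl dh dm d} {Y : Cfg dh} {e e' C : ℝ} (h : S.FibFacts φ Y e C)
    (he : e' ≤ e) : S.FibFacts φ Y e' C := by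
  have key : ∀ (R : ℝ), 0 < R → e' * R ≤ e * R := fun R hR => mul_le_mul_of_nonneg_right he hR.le
  exact ⟨fun R hR y hy => h.F1 R hR y (hy.trans (key R hR)),
    fun R hR y hy => h.F3 R hR y (hy.trans (key R hR))⟩

theorem su359_mono {Y : Cfg dh} {e e' R : ℝ} {v : Cfg dh → Wsp dm → F} (h : Sup2 Y e' R v) (hR : 0 < R)
    (he : e' ≤ e) : Sup2 Y e R v := by
  intro y w hv
  have key : e' * R ≤ e * R := mul_le_mul_of_nonneg_right he hR.le
  exact ⟨(h y w hv).1.trans key, (h y w hv).2.trans key⟩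

theorem q1359_zero (S : Setup d F) (φ : Spl dh dm d) (D : Fin 9 → Matrix (Fin dm) (Fin dm) ℝ) (β : Fin 16)
    (w : Wsp dm) : S.q1 φ D β (fun _ => (0 : F)) w = 0 := by
  have h : ∀ j B, pf j B (fun _ : Wsp dm => (0 : F)) w = 0 := by
    intro j B
    simp [pf]
  simp [Setup.q1, h]

theorem pr359_zero (S : Setup d F) (φ : Spl dh dm d) [FiniteDimensional ℂ F]
    (D : Fin 9 → Matrix (Fin dm) (Fin dm) ℝ) (Om : Matrix (Fin dm) (Fin dm) ℝ) (R : ℝ)
    (w : Wsp dm) : S.PR φ D Om R (fun _ => (0 : F)) w = 0 := by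
  simp [Setup.PR]

theorem nsf359_nonneg (f : Wsp dm → F) : 0 ≤ nsf f := integral_nonneg fun w => by positivity

theorem nsf359_zero : nsf (fun _ : Wsp dm => (0 : F)) = 0 := by simp [nsf]

/-- integration of a fibrewise bound -/
theorem int359 (u : Cfg dh → Wsp dm → F) (g : Cfg dh → ℝ) (hg : Integrable g) (hg0 : ∀ y, 0 ≤ g y)
    (h : ∀ y, nsf (u y) ≤ g y) : ns2 u ≤ ∫ y, g y := by
  by_cases hi : Integrable (fun p : Cfg dh × Wsp dm => ‖u p.1 p.2‖ ^ 2)
    ((volume : Measure (Cfg dh)).prod (volume : Measure (Wsp dm)))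
  · unfold ns2
    rw [integral_prod _ hi]
    exact integral_mono_of_nonneg (Eventually.of_forall fun y => nsf359_nonneg (u y)) hg
      (Eventually.of_forall h)
  · unfold ns2
    rw [integral_undef hi]
    exact integral_nonneg hg0

theorem e1359_nonneg (S : Setup d F) (φ : Spl dh dm d) (D : Fin 9 → Matrix (Fin dm) (Fin dm) ℝ)
    (f : Wsp dm → F) : 0 ≤ S.e1 φ D f := by
  unfold Setup.e1
  have : 0 ≤ ∑ β, nsf (S.q1 φ D β f) := Finset.sum_nonneg fun β _ => nsf359_nonneg _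
  positivity

/-- the mass gain near `R Y` -/
theorem mass359 (S : Setup d F) (φ : Spl dh dm d) (hMa : MassStmt S φ) (hB : CalcB dh dm F)
    (N : Fin 9 → Matrix (Fin 16) (Fin 16) ℂ) (hN : S.IsMass N) (Y : Cfg dh) (hY : Std S φ Y) :
    ∃ εm Cm : ℝ, 0 < εm ∧ 0 ≤ Cm ∧ (0 < dm → ∀ ε : ℝ, 0 < ε → ε ≤ εm → ∀ R : ℝ, 1 ≤ R →
      ∀ m : ℝ, 0 ≤ m → m ≤ 1 → ∀ v : Cfg dh → Wsp dm → F, Tst2 v → Sup2 Y ε R v →
      m ^ 2 * R ^ 2 * ns2 v ≤ Cm * (S.EH φ N m v + m * ns2 v)) := by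
  by_cases hdm : 0 < dm
  swap
  · exact ⟨1, 0, one_pos, le_rfl, fun h => absurd h hdm⟩
  -- the vector `Y_8`
  set q : ℝ := ∑ A, Y (8, A) ^ 2 with hq
  have hq0 : 0 ≤ q := Finset.sum_nonneg fun A _ => sq_nonneg _
  have hqpos : 0 < q := by
    rcases hq0.lt_or_eq with h | h
    · exact h
    exfalso
    have hz : ∀ A, Y (8, A) = 0 := by
      intro A
      have h1 := (Finset.sum_eq_zero_iff_of_nonneg (fun A _ => sq_nonneg (Y (8, A)))).1 h.symm A
        (Finset.mem_univ A)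
      exact pow_eq_zero_iff (two_ne_zero) |>.1 h1
    have hD : S.Dy φ 8 Y = 0 := by
      ext B C
      simp [Setup.Dy, Setup.Dm, hz]
    apply hY.inv
    rw [hD]
    have : Nonempty (Fin dm) := ⟨⟨0, hdm⟩⟩
    exact Matrix.det_zero
  set ρ : ℝ := Real.sqrt q with hρ
  have hρpos : 0 < ρ := Real.sqrt_pos.2 hqpos
  have hρsq : ρ ^ 2 = q := Real.sq_sqrt hq0
  let c : Fin dh → ℝ := fun A => Y (8, A) / ρ
  have hc1 : ∑ A, c A ^ 2 = 1 := by
    simp only [c, div_pow]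
    rw [← Finset.sum_div, hρsq]
    exact div_self hqpos.ne'
  have hcc : ∀ B C, ∑ A, S.f (φ (Sum.inl A)) (φ (Sum.inl B)) (φ (Sum.inl C)) * c A = 0 := by
    intro B C
    have h1 := hY.cen 8 B C
    have h2 : ∑ A, S.f (φ (Sum.inl A)) (φ (Sum.inl B)) (φ (Sum.inl C)) * c A =
        (∑ A, S.f (φ (Sum.inl A)) (φ (Sum.inl B)) (φ (Sum.inl C)) * Y (8, A)) / ρ := by
      rw [Finset.sum_div]
      exact Finset.sum_congr rfl fun A _ => by simp only [c]; ring
    rw [h2, h1, zero_div]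
  obtain ⟨Cm, hCm0, hCm⟩ := hMa hY.sub N hN c hc1 hcc
  refine ⟨ρ / 2, (1 + Cm) / (2 * ρ ^ 2), by positivity, by positivity, fun _ ε hε hε' R hR m hm hm1 v hv hs => ?_⟩
  have hRpos : 0 < R := by linarith
  have hL : ∀ y w, v y w ≠ 0 → (R * (ρ / 2)) ^ 2 ≤ ∑ i, (∑ A, c A * y (i, A)) ^ 2 := by
    intro y w hvy
    have h1 := (hs y w hvy).1
    have h2 : R * (ρ / 2) ≤ ∑ A, c A * y (8, A) := by
      have e1 : ∑ A, c A * y (8, A) = R * ρ + ∑ A, c A * (y - R • Y) (8, A) := by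
        have e2 : R * ρ = ∑ A, c A * (R * Y (8, A)) := by
          have : ∑ A, c A * (R * Y (8, A)) = R * (∑ A, Y (8, A) ^ 2) / ρ := by
            rw [Finset.mul_sum, Finset.sum_div]
            exact Finset.sum_congr rfl fun A _ => by simp only [c]; ring
          rw [this, ← hq, ← hρsq]
          field_simp
        rw [e2, ← Finset.sum_add_distrib]
        refine Finset.sum_congr rfl fun A _ => ?_
        rw [PiLp.sub_apply, PiLp.smul_apply, smul_eq_mul]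
        ring
      have e3 : |∑ A, c A * (y - R • Y) (8, A)| ≤ ‖y - R • Y‖ := by
        rw [← Real.sqrt_sq_eq_abs]
        apply Real.sqrt_le_iff.2
        refine ⟨norm_nonneg _, ?_⟩
        have h3 := Finset.sum_mul_sq_le_sq_mul_sq Finset.univ c (fun A => (y - R • Y) (8, A))
        rw [hc1, one_mul] at h3
        refine h3.trans ?_
        rw [EuclideanSpace.norm_sq_eq, Fintype.sum_prod_type]
        have h4 : ∑ A, (y - R • Y) (8, A) ^ 2 = ∑ A, ‖(y - R • Y) (8, A)‖ ^ 2 :=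
          Finset.sum_congr rfl fun A _ => by rw [Real.norm_eq_abs, sq_abs]
        rw [h4]
        exact Finset.single_le_sum (f := fun i => ∑ A, ‖(y - R • Y) (i, A)‖ ^ 2)
          (fun i _ => Finset.sum_nonneg fun A _ => by positivity) (Finset.mem_univ (8 : Fin 9))
      have e4 := (abs_le.1 (e3.trans h1)).1
      rw [e1]
      nlinarith [mul_le_mul_of_nonneg_right hε' hRpos.le]
    have h5 : (R * (ρ / 2)) ^ 2 ≤ (∑ A, c A * y (8, A)) ^ 2 :=
      pow_le_pow_left₀ (by positivity) h2 2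
    exact h5.trans (Finset.single_le_sum (f := fun i => (∑ A, c A * y (i, A)) ^ 2)
      (fun i _ => sq_nonneg _) (Finset.mem_univ (8 : Fin 9)))
  have h6 := hCm m hm hm1 v hv (R * (ρ / 2)) (by positivity) hL
  have hEH : 0 ≤ S.EH φ N m v := Finset.sum_nonneg fun β _ => hB.nonneg _
  have hns := hB.nonneg v
  have h7 : 8 * m ^ 2 * (R * (ρ / 2)) ^ 2 * ns2 v = 2 * ρ ^ 2 * (m ^ 2 * R ^ 2 * ns2 v) := by ring
  rw [h7] at h6
  rw [div_mul_eq_mul_div, le_div_iff₀ (by positivity)]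
  have h8 : S.EH φ N m v + Cm * m * ns2 v ≤ (1 + Cm) * (S.EH φ N m v + m * ns2 v) := by
    have : 0 ≤ m * ns2 v := by positivity
    nlinarith [mul_nonneg hCm0 hEH]
  linarith

/-- vacuum projection, integrated -/
theorem vac359 (S : Setup d F) (φ : Spl dh dm d) [FiniteDimensional ℂ F] (Y : Cfg dh)
    (Om : Matrix (Fin dm) (Fin dm) ℝ) {C1 ε R : ℝ} (hC1 : 0 ≤ C1) (hR : 0 < R)
    (v : Cfg dh → Wsp dm → F) (hfib : ∀ y, ‖y - R • Y‖ ≤ ε * R →
      R * nsf (fun w => v y w - S.PR φ (S.DY φ Y) Om R (v y) w) ≤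
        C1 * (S.e1 φ (S.DY φ y) (v y) + ε ^ 2 * R * nsf (v y)))
    (hvz : ∀ y, ¬ ‖y - R • Y‖ ≤ ε * R → v y = fun _ => 0)
    (he1i : Integrable (fun y => S.e1 φ (S.DY φ y) (v y)))
    (he1e : ∫ y, S.e1 φ (S.DY φ y) (v y) = (1 / 16) * S.E1 φ v) (hE1 : 0 ≤ S.E1 φ v)
    (hvi : Integrable (fun y => nsf (v y)) ∧ ns2 v = ∫ y, nsf (v y)) :
    R * ns2 (fun y w => v y w - S.PR φ (S.DY φ Y) Om R (v y) w) ≤ C1 * (S.E1 φ v + ε ^ 2 * R * ns2 v) := by
  have h1 : ns2 (fun y w => v y w - S.PR φ (S.DY φ Y) Om R (v y) w) ≤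
      ∫ y, R⁻¹ * (C1 * (S.e1 φ (S.DY φ y) (v y) + ε ^ 2 * R * nsf (v y))) := by
    refine int359 _ _ (((he1i.add (hvi.1.const_mul (ε ^ 2 * R))).const_mul C1).const_mul R⁻¹) ?_ ?_
    · intro y
      have := e1359_nonneg S φ (S.DY φ y) (v y)
      have := nsf359_nonneg (v y)
      positivity
    · intro y
      rw [inv_mul_eq_div, le_div_iff₀ hR]
      by_cases hy : ‖y - R • Y‖ ≤ ε * R
      · rw [mul_comm]
        exact hfib y hy
      · rw [hvz y hy]
        simp only [pr359_zero, sub_zero, nsf359_zero, zero_mul]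
        have := e1359_nonneg S φ (S.DY φ y) (fun _ => (0 : F))
        positivity
  rw [integral_const_mul, integral_const_mul, integral_add he1i (hvi.1.const_mul (ε ^ 2 * R)),
    integral_const_mul, he1e, ← hvi.2] at h1
  have h2 : R * ns2 (fun y w => v y w - S.PR φ (S.DY φ Y) Om R (v y) w) ≤
      C1 * (1 / 16 * S.E1 φ v + ε ^ 2 * R * ns2 v) := by
    have := mul_le_mul_of_nonneg_left h1 hR.le
    rwa [mul_inv_cancel_left₀ hR.ne'] at this
  exact h2.trans (mul_le_mul_of_nonneg_left (by linarith) hC1)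

/-- frozen coefficients, integrated -/
theorem frz359 (S : Setup d F) (φ : Spl dh dm d) (Y : Cfg dh) (β : Fin 16)
    {C1 ε R : ℝ} (hC1 : 0 ≤ C1) (hR : 0 < R)
    (v : Cfg dh → Wsp dm → F) (hfib : ∀ y, ‖y - R • Y‖ ≤ ε * R →
      nsf (fun w => S.q1 φ (S.DY φ y) β (v y) w - S.q1 φ (fun i => R • S.Dy φ i Y) β (v y) w) ≤
        C1 * ε ^ 2 * (S.e1 φ (S.DY φ y) (v y) + R * nsf (v y)))
    (hvz : ∀ y, ¬ ‖y - R • Y‖ ≤ ε * R → v y = fun _ => 0)
    (he1i : Integrable (fun y => S.e1 φ (S.DY φ y) (v y)))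
    (he1e : ∫ y, S.e1 φ (S.DY φ y) (v y) = (1 / 16) * S.E1 φ v) (hE1 : 0 ≤ S.E1 φ v)
    (hvi : Integrable (fun y => nsf (v y)) ∧ ns2 v = ∫ y, nsf (v y)) :
    ns2 (fun y w => S.Q1 φ β v y w - S.q1 φ (fun i => R • S.Dy φ i Y) β (v y) w) ≤
      C1 * ε ^ 2 * (S.E1 φ v + R * ns2 v) := by
  have h1 : ns2 (fun y w => S.Q1 φ β v y w - S.q1 φ (fun i => R • S.Dy φ i Y) β (v y) w) ≤
      ∫ y, C1 * ε ^ 2 * (S.e1 φ (S.DY φ y) (v y) + R * nsf (v y)) := by
    refine int359 _ _ ((he1i.add (hvi.1.const_mul R)).const_mul (C1 * ε ^ 2)) ?_ ?_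
    · intro y
      have := e1359_nonneg S φ (S.DY φ y) (v y)
      have := nsf359_nonneg (v y)
      positivity
    · intro y
      by_cases hy : ‖y - R • Y‖ ≤ ε * R
      · exact hfib y hy
      · have hz : ∀ w, S.Q1 φ β v y w - S.q1 φ (fun i => R • S.Dy φ i Y) β (v y) w = 0 := by
          intro w
          rw [Setup.Q1_eq, hvz y hy, q1359_zero, q1359_zero, sub_zero]
        have h2 : nsf (fun w => S.Q1 φ β v y w - S.q1 φ (fun i => R • S.Dy φ i Y) β (v y) w) = 0 := by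
          simp only [hz, nsf359_zero]
        rw [h2]
        have := e1359_nonneg S φ (S.DY φ y) (v y)
        have := nsf359_nonneg (v y)
        positivity
  rw [integral_const_mul, integral_add he1i (hvi.1.const_mul R), integral_const_mul, he1e, ← hvi.2] at h1
  exact h1.trans (mul_le_mul_of_nonneg_left (by linarith) (by positivity))

/-- gradient in `y` -/
theorem dy359 {H n D Ce L e R : ℝ} (hH : 0 ≤ H) (hn : 0 ≤ n) (hCe : 0 ≤ Ce) (hL : 0 ≤ L) (he : 0 < e)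
    (hR : 1 ≤ R) (h : D ≤ Ce * (H + (1 + (L + e) * R) * n)) :
    D ≤ Ce * (2 + L + e) * (H + R * n) := by
  refine h.trans ?_
  have h4 : 1 + (L + e) * R ≤ (2 + L + e) * R := by nlinarith
  have h5 : H ≤ (2 + L + e) * H := by nlinarith [mul_nonneg (add_nonneg hL he.le) hH]
  have h6 : (1 + (L + e) * R) * n ≤ (2 + L + e) * (R * n) := by
    have := mul_le_mul_of_nonneg_right h4 hn
    linarith
  have h7 : H + (1 + (L + e) * R) * n ≤ (2 + L + e) * (H + R * n) := by linarith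
  calc Ce * (H + (1 + (L + e) * R) * n) ≤ Ce * ((2 + L + e) * (H + R * n)) :=
        mul_le_mul_of_nonneg_left h7 hCe
    _ = _ := by ring

/-- **C-Out** -/
theorem out_stmt (S : Setup d F) (φ : Spl dh dm d) : CalcA dh dm F → CalcB dh dm F → OpStmt S φ →
    CoefStmt S φ → FibOutStmt S φ → FIntStmt S φ → EnHStmt S φ → MassStmt S φ → CrudeStmt S φ →
    OutStmt S φ := by
  intro hA hB hOp hCo hFib hFI hEn hMa hCr fd N hN Y hY
  obtain ⟨ea, C0, hea, hC0, hcoef⟩ := hCo Y hY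
  obtain ⟨Om, eb, C1, hOm, hFrz, heb, hC1, hff, hfib⟩ := hFib fd Y hY
  set e : ℝ := min ea eb with he
  have hepos : 0 < e := lt_min hea heb
  have hcoef' := co359_mono hcoef (min_le_left ea eb)
  have hff' := ff359_mono hff (min_le_right ea eb)
  rw [← he] at hcoef' hff'
  obtain ⟨e1, R0, Cc, he1, he1e, hR0, hCc, hcr⟩ := hCr fd N hN Y e C0 C1 hY hepos hC0 hcoef' hff' hC1
  have hfi := hFI Y e C0 C1 hepos hcoef' hff' hC1
  obtain ⟨Ce, hCe, hen⟩ := hEn hY.sub N hN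
  obtain ⟨em, Cm, hem, hCm, hma⟩ := mass359 S φ hMa hB N hN Y hY
  have hop := hOp N hN.real Y e C0 hepos hcoef'
  obtain ⟨C, hCpos, bCc, bC1, bCe, bCm⟩ : ∃ C : ℝ, 0 < C ∧ Cc ≤ C ∧ C1 ≤ C ∧
      Ce * (2 + ‖Y‖ + e1) ≤ C ∧ Cm ≤ C := by
    have hCe2 : 0 ≤ Ce * (2 + ‖Y‖ + e1) := by positivity
    exact ⟨1 + Cc + C1 + Ce * (2 + ‖Y‖ + e1) + Cm, by positivity, by linarith, by linarith, by linarith,
      by linarith⟩
  refine ⟨Om, min e1 em, R0, C, hOm, hFrz, lt_min he1 hem, hR0, hCpos, ?_⟩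
  intro ε hε hε' R hR m hm hm1 v hv hs
  have hR1 : 1 ≤ R := hR0.trans hR
  have hRpos : 0 < R := by linarith
  have hεe1 : ε ≤ e1 := hε'.trans (min_le_left _ _)
  have hεe : ε ≤ e := hεe1.trans he1e
  have hεb : ε ≤ eb := hεe.trans (min_le_right _ _)
  have hs1 : Sup2 Y e1 R v := su359_mono hs hRpos hεe1
  have hse : Sup2 Y e R v := su359_mono hs hRpos hεe
  have hEH : 0 ≤ S.EH φ N m v := Finset.sum_nonneg fun β _ => hB.nonneg _
  have hES : 0 ≤ S.ES φ N m v := Finset.sum_nonneg fun β _ => hB.nonneg _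
  have hE1 : 0 ≤ S.E1 φ v := Finset.sum_nonneg fun β _ => hB.nonneg _
  have hns := hB.nonneg v
  -- fibrewise integrals
  have ht1 := hop.t1 R hRpos v hv hse
  have hQi : ∀ β, Integrable (fun y => nsf (S.Q1 φ β v y)) ∧ ns2 (S.Q1 φ β v) = ∫ y, nsf (S.Q1 φ β v y) :=
    fun β => hB.yw _ (ht1 β)
  have he1i : Integrable (fun y => S.e1 φ (S.DY φ y) (v y)) := by
    have : Integrable (fun y => ∑ β, nsf (S.Q1 φ β v y)) := integrable_finsetSum _ fun β _ => (hQi β).1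
    exact this.const_mul (1 / 16 : ℝ)
  have he1e : ∫ y, S.e1 φ (S.DY φ y) (v y) = (1 / 16) * S.E1 φ v := by
    have h1 : (fun y => S.e1 φ (S.DY φ y) (v y)) = fun y => (1 / 16 : ℝ) * ∑ β, nsf (S.Q1 φ β v y) := rfl
    rw [h1, integral_const_mul, integral_finsetSum _ fun β _ => (hQi β).1]
    unfold Setup.E1
    congr 1
    exact Finset.sum_congr rfl fun β _ => ((hQi β).2).symm
  have hvi := hB.yw v hv
  have hvz : ∀ y, ¬ ‖y - R • Y‖ ≤ ε * R → v y = fun _ => 0 := by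
    intro y hy
    funext w
    by_contra h
    exact hy (hs y w h).1
  have nn1 : 0 ≤ (1 / R ^ 2 + m ^ 2 / R) * ns2 v := mul_nonneg (by positivity) hns
  have nn2 : 0 ≤ R * ns2 v := mul_nonneg hRpos.le hns
  have nn3 : 0 ≤ ε ^ 2 * R * ns2 v := mul_nonneg (by positivity) hns
  refine ⟨(hcr R hR m hm hm1 v hv hs1).trans (mul_le_mul_of_nonneg_right bCc (add_nonneg hES nn1)),
    (hfi R hRpos v hv hse).1.trans (mul_le_mul_of_nonneg_right bC1 (add_nonneg hE1 nn2)), ?_, ?_, ?_, ?_⟩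
  · have h1 := hen m hm hm1 v hv ((‖Y‖ + e1) * R) (by positivity) (by
      intro y w hvy
      have h2 := (hs y w hvy).1
      have h3 : ‖y‖ ≤ ‖y - R • Y‖ + ‖R • Y‖ := by
        have := norm_add_le (y - R • Y) (R • Y)
        rwa [sub_add_cancel] at this
      rw [norm_smul, Real.norm_eq_abs, abs_of_pos hRpos] at h3
      have h4 := mul_le_mul_of_nonneg_right hεe1 hRpos.le
      have h5 : (‖Y‖ + e1) * R = R * ‖Y‖ + e1 * R := by ring
      linarith)
    exact (dy359 hEH hns hCe (norm_nonneg Y) he1 hR1 h1).trans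
      (mul_le_mul_of_nonneg_right bCe (add_nonneg hEH nn2))
  · exact (vac359 S φ Y Om hC1 hRpos v
      (fun y hy => (hfib R hRpos ε hε.le hεb y hy (v y) (hA.slw v hv y)).1) hvz he1i he1e hE1 hvi).trans
      (mul_le_mul_of_nonneg_right bC1 (add_nonneg hE1 nn3))
  · intro β
    refine (frz359 S φ Y β hC1 hRpos v
      (fun y hy => (hfib R hRpos ε hε.le hεb y hy (v y) (hA.slw v hv y)).2 β) hvz he1i he1e hE1 hvi).trans ?_
    exact mul_le_mul_of_nonneg_right (mul_le_mul_of_nonneg_right bC1 (sq_nonneg ε)) (add_nonneg hE1 nn2)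
  · intro hdm
    have h1 := hma hdm ε hε (hε'.trans (min_le_right _ _)) R hR1 m hm hm1 v hv hs
    exact h1.trans (mul_le_mul_of_nonneg_right bCm (add_nonneg hEH (mul_nonneg hm hns)))

end Vale.Agent.P353.Z.AN
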