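import Vale.Agent.P353.AN.C.Stmt

/-! # P353, all `N`, block C: parity `w ↦ -w` -/

open MeasureTheory Filter Topology
open scoped ContDiff

namespace Vale.Agent.P353.Z.AN

namespace ParW

variable {d dh dm : ℕ} {F : Type*} [NormedAddCommGroup F] [InnerProductSpace ℂ F]

lemma wt_neg (w : Wsp dm) (i : Fin 9) (B : Fin dm) : wt (-w) i B = -wt w i B := by
  unfold wt
  refine Fin.lastCases ?_ (fun j => ?_) i
  · rw [Fin.lastCases_last, Fin.lastCases_last, neg_zero]
  · simp

lemma FL_neg (S : Setup d F) (φ : Spl dh dm d) (B : Fin dm) (i j : Fin 9) (y : Cfg dh) (w : Wsp dm) :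
    S.FL φ B i j y (-w) = -S.FL φ B i j y w := by
  unfold Setup.FL
  simp only [wt_neg, mul_neg, Finset.sum_neg_distrib]
  ring

lemma Q1_rf (hA : CalcA dh dm F) (S : Setup d F) (φ : Spl dh dm d) (β : Fin 16) (v : Cfg dh → Wsp dm → F)
    (hv : Tst2 v) (y : Cfg dh) (w : Wsp dm) :
    S.Q1 φ β (fun y w => v y (-w)) y w = -S.Q1 φ β v y (-w) := by
  unfold Setup.Q1
  simp only [hA.pw_neg _ _ v hv, FL_neg, map_neg, smul_neg, Finset.sum_neg_distrib, Complex.ofReal_neg, neg_smul,
    neg_neg, neg_add_rev]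
  abel

lemma Qhm_rf (hA : CalcA dh dm F) (S : Setup d F) (φ : Spl dh dm d) (N : Fin 9 → Matrix (Fin 16) (Fin 16) ℂ)
    (m : ℝ) (β : Fin 16) (v : Cfg dh → Wsp dm → F) (y : Cfg dh) (w : Wsp dm) :
    S.Qhm φ N m β (fun y w => v y (-w)) y w = S.Qhm φ N m β v y (-w) := by
  unfold Setup.Qhm Setup.Qh
  simp only [hA.py_neg]

lemma Q1_add (hA : CalcA dh dm F) (S : Setup d F) (φ : Spl dh dm d) (β : Fin 16) (u v : Cfg dh → Wsp dm → F)
    (hu : Tst2 u) (hv : Tst2 v) (y : Cfg dh) (w : Wsp dm) :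
    S.Q1 φ β (fun y w => u y w + v y w) y w = S.Q1 φ β u y w + S.Q1 φ β v y w := by
  unfold Setup.Q1
  simp only [hA.pw_add _ _ u v hu hv, map_add, smul_add, Finset.sum_add_distrib]
  abel

lemma Qhm_add (hA : CalcA dh dm F) (S : Setup d F) (φ : Spl dh dm d) (N : Fin 9 → Matrix (Fin 16) (Fin 16) ℂ)
    (m : ℝ) (β : Fin 16) (u v : Cfg dh → Wsp dm → F)
    (hu : Tst2 u) (hv : Tst2 v) (y : Cfg dh) (w : Wsp dm) :
    S.Qhm φ N m β (fun y w => u y w + v y w) y w = S.Qhm φ N m β u y w + S.Qhm φ N m β v y w := by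
  unfold Setup.Qhm Setup.Qh
  simp only [hA.py_add _ _ u v hu hv, map_add, smul_add, Finset.sum_add_distrib]
  abel

lemma Q1_smul (hA : CalcA dh dm F) (S : Setup d F) (φ : Spl dh dm d) (β : Fin 16) (c : ℂ) (v : Cfg dh → Wsp dm → F)
    (hv : Tst2 v) (y : Cfg dh) (w : Wsp dm) :
    S.Q1 φ β (fun y w => c • v y w) y w = c • S.Q1 φ β v y w := by
  unfold Setup.Q1
  simp only [hA.pw_smul _ _ c v hv, map_smul, smul_add, Finset.smul_sum]
  congr 1
  · congr 1
    · refine Finset.sum_congr rfl fun _ _ => Finset.sum_congr rfl fun _ _ => ?_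
      rw [smul_comm]
    · refine Finset.sum_congr rfl fun _ _ => ?_
      simp only [map_sum, map_smul, Finset.smul_sum]
      refine Finset.sum_congr rfl fun _ _ => Finset.sum_congr rfl fun _ _ => Finset.sum_congr rfl fun _ _ => ?_
      simp only [smul_smul]
      congr 1
      ring
  · refine Finset.sum_congr rfl fun _ _ => Finset.sum_congr rfl fun _ _ => Finset.sum_congr rfl fun _ _ => ?_
    simp only [smul_smul]
    congr 1
    ring

lemma Qhm_smul (hA : CalcA dh dm F) (S : Setup d F) (φ : Spl dh dm d) (N : Fin 9 → Matrix (Fin 16) (Fin 16) ℂ)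
    (m : ℝ) (β : Fin 16) (c : ℂ) (v : Cfg dh → Wsp dm → F)
    (hv : Tst2 v) (y : Cfg dh) (w : Wsp dm) :
    S.Qhm φ N m β (fun y w => c • v y w) y w = c • S.Qhm φ N m β v y w := by
  unfold Setup.Qhm Setup.Qh
  simp only [hA.py_smul _ _ c v hv, map_smul, smul_add, Finset.smul_sum]
  congr 1
  · congr 1
    · refine Finset.sum_congr rfl fun _ _ => Finset.sum_congr rfl fun _ _ => ?_
      rw [smul_comm]
    · refine Finset.sum_congr rfl fun _ _ => Finset.sum_congr rfl fun _ _ => Finset.sum_congr rfl fun _ _ => ?_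
      simp only [smul_smul]
      congr 1
      ring
  · rw [smul_comm]

/-- opposite parities are orthogonal -/
lemma orth (hB : CalcB dh dm F) (a b : Cfg dh → Wsp dm → F)
    (ha : ∀ y w, a y (-w) = a y w) (hb : ∀ y w, b y (-w) = -b y w) : ip2 a b = 0 := by
  have h := hB.refl a b
  have e1 : (fun y w => a y (-w)) = a := by
    funext y w
    exact ha y w
  have e2 : (fun y w => b y (-w)) = fun y w => (-1 : ℂ) • b y w := by
    funext y w
    rw [hb, neg_one_smul]
  rw [e1, e2, hB.ip_smul] at h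
  have h2 : (2 : ℂ) * ip2 a b = 0 := by linear_combination -h
  simpa using h2

lemma orth' (hB : CalcB dh dm F) (a b : Cfg dh → Wsp dm → F)
    (ha : ∀ y w, a y (-w) = -a y w) (hb : ∀ y w, b y (-w) = b y w) : ip2 a b = 0 := by
  rw [hB.conj, orth hB b a hb ha, map_zero]

lemma ns_split (hB : CalcB dh dm F) (a b : Cfg dh → Wsp dm → F) (h1 : Tst2 a) (h2 : Tst2 b) (h : ip2 a b = 0) :
    ns2 (fun y w => a y w + b y w) = ns2 a + ns2 b := by
  rw [hB.ns_add a b h1 h2, h]
  simp

end ParW

open ParW in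
variable {d dh dm : ℕ} {F : Type*} [NormedAddCommGroup F] [InnerProductSpace ℂ F] in
/-- **C-Par** -/
theorem par_stmt (S : Setup d F) (φ : Spl dh dm d) : CalcA dh dm F → CalcB dh dm F → OpStmt S φ → ParStmt S φ := by
  intro hA hB hO N hN Y ε0 C0 hε hbd R hR m v hv hs
  have hop := hO N hN Y ε0 C0 hε hbd
  have te : Tst2 (evp v) := hA.smul _ _ (hA.add _ _ hv (hA.neg _ hv))
  have td : Tst2 (odp v) := hA.smul _ _ (hA.sub _ _ hv (hA.neg _ hv))
  have se : Sup2 Y ε0 R (evp v) := by
    intro y w h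
    by_cases h1 : v y w = 0
    · by_cases h2 : v y (-w) = 0
      · exact absurd (by simp [evp, h1, h2]) h
      · have := hs y (-w) h2
        rwa [norm_neg] at this
    · exact hs y w h1
  have so : Sup2 Y ε0 R (odp v) := by
    intro y w h
    by_cases h1 : v y w = 0
    · by_cases h2 : v y (-w) = 0
      · exact absurd (by simp [odp, h1, h2]) h
      · have := hs y (-w) h2
        rwa [norm_neg] at this
    · exact hs y w h1
  have oo : ∀ y w, odp v y (-w) = -odp v y w := by
    intro y w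
    unfold odp
    rw [neg_neg, ← smul_neg, neg_sub]
  have ee : ∀ y w, evp v y (-w) = evp v y w := by
    intro y w
    unfold evp
    rw [neg_neg, add_comm]
  have vs : v = fun y w => evp v y w + odp v y w := by
    funext y w
    unfold evp odp
    rw [← smul_add]
    have : v y w + v y (-w) + (v y w - v y (-w)) = (2 : ℂ) • v y w := by
      rw [two_smul]
      abel
    rw [this, smul_smul]
    norm_num
  have eE : (fun y w => evp v y (-w)) = evp v := by
    funext y w
    exact ee y w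
  have eO : (fun y w => odp v y (-w)) = fun y w => (-1 : ℂ) • odp v y w := by
    funext y w
    rw [oo, neg_one_smul]
  have q1e : ∀ β y w, S.Q1 φ β (evp v) y (-w) = -S.Q1 φ β (evp v) y w := by
    intro β y w
    have := Q1_rf hA S φ β (evp v) te y w
    rw [eE] at this
    rw [this, neg_neg]
  have q1o : ∀ β y w, S.Q1 φ β (odp v) y (-w) = S.Q1 φ β (odp v) y w := by
    intro β y w
    have := Q1_rf hA S φ β (odp v) td y w
    rw [eO, Q1_smul hA S φ β _ _ td, neg_one_smul] at this
    exact (neg_injective this).symm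
  have qhe : ∀ β y w, S.Qhm φ N m β (evp v) y (-w) = S.Qhm φ N m β (evp v) y w := by
    intro β y w
    have := Qhm_rf hA S φ N m β (evp v) y w
    rw [eE] at this
    exact this.symm
  have qho : ∀ β y w, S.Qhm φ N m β (odp v) y (-w) = -S.Qhm φ N m β (odp v) y w := by
    intro β y w
    have := Qhm_rf hA S φ N m β (odp v) y w
    rw [eO, Qhm_smul hA S φ N m β _ _ td, neg_one_smul] at this
    exact this.symm
  have q1v : ∀ β, S.Q1 φ β v = fun y w => S.Q1 φ β (evp v) y w + S.Q1 φ β (odp v) y w := by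
    intro β
    funext y w
    conv_lhs => rw [vs]
    exact Q1_add hA S φ β _ _ te td y w
  have qhv : ∀ β, S.Qhm φ N m β v = fun y w => S.Qhm φ N m β (evp v) y w + S.Qhm φ N m β (odp v) y w := by
    intro β
    funext y w
    conv_lhs => rw [vs]
    exact Qhm_add hA S φ N m β _ _ te td y w
  refine ⟨te, td, se, so, oo, ?_, ?_, ?_⟩
  · conv_lhs => rw [vs]
    exact ns_split hB _ _ te td (orth hB _ _ ee oo)
  · unfold Setup.E1
    rw [← Finset.sum_add_distrib]
    refine Finset.sum_congr rfl fun β _ => ?_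
    rw [q1v]
    exact ns_split hB _ _ (hop.t1 R hR _ te se β) (hop.t1 R hR _ td so β) (orth' hB _ _ (q1e β) (q1o β))
  · refine Finset.sum_congr rfl fun β _ => ?_
    have tE := hop.th _ te m β
    have tO := hop.th _ td m β
    have sE := hop.t1 R hR _ te se β
    have sO := hop.t1 R hR _ td so β
    rw [q1v β, hB.ip_add _ _ _ (hop.th _ hv m β) sE sO]
    have h1 : ∀ z, Tst2 z → ip2 (S.Qhm φ N m β v) z = ip2 (S.Qhm φ N m β (evp v)) z + ip2 (S.Qhm φ N m β (odp v)) z := by
      intro z hz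
      rw [hB.conj, qhv β, hB.ip_add _ _ _ hz tE tO, map_add, ← hB.conj, ← hB.conj]
    rw [h1 _ sE, h1 _ sO, orth hB _ _ (qhe β) (q1e β), orth' hB _ _ (qho β) (q1o β), zero_add, add_zero, add_comm]

end Vale.Agent.P353.Z.AN
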