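import Vale.Agent.P353.AN.C.Op

/-! # P353, all `N`, block C, C-Rem: the remainder -/

open MeasureTheory Filter Topology
open scoped ContDiff

namespace Vale.Agent.P353.Z.AN.Rem76

open Vale.Agent.P353.Z.AN.Sy Vale.Agent.P353.Z.AN.Op687

variable {d dh dm : ℕ} {F : Type*} [NormedAddCommGroup F] [InnerProductSpace ℂ F]

/-! ### elementary facts -/

lemma w_le (w : Wsp dm) (k : Fin 8 × Fin dm) : |w k| ≤ ‖w‖ := by
  have := PiLp.norm_apply_le w k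
  rwa [Real.norm_eq_abs] at this

lemma w_sq (w : Wsp dm) : ‖w‖ ^ 2 = ∑ k, w k ^ 2 := by
  rw [EuclideanSpace.norm_sq_eq]
  exact Finset.sum_congr rfl fun k _ => by rw [Real.norm_eq_abs, sq_abs]

lemma wt_le (w : Wsp dm) (i : Fin 9) (B : Fin dm) : |wt w i B| ≤ ‖w‖ := by
  unfold wt
  refine Fin.lastCases ?_ (fun j => ?_) i
  · rw [Fin.lastCases_last, abs_zero]
    exact norm_nonneg w
  · rw [Fin.lastCases_castSucc]
    exact w_le w (j, B)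

lemma t_mw (hA : CalcA dh dm F) (k : Fin 8 × Fin dm) (v : Cfg dh → Wsp dm → F) (hv : Tst2 v) :
    Tst2 (mw k v) :=
  hA.mul (fun _ w => w k) v (contDiff_w k) hv

lemma mw_norm (k : Fin 8 × Fin dm) (v : Cfg dh → Wsp dm → F) (y : Cfg dh) (w : Wsp dm) :
    ‖mw k v y w‖ ^ 2 = w k ^ 2 * ‖v y w‖ ^ 2 := by
  unfold mw mul2
  rw [norm_smul, Complex.norm_real, Real.norm_eq_abs, mul_pow, sq_abs]

omit [InnerProductSpace ℂ F] in
lemma sup_mono {Y : Cfg dh} {e e' R : ℝ} {v : Cfg dh → Wsp dm → F} (h : Sup2 Y e' R v) (hR : 0 < R)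
    (he : e' ≤ e) : Sup2 Y e R v := by
  intro y w hv
  have key : e' * R ≤ e * R := mul_le_mul_of_nonneg_right he hR.le
  exact ⟨(h y w hv).1.trans key, (h y w hv).2.trans key⟩

lemma sup_mw {Y : Cfg dh} {ε R : ℝ} {v : Cfg dh → Wsp dm → F} (k : Fin 8 × Fin dm)
    (h : Sup2 Y ε R v) : Sup2 Y ε R (mw k v) := by
  intro y w hn
  refine h y w fun h0 => hn ?_
  simp [mw, mul2, h0]

/-! ### `Q¹` and multiplication with `w_k` -/

variable (S : Setup d F) (φ : Spl dh dm d)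

/-- the zero order term of `Q¹(w_k v) - w_k Q¹ v` -/
noncomputable def Zk (k : Fin 8 × Fin dm) (β : Fin 16) (y : Cfg dh) (x : F) : F :=
  (-Complex.I) • (∑ j : Fin 8, ∑ B, S.vec (S.g j.castSucc) (φ (Sum.inr B)) β
      (if k = (j, B) then x else 0)) +
    Complex.I • (∑ B, S.vec (S.g 8) (φ (Sum.inr B)) β
      (∑ C, (((S.Dy φ 8 y)⁻¹ B C : ℝ) : ℂ) • ∑ j : Fin 8, ∑ E, ((S.Dy φ j.castSucc y C E : ℝ) : ℂ) •
        (if k = (j, E) then x else 0)))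

lemma Q1_mw (hA : CalcA dh dm F) (k : Fin 8 × Fin dm) (β : Fin 16) (v : Cfg dh → Wsp dm → F)
    (hv : Tst2 v) (y : Cfg dh) (w : Wsp dm) :
    S.Q1 φ β (mw k v) y w = ((w k : ℝ) : ℂ) • S.Q1 φ β v y w + Zk S φ k β y (v y w) := by
  have e0 : mw k v y w = ((w k : ℝ) : ℂ) • v y w := rfl
  unfold Setup.Q1 Zk
  simp only [hA.pw_mw _ _ k v hv y w]
  rw [e0]
  have h1 : (∑ j : Fin 8, ∑ B, S.vec (S.g j.castSucc) (φ (Sum.inr B)) β
      (((w k : ℝ) : ℂ) • pw j B v y w + if k = (j, B) then v y w else 0)) =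
      ((w k : ℝ) : ℂ) • (∑ j : Fin 8, ∑ B, S.vec (S.g j.castSucc) (φ (Sum.inr B)) β (pw j B v y w)) +
      ∑ j : Fin 8, ∑ B, S.vec (S.g j.castSucc) (φ (Sum.inr B)) β (if k = (j, B) then v y w else 0) := by
    simp only [map_add, map_smul, Finset.sum_add_distrib, Finset.smul_sum]
  have h2 : (∑ B, S.vec (S.g 8) (φ (Sum.inr B)) β
      (∑ C, (((S.Dy φ 8 y)⁻¹ B C : ℝ) : ℂ) • ∑ j : Fin 8, ∑ E, ((S.Dy φ j.castSucc y C E : ℝ) : ℂ) •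
        (((w k : ℝ) : ℂ) • pw j E v y w + if k = (j, E) then v y w else 0))) =
      ((w k : ℝ) : ℂ) • (∑ B, S.vec (S.g 8) (φ (Sum.inr B)) β
      (∑ C, (((S.Dy φ 8 y)⁻¹ B C : ℝ) : ℂ) • ∑ j : Fin 8, ∑ E, ((S.Dy φ j.castSucc y C E : ℝ) : ℂ) •
        pw j E v y w)) +
      ∑ B, S.vec (S.g 8) (φ (Sum.inr B)) β
      (∑ C, (((S.Dy φ 8 y)⁻¹ B C : ℝ) : ℂ) • ∑ j : Fin 8, ∑ E, ((S.Dy φ j.castSucc y C E : ℝ) : ℂ) •
        if k = (j, E) then v y w else 0) := by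
    rw [Finset.smul_sum, ← Finset.sum_add_distrib]
    refine Finset.sum_congr rfl fun B _ => ?_
    rw [← map_smul, ← map_add]
    congr 1
    rw [Finset.smul_sum, ← Finset.sum_add_distrib]
    refine Finset.sum_congr rfl fun C _ => ?_
    rw [smul_comm, ← smul_add]
    congr 1
    rw [Finset.smul_sum, ← Finset.sum_add_distrib]
    refine Finset.sum_congr rfl fun j _ => ?_
    rw [Finset.smul_sum, ← Finset.sum_add_distrib]
    refine Finset.sum_congr rfl fun E _ => ?_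
    rw [smul_comm, ← smul_add]
  have h3 : (∑ B, ∑ i, ∑ j, ((S.FL φ B i j y w : ℝ) : ℂ) •
      S.vec (S.g2 i j) (φ (Sum.inr B)) β (((w k : ℝ) : ℂ) • v y w)) =
      ((w k : ℝ) : ℂ) • ∑ B, ∑ i, ∑ j, ((S.FL φ B i j y w : ℝ) : ℂ) •
      S.vec (S.g2 i j) (φ (Sum.inr B)) β (v y w) := by
    simp only [Finset.smul_sum]
    refine Finset.sum_congr rfl fun B _ => Finset.sum_congr rfl fun i _ =>
      Finset.sum_congr rfl fun j _ => ?_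
    rw [map_smul, smul_comm]
  rw [h1, h2, h3]
  module

/-- constant for the zero order term -/
noncomputable def CZ (C0 : ℝ) (β : Fin 16) : ℝ :=
  (∑ j : Fin 8, ∑ B, ‖S.vec (S.g j.castSucc) (φ (Sum.inr B)) β‖) +
    (∑ B, ‖S.vec (S.g 8) (φ (Sum.inr B)) β‖) * ∑ _C : Fin dm, ∑ _j : Fin 8, ∑ _E : Fin dm, C0 ^ 2

lemma CZ_nonneg (C0 : ℝ) (β : Fin 16) : 0 ≤ CZ S φ C0 β := by
  unfold CZ
  positivity

omit [InnerProductSpace ℂ F] in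
lemma ite_norm {p : Prop} [Decidable p] (x : F) : ‖if p then x else 0‖ ≤ ‖x‖ := by
  split_ifs
  · exact le_rfl
  · simp

lemma Zk_bd {C0 R : ℝ} (hC0 : 0 ≤ C0) (hR : 0 < R) {y : Cfg dh}
    (hD : ∀ i B E, |S.Dy φ i y B E| ≤ C0 * R) (hI : ∀ B E, |(S.Dy φ 8 y)⁻¹ B E| ≤ C0 / R)
    (k : Fin 8 × Fin dm) (β : Fin 16) (x : F) : ‖Zk S φ k β y x‖ ≤ CZ S φ C0 β * ‖x‖ := by
  unfold Zk CZ
  refine (norm_add_le _ _).trans ?_
  rw [norm_smul, norm_smul, norm_neg, Complex.norm_I, one_mul, one_mul, add_mul]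
  refine add_le_add ?_ ?_
  · rw [Finset.sum_mul]
    refine norm_sum_le_of_le _ fun j _ => ?_
    rw [Finset.sum_mul]
    refine norm_sum_le_of_le _ fun B _ => ?_
    exact (ContinuousLinearMap.le_opNorm _ _).trans
      (mul_le_mul_of_nonneg_left (ite_norm x) (norm_nonneg _))
  · rw [mul_assoc, Finset.sum_mul]
    refine norm_sum_le_of_le _ fun B _ => ?_
    refine (ContinuousLinearMap.le_opNorm _ _).trans
      (mul_le_mul_of_nonneg_left ?_ (norm_nonneg _))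
    rw [Finset.sum_mul]
    refine norm_sum_le_of_le _ fun C _ => ?_
    rw [norm_smul, Complex.norm_real, Real.norm_eq_abs]
    have h1 : ‖∑ j : Fin 8, ∑ E, ((S.Dy φ j.castSucc y C E : ℝ) : ℂ) • (if k = (j, E) then x else 0)‖ ≤
        ∑ j : Fin 8, ∑ E : Fin dm, C0 * R * ‖x‖ := by
      refine norm_sum_le_of_le _ fun j _ => ?_
      refine norm_sum_le_of_le _ fun E _ => ?_
      rw [norm_smul, Complex.norm_real, Real.norm_eq_abs]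
      exact mul_le_mul (hD _ _ _) (ite_norm x) (norm_nonneg _) (by positivity)
    refine (mul_le_mul (hI B C) h1 (norm_nonneg _) (by positivity)).trans ?_
    rw [Finset.sum_mul, Finset.mul_sum]
    refine Finset.sum_le_sum fun j _ => ?_
    rw [Finset.sum_mul, Finset.mul_sum]
    refine Finset.sum_le_sum fun E _ => le_of_eq ?_
    field_simp

/-! ### energies of `w_k v` -/

lemma sq_add_le {a b c p q : ℝ} (h : a ≤ b + c) (ha : 0 ≤ a) (hb : b ^ 2 ≤ p) (hc : c ^ 2 ≤ q) :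
    a ^ 2 ≤ 2 * p + 2 * q := by
  have h1 : a ^ 2 ≤ (b + c) ^ 2 := pow_le_pow_left₀ ha h 2
  nlinarith [sq_nonneg (b - c)]

lemma E1_mw (hA : CalcA dh dm F) (hB : CalcB dh dm F) {N : Fin 9 → Matrix (Fin 16) (Fin 16) ℂ}
    {Y : Cfg dh} {ε0 C0 : ℝ} (hO : OpFacts S φ N Y ε0) (hC0 : 0 ≤ C0) (hbd : S.CoefBd φ Y ε0 C0)
    {ε R : ℝ} (hε' : ε ≤ ε0) (hR : 0 < R) (v : Cfg dh → Wsp dm → F) (hv : Tst2 v)
    (hs : Sup2 Y ε R v) (k : Fin 8 × Fin dm) :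
    S.E1 φ (mw k v) ≤ 2 * (ε * R) ^ 2 * S.E1 φ v + 2 * (∑ β, CZ S φ C0 β ^ 2) * ns2 v := by
  have hs0 : Sup2 Y ε0 R v := sup_mono hs hR hε'
  have hk := t_mw hA k v hv
  unfold Setup.E1
  rw [Finset.mul_sum, mul_assoc 2, Finset.sum_mul, Finset.mul_sum, ← Finset.sum_add_distrib]
  refine Finset.sum_le_sum fun β _ => ?_
  have h := hB.le_sum (Fin 2) (fun l => if l = 0 then 2 * (ε * R) ^ 2 else 2 * CZ S φ C0 β ^ 2)
    (S.Q1 φ β (mw k v)) (fun l => if l = 0 then S.Q1 φ β v else v)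
    (hO.t1 R hR _ hk (sup_mw k hs0) β) (by
      intro l
      by_cases hl : l = 0
      · simp only [hl, if_true]
        exact hO.t1 R hR v hv hs0 β
      · simp only [hl, if_false]
        exact hv) (by
      intro y w
      simp only [Fin.sum_univ_two, if_true, one_ne_zero, if_false]
      by_cases hin : ‖y - R • Y‖ ≤ ε * R ∧ ‖w‖ ≤ ε * R
      swap
      · have h0 : S.Q1 φ β (mw k v) y w = 0 := by
          by_contra hne
          exact hin (hO.su1 ε R _ hk (sup_mw k hs) β y w hne)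
        rw [h0, norm_zero, zero_pow two_ne_zero]
        positivity
      · have hy : ‖y - R • Y‖ ≤ ε0 * R := hin.1.trans (mul_le_mul_of_nonneg_right hε' hR.le)
        have hz := Zk_bd S φ hC0 hR (hbd.dy R hR y hy) (hbd.inv R hR y hy) k β (v y w)
        rw [Q1_mw S φ hA k β v hv y w]
        have h1 := norm_add_le (((w k : ℝ) : ℂ) • S.Q1 φ β v y w) (Zk S φ k β y (v y w))
        have h2 : (‖((w k : ℝ) : ℂ) • S.Q1 φ β v y w‖) ^ 2 ≤ (ε * R) ^ 2 * ‖S.Q1 φ β v y w‖ ^ 2 := by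
          rw [norm_smul, Complex.norm_real, Real.norm_eq_abs, mul_pow]
          refine mul_le_mul_of_nonneg_right ?_ (by positivity)
          exact pow_le_pow_left₀ (abs_nonneg _) ((w_le w k).trans hin.2) 2
        have h3 : ‖Zk S φ k β y (v y w)‖ ^ 2 ≤ CZ S φ C0 β ^ 2 * ‖v y w‖ ^ 2 := by
          rw [← mul_pow]
          exact pow_le_pow_left₀ (norm_nonneg _) hz 2
        have h4 := sq_add_le h1 (norm_nonneg _) h2 h3
        linarith)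
  simp only [Fin.sum_univ_two, if_true, one_ne_zero, if_false] at h
  linarith

lemma Qhm_mw (hA : CalcA dh dm F) (N : Fin 9 → Matrix (Fin 16) (Fin 16) ℂ) (m : ℝ)
    (k : Fin 8 × Fin dm) (β : Fin 16) (v : Cfg dh → Wsp dm → F)
    (hv : Tst2 v) (y : Cfg dh) (w : Wsp dm) :
    S.Qhm φ N m β (mw k v) y w = ((w k : ℝ) : ℂ) • S.Qhm φ N m β v y w := by
  have e0 : mw k v y w = ((w k : ℝ) : ℂ) • v y w := rfl
  rw [Qhm_exp, Qhm_exp, e0]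
  simp only [hA.py_mw _ _ k v hv y w, map_smul, smul_add, Finset.smul_sum]
  congr 1
  · congr 1
    · refine Finset.sum_congr rfl fun i _ => Finset.sum_congr rfl fun A _ => ?_
      rw [smul_comm]
    · refine Finset.sum_congr rfl fun A _ => Finset.sum_congr rfl fun i _ =>
        Finset.sum_congr rfl fun j _ => ?_
      rw [smul_comm]
  · refine Finset.sum_congr rfl fun i _ => Finset.sum_congr rfl fun A _ => ?_
    rw [smul_comm]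

lemma EH_mw (hA : CalcA dh dm F) (hB : CalcB dh dm F) {N : Fin 9 → Matrix (Fin 16) (Fin 16) ℂ}
    {Y : Cfg dh} {ε0 : ℝ} (hO : OpFacts S φ N Y ε0) {ε R : ℝ}
    (m : ℝ) (v : Cfg dh → Wsp dm → F) (hv : Tst2 v)
    (hs : Sup2 Y ε R v) (k : Fin 8 × Fin dm) :
    S.EH φ N m (mw k v) ≤ (ε * R) ^ 2 * S.EH φ N m v := by
  unfold Setup.EH
  rw [Finset.mul_sum]
  refine Finset.sum_le_sum fun β _ => ?_
  refine hB.mono _ _ _ (hO.th _ (t_mw hA k v hv) m β) (hO.th v hv m β) fun y w => ?_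
  rw [Qhm_mw S φ hA N m k β v hv y w, norm_smul, Complex.norm_real, Real.norm_eq_abs, mul_pow]
  by_cases h0 : S.Qhm φ N m β v y w = 0
  · rw [h0, norm_zero]
    simp
  · have h1 := (hO.suh ε R v hv hs m β y w h0).2
    refine mul_le_mul_of_nonneg_right ?_ (by positivity)
    exact pow_le_pow_left₀ (abs_nonneg _) ((w_le w k).trans h1) 2

lemma py_mw_fun (hA : CalcA dh dm F) (k : Fin 8 × Fin dm) (v : Cfg dh → Wsp dm → F) (hv : Tst2 v)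
    (i : Fin 9) (A : Fin dh) : mw k (py i A v) = py i A (mw k v) := by
  funext y w
  rw [hA.py_mw i A k v hv y w]
  rfl

lemma pw_mw_le (hA : CalcA dh dm F) (hB : CalcB dh dm F) (k : Fin 8 × Fin dm)
    (v : Cfg dh → Wsp dm → F) (hv : Tst2 v) (j : Fin 8) (B : Fin dm) :
    ns2 (mw k (pw j B v)) ≤ 2 * ns2 (pw j B (mw k v)) + 2 * ns2 v := by
  have h := hB.le_sum (Fin 2) (fun _ => 2)
    (mw k (pw j B v)) (fun l => if l = 0 then pw j B (mw k v) else v)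
    (t_mw hA k _ (hA.pw j B v hv)) (by
      intro l
      by_cases hl : l = 0
      · simp only [hl, if_true]
        exact hA.pw j B _ (t_mw hA k v hv)
      · simp only [hl, if_false]
        exact hv) (by
      intro y w
      simp only [Fin.sum_univ_two, if_true, one_ne_zero, if_false]
      have e1 : mw k (pw j B v) y w = pw j B (mw k v) y w + -(if k = (j, B) then v y w else 0) := by
        rw [hA.pw_mw j B k v hv y w]
        simp only [mw, mul2]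
        abel
      rw [e1]
      have h1 := norm_add_le (pw j B (mw k v) y w) (-(if k = (j, B) then v y w else 0))
      have h2 : ‖-(if k = (j, B) then v y w else 0)‖ ^ 2 ≤ ‖v y w‖ ^ 2 := by
        rw [norm_neg]
        exact pow_le_pow_left₀ (norm_nonneg _) (ite_norm _) 2
      have h4 := sq_add_le h1 (norm_nonneg _) le_rfl h2
      linarith)
  simp only [Fin.sum_univ_two, if_true, one_ne_zero, if_false] at h
  linarith

/-! ### the pointwise bound -/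

/-- constant for the mass term -/
noncomputable def CM (N : Fin 9 → Matrix (Fin 16) (Fin 16) ℂ) (β : Fin 16) : ℝ :=
  ∑ i, ∑ B, ‖S.vec (N i) (φ (Sum.inr B)) β‖

lemma Mw_bd (N : Fin 9 → Matrix (Fin 16) (Fin 16) ℂ) (β : Fin 16) (w : Wsp dm) (x : F) :
    ‖S.Mw φ N β w x‖ ≤ CM S φ N β * ‖w‖ * ‖x‖ := by
  unfold Setup.Mw CM
  simp only [_root_.sum_apply, _root_.smul_apply]
  rw [Finset.sum_mul, Finset.sum_mul]
  refine norm_sum_le_of_le _ fun i _ => ?_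
  rw [Finset.sum_mul, Finset.sum_mul]
  refine norm_sum_le_of_le _ fun B _ => ?_
  rw [norm_smul, Complex.norm_real, Real.norm_eq_abs]
  have h1 := (S.vec (N i) (φ (Sum.inr B)) β).le_opNorm x
  calc |wt w i B| * ‖S.vec (N i) (φ (Sum.inr B)) β x‖
      ≤ ‖w‖ * (‖S.vec (N i) (φ (Sum.inr B)) β‖ * ‖x‖) :=
        mul_le_mul (wt_le w i B) h1 (norm_nonneg _) (norm_nonneg _)
    _ = ‖S.vec (N i) (φ (Sum.inr B)) β‖ * ‖w‖ * ‖x‖ := by ring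

lemma five {u x1 x2 x3 x4 x5 : ℝ} (hu : 0 ≤ u) (h : u ≤ x1 + x2 + x3 + x4 + x5) :
    u ^ 2 ≤ 5 * (x1 ^ 2 + x2 ^ 2 + x3 ^ 2 + x4 ^ 2 + x5 ^ 2) := by
  have h1 : u ^ 2 ≤ (x1 + x2 + x3 + x4 + x5) ^ 2 := pow_le_pow_left₀ hu h 2
  nlinarith [sq_nonneg (x1 - x2), sq_nonneg (x1 - x3), sq_nonneg (x1 - x4), sq_nonneg (x1 - x5),
    sq_nonneg (x2 - x3), sq_nonneg (x2 - x4), sq_nonneg (x2 - x5), sq_nonneg (x3 - x4),
    sq_nonneg (x3 - x5), sq_nonneg (x4 - x5)]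

lemma dsum_sq {a b : ℕ} (f : Fin a → Fin b → ℝ) :
    (∑ i, ∑ A, f i A) ^ 2 ≤ (a * b : ℝ) * ∑ i, ∑ A, f i A ^ 2 := by
  have h := sq_sum_le_card_mul_sum_sq (s := (Finset.univ : Finset (Fin a × Fin b)))
    (f := fun p => f p.1 p.2)
  rw [Finset.card_univ, Fintype.card_prod, Fintype.card_fin, Fintype.card_fin,
    Fintype.sum_prod_type, Fintype.sum_prod_type] at h
  push_cast at h
  exact h

/-- five families in `le_sum` -/
lemma le_sum5 (hB : CalcB dh dm F) {ι1 ι2 ι3 ι4 ι5 : Type} [Fintype ι1] [Fintype ι2] [Fintype ι3]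
    [Fintype ι4] [Fintype ι5] (a1 a2 a3 a4 a5 : ℝ) (u : Cfg dh → Wsp dm → F)
    (v1 : ι1 → Cfg dh → Wsp dm → F) (v2 : ι2 → Cfg dh → Wsp dm → F) (v3 : ι3 → Cfg dh → Wsp dm → F)
    (v4 : ι4 → Cfg dh → Wsp dm → F) (v5 : ι5 → Cfg dh → Wsp dm → F) (hu : Tst2 u)
    (h1 : ∀ l, Tst2 (v1 l)) (h2 : ∀ l, Tst2 (v2 l)) (h3 : ∀ l, Tst2 (v3 l))
    (h4 : ∀ l, Tst2 (v4 l)) (h5 : ∀ l, Tst2 (v5 l))
    (h : ∀ y w, ‖u y w‖ ^ 2 ≤ a1 * ∑ l, ‖v1 l y w‖ ^ 2 + a2 * ∑ l, ‖v2 l y w‖ ^ 2 +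
      a3 * ∑ l, ‖v3 l y w‖ ^ 2 + a4 * ∑ l, ‖v4 l y w‖ ^ 2 + a5 * ∑ l, ‖v5 l y w‖ ^ 2) :
    ns2 u ≤ a1 * ∑ l, ns2 (v1 l) + a2 * ∑ l, ns2 (v2 l) +
      a3 * ∑ l, ns2 (v3 l) + a4 * ∑ l, ns2 (v4 l) + a5 * ∑ l, ns2 (v5 l) := by
  have key := hB.le_sum (ι1 ⊕ ι2 ⊕ ι3 ⊕ ι4 ⊕ ι5)
    (Sum.elim (fun _ => a1) (Sum.elim (fun _ => a2) (Sum.elim (fun _ => a3)
      (Sum.elim (fun _ => a4) (fun _ => a5))))) u
    (Sum.elim v1 (Sum.elim v2 (Sum.elim v3 (Sum.elim v4 v5)))) hu (by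
      rintro (l | l | l | l | l)
      · exact h1 l
      · exact h2 l
      · exact h3 l
      · exact h4 l
      · exact h5 l) (by
      intro y w
      have := h y w
      simp only [Fintype.sum_sum_type, Sum.elim_inl, Sum.elim_inr, ← Finset.mul_sum]
      linarith)
  simp only [Fintype.sum_sum_type, Sum.elim_inl, Sum.elim_inr, ← Finset.mul_sum] at key
  linarith

lemma w_dsum {a b : ℕ} (w : Wsp dm) (f : Fin a → Fin b → ℝ) :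
    (‖w‖ * ∑ i, ∑ A, f i A) ^ 2 ≤
      (a * b : ℝ) * ∑ l : (Fin 8 × Fin dm) × (Fin a × Fin b), w l.1 ^ 2 * f l.2.1 l.2.2 ^ 2 := by
  have h1 : ∑ l : (Fin 8 × Fin dm) × (Fin a × Fin b), w l.1 ^ 2 * f l.2.1 l.2.2 ^ 2 =
      ‖w‖ ^ 2 * ∑ i, ∑ A, f i A ^ 2 := by
    rw [w_sq, Fintype.sum_prod_type, Finset.sum_mul]
    refine Finset.sum_congr rfl fun k _ => ?_
    change ∑ q : Fin a × Fin b, w k ^ 2 * f q.1 q.2 ^ 2 = _
    rw [← Finset.mul_sum, Fintype.sum_prod_type]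
  rw [h1, mul_pow]
  have h2 := mul_le_mul_of_nonneg_left (dsum_sq f) (sq_nonneg ‖w‖)
  linarith

/-- the square of the remainder, integrated -/
lemma u_le (hA : CalcA dh dm F) (hB : CalcB dh dm F) {N : Fin 9 → Matrix (Fin 16) (Fin 16) ℂ}
    {Y : Cfg dh} {ε0 C0 : ℝ} (hO : OpFacts S φ N Y ε0) (hbd : S.CoefBd φ Y ε0 C0)
    {R m : ℝ} (hR : 0 < R) (hm : 0 ≤ m) (v : Cfg dh → Wsp dm → F) (hv : Tst2 v)
    (hs : Sup2 Y ε0 R v) (β : Fin 16) :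
    ns2 (fun y w => S.Qr φ β v y w + (m : ℂ) • S.Mw φ N β w (v y w)) ≤
      5 * (C0 / R) ^ 2 * (9 * dh) *
        ∑ l : (Fin 8 × Fin dm) × (Fin 9 × Fin dh), ns2 (mw l.1 (py l.2.1 l.2.2 v)) +
      5 * (C0 / R) ^ 2 * (8 * dm) *
        ∑ l : (Fin 8 × Fin dm) × (Fin 8 × Fin dm), ns2 (mw l.1 (pw l.2.1 l.2.2 v)) +
      5 * (C0 / R) ^ 2 * ns2 v +
      5 * C0 ^ 2 * ∑ l : (Fin 8 × Fin dm) × (Fin 8 × Fin dm), ns2 (mw l.1 (mw l.2 v)) +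
      5 * m ^ 2 * CM S φ N β ^ 2 * ∑ k : Fin 8 × Fin dm, ns2 (mw k v) := by
  have key := le_sum5 hB (ι1 := (Fin 8 × Fin dm) × (Fin 9 × Fin dh))
    (ι2 := (Fin 8 × Fin dm) × (Fin 8 × Fin dm)) (ι3 := Unit)
    (ι4 := (Fin 8 × Fin dm) × (Fin 8 × Fin dm)) (ι5 := Fin 8 × Fin dm)
    (5 * (C0 / R) ^ 2 * (9 * dh)) (5 * (C0 / R) ^ 2 * (8 * dm)) (5 * (C0 / R) ^ 2) (5 * C0 ^ 2)
    (5 * m ^ 2 * CM S φ N β ^ 2)
    (fun y w => S.Qr φ β v y w + (m : ℂ) • S.Mw φ N β w (v y w))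
    (fun l => mw l.1 (py l.2.1 l.2.2 v)) (fun l => mw l.1 (pw l.2.1 l.2.2 v)) (fun _ => v)
    (fun l => mw l.1 (mw l.2 v)) (fun k => mw k v)
    (hA.add _ _ (hO.tr R hR v hv hs β) (hA.smul _ _ (hO.tm v hv β)))
    (fun l => t_mw hA _ _ (hA.py _ _ v hv)) (fun l => t_mw hA _ _ (hA.pw _ _ v hv)) (fun _ => hv)
    (fun l => t_mw hA _ _ (t_mw hA _ _ hv)) (fun k => t_mw hA _ _ hv) (by
      intro y w
      simp only [mw_norm, Finset.univ_unique, Finset.sum_const, Finset.card_singleton, one_smul]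
      by_cases hin : ‖y - R • Y‖ ≤ ε0 * R ∧ ‖w‖ ≤ ε0 * R
      swap
      · obtain ⟨h0, h1, h2⟩ := van hA hv hs hin
        have hz : S.Qr φ β v y w = 0 := by
          unfold Setup.Qr
          simp [h0, h1, h2]
        rw [hz, h0]
        simp only [map_zero, smul_zero, add_zero, norm_zero]
        rw [zero_pow two_ne_zero]
        positivity
      · have e1 := hbd.rem R hR y hin.1 w hin.2 v β
        have e2 := Mw_bd S φ N β w (v y w)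
        have e3 : ‖S.Qr φ β v y w + (m : ℂ) • S.Mw φ N β w (v y w)‖ ≤
            C0 / R * (‖w‖ * ∑ i, ∑ A, ‖py i A v y w‖) + C0 / R * (‖w‖ * ∑ j, ∑ B, ‖pw j B v y w‖) +
            C0 / R * ‖v y w‖ + C0 * (‖w‖ ^ 2 * ‖v y w‖) + m * (CM S φ N β * ‖w‖ * ‖v y w‖) := by
          refine (norm_add_le _ _).trans ?_
          rw [norm_smul, Complex.norm_real, Real.norm_eq_abs, abs_of_nonneg hm]
          have e4 := mul_le_mul_of_nonneg_left e2 hm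
          refine (add_le_add e1 e4).trans (le_of_eq ?_)
          ring
        refine (five (norm_nonneg _) e3).trans ?_
        have g1 := w_dsum w (fun i A => ‖py i A v y w‖)
        have g2 := w_dsum w (fun j B => ‖pw j B v y w‖)
        have g4 : (‖w‖ ^ 2 * ‖v y w‖) ^ 2 =
            ∑ l : (Fin 8 × Fin dm) × (Fin 8 × Fin dm), w l.1 ^ 2 * (w l.2 ^ 2 * ‖v y w‖ ^ 2) := by
          rw [Fintype.sum_prod_type]
          simp only [← Finset.mul_sum, ← Finset.sum_mul, ← w_sq]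
          ring
        have g5 : (‖w‖ * ‖v y w‖) ^ 2 = ∑ k, w k ^ 2 * ‖v y w‖ ^ 2 := by
          rw [mul_pow, w_sq, Finset.sum_mul]
        have f1 : (C0 / R * (‖w‖ * ∑ i, ∑ A, ‖py i A v y w‖)) ^ 2 ≤ (C0 / R) ^ 2 * (((9 : ℕ) * dh : ℝ) *
            ∑ l : (Fin 8 × Fin dm) × (Fin 9 × Fin dh), w l.1 ^ 2 * ‖py l.2.1 l.2.2 v y w‖ ^ 2) := by
          rw [mul_pow]
          exact mul_le_mul_of_nonneg_left g1 (sq_nonneg _)
        have f2 : (C0 / R * (‖w‖ * ∑ j, ∑ B, ‖pw j B v y w‖)) ^ 2 ≤ (C0 / R) ^ 2 * (((8 : ℕ) * dm : ℝ) *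
            ∑ l : (Fin 8 × Fin dm) × (Fin 8 × Fin dm), w l.1 ^ 2 * ‖pw l.2.1 l.2.2 v y w‖ ^ 2) := by
          rw [mul_pow]
          exact mul_le_mul_of_nonneg_left g2 (sq_nonneg _)
        have f3 : (C0 / R * ‖v y w‖) ^ 2 = (C0 / R) ^ 2 * ‖v y w‖ ^ 2 := by rw [mul_pow]
        have f4 : (C0 * (‖w‖ ^ 2 * ‖v y w‖)) ^ 2 = C0 ^ 2 *
            ∑ l : (Fin 8 × Fin dm) × (Fin 8 × Fin dm), w l.1 ^ 2 * (w l.2 ^ 2 * ‖v y w‖ ^ 2) := by
          rw [mul_pow, g4]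
        have f5 : (m * (CM S φ N β * ‖w‖ * ‖v y w‖)) ^ 2 = m ^ 2 * CM S φ N β ^ 2 *
            ∑ k, w k ^ 2 * ‖v y w‖ ^ 2 := by
          rw [← g5]
          ring
        rw [f3, f4, f5]
        push_cast at f1 f2
        linarith)
  simp only [Finset.univ_unique, Finset.sum_const, Finset.card_singleton, one_smul] at key
  exact key

/-! ### real arithmetic -/

lemma fin_real {H K n W T1 T2 T3 T4 ε R m CE C1 CL CZ p : ℝ} (hH : 0 ≤ H) (hK : 0 ≤ K) (hn : 0 ≤ n)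
    (hT3 : 0 ≤ T3) (hT4 : 0 ≤ T4) (hR : 1 ≤ R) (hm : 0 ≤ m) (hm1 : m ≤ 1)
    (hCE : 0 ≤ CE) (hC1 : 0 ≤ C1) (hCL : 0 ≤ CL) (hCZ : 0 ≤ CZ) (hp : 0 ≤ p)
    (hW : R ^ 2 * W ≤ C1 * (K + R * n))
    (h1 : T1 ≤ CE * (p * (ε * R) ^ 2 * H + (1 + CL) * R * W))
    (h2 : T3 + R ^ 2 * T4 ≤ C1 * (2 * p * (ε * R) ^ 2 * K + 2 * p * CZ * n + R * W))
    (h3 : T2 ≤ 2 * T3 + 2 * p ^ 2 * n) :
    T1 / R ^ 2 ≤ (CE * p + CE * (1 + CL) * C1) * ((ε ^ 2 + 1 / R ^ 2) * (H + K) + n / R ^ 2) ∧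
    T2 / R ^ 2 ≤ (2 * (C1 * (2 * p + 2 * p * CZ + C1)) + 2 * p ^ 2) *
      ((ε ^ 2 + 1 / R ^ 2) * (H + K) + n / R ^ 2) ∧
    n / R ^ 2 ≤ (ε ^ 2 + 1 / R ^ 2) * (H + K) + n / R ^ 2 ∧
    T4 ≤ (C1 * (2 * p + 2 * p * CZ + C1)) * ((ε ^ 2 + 1 / R ^ 2) * (H + K) + n / R ^ 2) ∧
    m ^ 2 * W ≤ C1 * (K / R ^ 2 + m ^ 2 * n / R) := by
  have hR0 : 0 < R := by linarith
  obtain ⟨t, rfl⟩ : ∃ t : ℝ, R = t⁻¹ := ⟨R⁻¹, by rw [inv_inv]⟩
  have ht : 0 < t := by simpa using hR0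
  have ht1 : t ≤ 1 := by
    rw [← inv_inv t]
    exact inv_le_one_of_one_le₀ hR
  have i1 : ∀ x : ℝ, x / (t⁻¹) ^ 2 = x * t ^ 2 := fun x => by field_simp
  have i2 : ∀ x : ℝ, x / t⁻¹ = x * t := fun x => by field_simp
  simp only [i1, i2]
  have hWb : W ≤ C1 * (K * t ^ 2 + n * t) := by
    have := mul_le_mul_of_nonneg_left hW (sq_nonneg t)
    have e1 : t ^ 2 * (t⁻¹ ^ 2 * W) = W := by field_simp
    have e2 : t ^ 2 * (C1 * (K + t⁻¹ * n)) = C1 * (K * t ^ 2 + n * t) := by field_simp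
    linarith
  set Q := (ε ^ 2 + 1 * t ^ 2) * (H + K) + n * t ^ 2 with hQ
  have q1 : ε ^ 2 * H ≤ Q := by
    have : 0 ≤ ε ^ 2 * K + t ^ 2 * (H + K) + n * t ^ 2 := by positivity
    rw [hQ]; linarith
  have q2 : K * t ^ 2 + n * t ^ 2 ≤ Q := by
    have : 0 ≤ ε ^ 2 * (H + K) + t ^ 2 * H := by positivity
    rw [hQ]; linarith
  have q3 : ε ^ 2 * K ≤ Q := by
    have : 0 ≤ ε ^ 2 * H + t ^ 2 * (H + K) + n * t ^ 2 := by positivity
    rw [hQ]; linarith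
  have q4 : n * t ^ 2 ≤ Q := by
    have : 0 ≤ (ε ^ 2 + t ^ 2) * (H + K) := by positivity
    rw [hQ]; linarith
  have tW : t * W ≤ C1 * Q := by
    have a1 := mul_le_mul_of_nonneg_left hWb ht.le
    have a2 : K * t ^ 3 ≤ K * t ^ 2 :=
      mul_le_mul_of_nonneg_left (pow_le_pow_of_le_one ht.le ht1 (by norm_num)) hK
    have a3 : t * (C1 * (K * t ^ 2 + n * t)) = C1 * (K * t ^ 3 + n * t ^ 2) := by ring
    have a4 := mul_le_mul_of_nonneg_left (show K * t ^ 3 + n * t ^ 2 ≤ Q by linarith) hC1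
    linarith
  have c1 : T1 * t ^ 2 ≤ (CE * p + CE * (1 + CL) * C1) * Q := by
    have a1 := mul_le_mul_of_nonneg_right h1 (sq_nonneg t)
    have a2 : CE * (p * (ε * t⁻¹) ^ 2 * H + (1 + CL) * t⁻¹ * W) * t ^ 2 =
        CE * p * (ε ^ 2 * H) + CE * (1 + CL) * (t * W) := by field_simp
    have a3 := mul_le_mul_of_nonneg_left q1 (mul_nonneg hCE hp)
    have a4 := mul_le_mul_of_nonneg_left tW (show 0 ≤ CE * (1 + CL) by positivity)
    linarith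
  have c34 : T3 * t ^ 2 + T4 ≤ (C1 * (2 * p + 2 * p * CZ + C1)) * Q := by
    have a1 := mul_le_mul_of_nonneg_right h2 (sq_nonneg t)
    have a2 : (T3 + t⁻¹ ^ 2 * T4) * t ^ 2 = T3 * t ^ 2 + T4 := by field_simp
    have a3 : C1 * (2 * p * (ε * t⁻¹) ^ 2 * K + 2 * p * CZ * n + t⁻¹ * W) * t ^ 2 =
        C1 * (2 * p) * (ε ^ 2 * K) + C1 * (2 * p * CZ) * (n * t ^ 2) + C1 * (t * W) := by field_simp
    have a4 := mul_le_mul_of_nonneg_left q3 (show 0 ≤ C1 * (2 * p) by positivity)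
    have a5 := mul_le_mul_of_nonneg_left q4 (show 0 ≤ C1 * (2 * p * CZ) by positivity)
    have a6 := mul_le_mul_of_nonneg_left tW hC1
    linarith
  have p3 : 0 ≤ T3 * t ^ 2 := by positivity
  refine ⟨c1, ?_, q4, by linarith, ?_⟩
  · have a1 := mul_le_mul_of_nonneg_right h3 (sq_nonneg t)
    have a2 := mul_le_mul_of_nonneg_left q4 (show 0 ≤ 2 * p ^ 2 by positivity)
    linarith
  · have a1 := mul_le_mul_of_nonneg_left hWb (sq_nonneg m)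
    have a3 : m ^ 2 * (K * t ^ 2) ≤ K * t ^ 2 :=
      mul_le_of_le_one_left (by positivity) (pow_le_one₀ hm hm1)
    have a4 := mul_le_mul_of_nonneg_left a3 hC1
    have a5 : m ^ 2 * (C1 * (K * t ^ 2 + n * t)) =
      C1 * (m ^ 2 * (K * t ^ 2)) + C1 * (m ^ 2 * n * t) := by ring
    rw [a5] at a1
    rw [mul_add]
    exact a1.trans (add_le_add a4 le_rfl)

/-- final summation, real numbers only -/
lemma fin_sum {H K n W T1 T2 T4 ε R m C0 C1 B1 B2 B4 a b : ℝ} (x : Fin 16 → ℝ) (c : Fin 16 → ℝ)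
    (hH : 0 ≤ H) (hK : 0 ≤ K) (hn : 0 ≤ n) (hR : 0 < R) (hC1 : 0 ≤ C1)
    (ha : 0 ≤ a) (hb : 0 ≤ b) (hB1 : 0 ≤ B1) (hB2 : 0 ≤ B2) (hB4 : 0 ≤ B4)
    (hx : ∀ β, x β ≤ 5 * (C0 / R) ^ 2 * a * T1 + 5 * (C0 / R) ^ 2 * b * T2 + 5 * (C0 / R) ^ 2 * n +
      5 * C0 ^ 2 * T4 + 5 * m ^ 2 * c β ^ 2 * W)
    (c1 : T1 / R ^ 2 ≤ B1 * ((ε ^ 2 + 1 / R ^ 2) * (H + K) + n / R ^ 2))
    (c2 : T2 / R ^ 2 ≤ B2 * ((ε ^ 2 + 1 / R ^ 2) * (H + K) + n / R ^ 2))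
    (c3 : n / R ^ 2 ≤ (ε ^ 2 + 1 / R ^ 2) * (H + K) + n / R ^ 2)
    (c4 : T4 ≤ B4 * ((ε ^ 2 + 1 / R ^ 2) * (H + K) + n / R ^ 2))
    (c5 : m ^ 2 * W ≤ C1 * (K / R ^ 2 + m ^ 2 * n / R)) :
    ∑ β, x β ≤ (16 * (5 * C0 ^ 2 * (a * B1 + b * B2 + 1 + B4)) + 5 * (∑ β, c β ^ 2) * C1) *
        (ε ^ 2 + 1 / R ^ 2) * (H + K) +
      (16 * (5 * C0 ^ 2 * (a * B1 + b * B2 + 1 + B4)) + 5 * (∑ β, c β ^ 2) * C1) *
        (1 / R ^ 2 + m ^ 2 / R) * n := by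
  obtain ⟨Q, hQ⟩ : ∃ Q, Q = (ε ^ 2 + 1 / R ^ 2) * (H + K) + n / R ^ 2 := ⟨_, rfl⟩
  obtain ⟨A0, hA0⟩ : ∃ A0, A0 = 5 * C0 ^ 2 * (a * B1 + b * B2 + 1 + B4) := ⟨_, rfl⟩
  have hA00 : 0 ≤ A0 := by rw [hA0]; positivity
  have hM0 : 0 ≤ ∑ β, c β ^ 2 := Finset.sum_nonneg fun β _ => sq_nonneg _
  rw [← hQ] at c1 c2 c3 c4
  rw [← hA0]
  have hβ : ∀ β : Fin 16, x β ≤ A0 * Q + c β ^ 2 * (5 * C1 * (K / R ^ 2 + m ^ 2 * n / R)) := by
    intro β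
    refine (hx β).trans ?_
    have b1 := mul_le_mul_of_nonneg_left c1 (show (0 : ℝ) ≤ 5 * C0 ^ 2 * a by positivity)
    have b2 := mul_le_mul_of_nonneg_left c2 (show (0 : ℝ) ≤ 5 * C0 ^ 2 * b by positivity)
    have b3 := mul_le_mul_of_nonneg_left c3 (show (0 : ℝ) ≤ 5 * C0 ^ 2 by positivity)
    have b4 := mul_le_mul_of_nonneg_left c4 (show (0 : ℝ) ≤ 5 * C0 ^ 2 by positivity)
    have b5 := mul_le_mul_of_nonneg_left c5 (show (0 : ℝ) ≤ 5 * c β ^ 2 by positivity)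
    have e1 : 5 * (C0 / R) ^ 2 * a * T1 = 5 * C0 ^ 2 * a * (T1 / R ^ 2) := by
      rw [div_pow]; ring
    have e2 : 5 * (C0 / R) ^ 2 * b * T2 = 5 * C0 ^ 2 * b * (T2 / R ^ 2) := by
      rw [div_pow]; ring
    have e3 : 5 * (C0 / R) ^ 2 * n = 5 * C0 ^ 2 * (n / R ^ 2) := by
      rw [div_pow]; ring
    have e5 : 5 * m ^ 2 * c β ^ 2 * W = 5 * c β ^ 2 * (m ^ 2 * W) := by ring
    rw [e1, e2, e3, e5]
    calc _ ≤ 5 * C0 ^ 2 * a * (B1 * Q) + 5 * C0 ^ 2 * b * (B2 * Q) + 5 * C0 ^ 2 * Q +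
          5 * C0 ^ 2 * (B4 * Q) + 5 * c β ^ 2 * (C1 * (K / R ^ 2 + m ^ 2 * n / R)) :=
          add_le_add (add_le_add (add_le_add (add_le_add b1 b2) b3) b4) b5
      _ = _ := by rw [hA0]; ring
  refine (Finset.sum_le_sum fun β _ => hβ β).trans ?_
  rw [Finset.sum_add_distrib, Finset.sum_const, ← Finset.sum_mul, Finset.card_univ,
    Fintype.card_fin, nsmul_eq_mul]
  push_cast
  obtain ⟨M, hM⟩ : ∃ M, M = ∑ β, c β ^ 2 := ⟨_, rfl⟩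
  rw [← hM] at hM0 ⊢
  have z1 : 0 ≤ 16 * A0 * (m ^ 2 / R * n) := by positivity
  have z2 : 0 ≤ 5 * M * C1 * (ε ^ 2 * (H + K) + H / R ^ 2 + n / R ^ 2) := by positivity
  have z3 : (16 * A0 + 5 * M * C1) * (ε ^ 2 + 1 / R ^ 2) * (H + K) +
      (16 * A0 + 5 * M * C1) * (1 / R ^ 2 + m ^ 2 / R) * n =
      16 * (A0 * Q) + M * (5 * C1 * (K / R ^ 2 + m ^ 2 * n / R)) + (16 * A0 * (m ^ 2 / R * n) +
      5 * M * C1 * (ε ^ 2 * (H + K) + H / R ^ 2 + n / R ^ 2)) := by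
    rw [hQ]
    ring
  rw [z3]
  exact le_add_of_nonneg_right (add_nonneg z1 z2)

/-! ### the integrated estimates -/

lemma hcard : ((Fintype.card (Fin 8 × Fin dm) : ℕ) : ℝ) = 8 * dm := by
  rw [Fintype.card_prod, Fintype.card_fin, Fintype.card_fin]
  push_cast
  ring

lemma k2_le (hA : CalcA dh dm F) (hB : CalcB dh dm F) (hFI : FIntStmt S φ)
    {N : Fin 9 → Matrix (Fin 16) (Fin 16) ℂ}
    {Y : Cfg dh} {ε0 C0 C1 : ℝ} (hO : OpFacts S φ N Y ε0) (hε0 : 0 < ε0) (hC0 : 0 ≤ C0)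
    (hbd : S.CoefBd φ Y ε0 C0) (hfib : S.FibFacts φ Y ε0 C1) (hC1 : 0 ≤ C1)
    {ε R : ℝ} (hε' : ε ≤ ε0) (hR : 0 < R) (v : Cfg dh → Wsp dm → F) (hv : Tst2 v)
    (hs : Sup2 Y ε R v) :
    (∑ k : Fin 8 × Fin dm, D2w (mw k v)) +
      R ^ 2 * ∑ l : (Fin 8 × Fin dm) × (Fin 8 × Fin dm), ns2 (mw l.1 (mw l.2 v)) ≤
    C1 * (2 * (8 * dm : ℝ) * (ε * R) ^ 2 * S.E1 φ v +
      2 * (8 * dm : ℝ) * (∑ β, CZ S φ C0 β ^ 2) * ns2 v + R * ∑ k : Fin 8 × Fin dm, ns2 (mw k v)) := by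
  have hs0 : Sup2 Y ε0 R v := sup_mono hs hR hε'
  have h : ∀ k : Fin 8 × Fin dm, D2w (mw k v) + R ^ 2 * ∑ l, ns2 (mw l (mw k v)) ≤
      C1 * (2 * (ε * R) ^ 2 * S.E1 φ v + 2 * (∑ β, CZ S φ C0 β ^ 2) * ns2 v +
        R * ns2 (mw k v)) := by
    intro k
    have h1 := (hFI Y ε0 C0 C1 hε0 hbd hfib hC1 R hR (mw k v) (t_mw hA k v hv)
      (sup_mw k hs0)).1
    rw [hB.W2_eq _ (t_mw hA k v hv)] at h1
    have h2 := E1_mw S φ hA hB hO hC0 hbd hε' hR v hv hs k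
    exact h1.trans (mul_le_mul_of_nonneg_left (add_le_add h2 le_rfl) hC1)
  have h4 := Finset.sum_le_sum fun k (_ : k ∈ (Finset.univ : Finset (Fin 8 × Fin dm))) => h k
  rw [Finset.sum_add_distrib, ← Finset.mul_sum, ← Finset.mul_sum, Finset.sum_add_distrib,
    ← Finset.mul_sum, Finset.sum_const, Finset.card_univ, nsmul_eq_mul, hcard] at h4
  have h5 : ∑ l : (Fin 8 × Fin dm) × (Fin 8 × Fin dm), ns2 (mw l.1 (mw l.2 v)) =
      ∑ k, ∑ l, ns2 (mw l (mw k v)) := by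
    rw [Fintype.sum_prod_type, Finset.sum_comm]
  rw [h5]
  refine h4.trans (le_of_eq ?_)
  ring

lemma k3_le (hA : CalcA dh dm F) (hB : CalcB dh dm F) (v : Cfg dh → Wsp dm → F) (hv : Tst2 v) :
    ∑ l : (Fin 8 × Fin dm) × (Fin 8 × Fin dm), ns2 (mw l.1 (pw l.2.1 l.2.2 v)) ≤
      2 * (∑ k : Fin 8 × Fin dm, D2w (mw k v)) + 2 * (8 * dm : ℝ) ^ 2 * ns2 v := by
  have h : ∀ k : Fin 8 × Fin dm, ∑ l : Fin 8 × Fin dm, ns2 (mw k (pw l.1 l.2 v)) ≤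
      2 * D2w (mw k v) + 2 * (8 * dm : ℝ) * ns2 v := by
    intro k
    have h1 := Finset.sum_le_sum fun l (_ : l ∈ (Finset.univ : Finset (Fin 8 × Fin dm))) =>
      pw_mw_le hA hB k v hv l.1 l.2
    rw [Finset.sum_add_distrib, ← Finset.mul_sum, Finset.sum_const, Finset.card_univ,
      nsmul_eq_mul, hcard] at h1
    have h2 : ∑ l : Fin 8 × Fin dm, ns2 (pw l.1 l.2 (mw k v)) = D2w (mw k v) := by
      unfold D2w
      rw [Fintype.sum_prod_type]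
    rw [h2] at h1
    refine h1.trans (le_of_eq ?_)
    ring
  have h4 := Finset.sum_le_sum fun k (_ : k ∈ (Finset.univ : Finset (Fin 8 × Fin dm))) => h k
  rw [Finset.sum_add_distrib, ← Finset.mul_sum, Finset.sum_const, Finset.card_univ,
    nsmul_eq_mul, hcard] at h4
  rw [Fintype.sum_prod_type]
  refine h4.trans (le_of_eq ?_)
  ring

lemma k4_le (hA : CalcA dh dm F) (hB : CalcB dh dm F)
    {N : Fin 9 → Matrix (Fin 16) (Fin 16) ℂ} {CE : ℝ} (hCE : 0 ≤ CE)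
    (hEn : ∀ m : ℝ, 0 ≤ m → m ≤ 1 → ∀ v : Cfg dh → Wsp dm → F, Tst2 v →
      ∀ L : ℝ, 0 ≤ L → (∀ y w, v y w ≠ 0 → ‖y‖ ≤ L) → D2y v ≤ CE * (S.EH φ N m v + (1 + L) * ns2 v))
    {Y : Cfg dh} {ε0 : ℝ} (hO : OpFacts S φ N Y ε0) (hε0 : 0 < ε0)
    {ε R m : ℝ} (hε' : ε ≤ ε0) (hR : 1 ≤ R) (hm : 0 ≤ m) (hm1 : m ≤ 1)
    (v : Cfg dh → Wsp dm → F) (hv : Tst2 v) (hs : Sup2 Y ε R v) :
    ∑ l : (Fin 8 × Fin dm) × (Fin 9 × Fin dh), ns2 (mw l.1 (py l.2.1 l.2.2 v)) ≤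
      CE * ((8 * dm : ℝ) * (ε * R) ^ 2 * S.EH φ N m v +
        (1 + (‖Y‖ + ε0)) * R * ∑ k : Fin 8 × Fin dm, ns2 (mw k v)) := by
  have hR0 : 0 < R := by linarith
  have hs0 : Sup2 Y ε0 R v := sup_mono hs hR0 hε'
  have h : ∀ k : Fin 8 × Fin dm, ∑ l : Fin 9 × Fin dh, ns2 (mw k (py l.1 l.2 v)) ≤
      CE * ((ε * R) ^ 2 * S.EH φ N m v + (1 + (‖Y‖ + ε0)) * R * ns2 (mw k v)) := by
    intro k
    have h1 := hEn m hm hm1 (mw k v) (t_mw hA k v hv) ((‖Y‖ + ε0) * R) (by positivity) (by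
      intro y w hne
      have h2 := (sup_mw k hs0 y w hne).1
      have h3 : ‖y‖ ≤ ‖y - R • Y‖ + ‖R • Y‖ := by
        simpa using norm_add_le (y - R • Y) (R • Y)
      rw [norm_smul, Real.norm_eq_abs, abs_of_pos hR0] at h3
      linarith)
    have h2 := EH_mw S φ hA hB hO m v hv hs k
    have h3 : D2y (mw k v) = ∑ l : Fin 9 × Fin dh, ns2 (mw k (py l.1 l.2 v)) := by
      unfold D2y
      rw [Fintype.sum_prod_type]
      refine Finset.sum_congr rfl fun i _ => Finset.sum_congr rfl fun A _ => ?_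
      rw [py_mw_fun hA k v hv i A]
    rw [← h3]
    refine h1.trans (mul_le_mul_of_nonneg_left (add_le_add h2 ?_) hCE)
    refine mul_le_mul_of_nonneg_right ?_ (hB.nonneg _)
    have e : (1 + (‖Y‖ + ε0)) * R = R + (‖Y‖ + ε0) * R := by ring
    rw [e]
    linarith
  have h4 := Finset.sum_le_sum fun k (_ : k ∈ (Finset.univ : Finset (Fin 8 × Fin dm))) => h k
  rw [← Finset.mul_sum, Finset.sum_add_distrib, Finset.sum_const,
    Finset.card_univ, nsmul_eq_mul, hcard, ← Finset.mul_sum] at h4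
  rw [Fintype.sum_prod_type]
  refine h4.trans (le_of_eq ?_)
  ring

end Vale.Agent.P353.Z.AN.Rem76

namespace Vale.Agent.P353.Z.AN

open Op687 Rem76

variable {d dh dm : ℕ} {F : Type*} [NormedAddCommGroup F] [InnerProductSpace ℂ F]

/-- C-Rem -/
theorem rem_stmt (S : Setup d F) (φ : Spl dh dm d) : CalcA dh dm F → CalcB dh dm F → OpStmt S φ →
    FIntStmt S φ → EnHStmt S φ → RemStmt S φ := by
  intro hA hB hOp hFI hEn hsub N hN Y ε0 C0 C1 hε0 hC0 hbd hfib hC1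
  obtain ⟨CE, hCE, hEn1⟩ := hEn hsub N hN
  have hO : OpFacts S φ N Y ε0 := hOp N hN.real Y ε0 C0 hε0 hbd
  have hCL0 : 0 ≤ ‖Y‖ + ε0 := by positivity
  have hCZ0 : 0 ≤ ∑ β, CZ S φ C0 β ^ 2 := Finset.sum_nonneg fun β _ => sq_nonneg _
  have hCM0 : 0 ≤ ∑ β, CM S φ N β ^ 2 := Finset.sum_nonneg fun β _ => sq_nonneg _
  have hp0 : (0 : ℝ) ≤ 8 * dm := by positivity
  have hq0 : (0 : ℝ) ≤ 9 * dh := by positivity
  obtain ⟨B1, hB1⟩ : ∃ B1 : ℝ, B1 = CE * (8 * dm : ℝ) + CE * (1 + (‖Y‖ + ε0)) * C1 := ⟨_, rfl⟩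
  obtain ⟨B0, hB0⟩ : ∃ B0 : ℝ, B0 = C1 * (2 * (8 * dm : ℝ) +
    2 * (8 * dm : ℝ) * (∑ β, CZ S φ C0 β ^ 2) + C1) := ⟨_, rfl⟩
  obtain ⟨B2, hB2⟩ : ∃ B2 : ℝ, B2 = 2 * B0 + 2 * (8 * dm : ℝ) ^ 2 := ⟨_, rfl⟩
  have hB10 : 0 ≤ B1 := by rw [hB1]; positivity
  have hB00 : 0 ≤ B0 := by rw [hB0]; positivity
  have hB20 : 0 ≤ B2 := by rw [hB2]; positivity
  refine ⟨16 * (5 * C0 ^ 2 * ((9 * dh) * B1 + (8 * dm) * B2 + 1 + B0)) +
    5 * (∑ β, CM S φ N β ^ 2) * C1, by positivity, ?_⟩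
  intro ε hε hεε R hR m hm hm1 v hv hs
  have hR0 : 0 < R := by linarith
  have hs0 : Sup2 Y ε0 R v := sup_mono hs hR0 hεε
  have hH0 : 0 ≤ S.EH φ N m v := Finset.sum_nonneg fun β _ => hB.nonneg _
  have hK0 : 0 ≤ S.E1 φ v := Finset.sum_nonneg fun β _ => hB.nonneg _
  have hn0 : 0 ≤ ns2 v := hB.nonneg _
  have hT30 : 0 ≤ ∑ k : Fin 8 × Fin dm, D2w (mw k v) := Finset.sum_nonneg fun k _ =>
    Finset.sum_nonneg fun j _ => Finset.sum_nonneg fun B _ => hB.nonneg _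
  have hT40 : 0 ≤ ∑ l : (Fin 8 × Fin dm) × (Fin 8 × Fin dm), ns2 (mw l.1 (mw l.2 v)) :=
    Finset.sum_nonneg fun k _ => hB.nonneg _
  have k1 : R ^ 2 * ∑ k : Fin 8 × Fin dm, ns2 (mw k v) ≤ C1 * (S.E1 φ v + R * ns2 v) := by
    have h := (hFI Y ε0 C0 C1 hε0 hbd hfib hC1 R hR0 v hv hs0).1
    have h0 : 0 ≤ D2w v := Finset.sum_nonneg fun j _ => Finset.sum_nonneg fun B _ => hB.nonneg _
    rw [hB.W2_eq v hv] at h
    exact (le_add_of_nonneg_left h0).trans h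
  have k2 := k2_le S φ hA hB hFI hO hε0 hC0 hbd hfib hC1 hεε hR0 v hv hs
  have k3 := k3_le hA hB v hv
  have k4 := k4_le S φ hA hB hCE hEn1 hO hε0 hεε hR hm hm1 v hv hs
  obtain ⟨c1, c2, c3, c4, c5⟩ := fin_real (ε := ε) (m := m) hH0 hK0 hn0 hT30 hT40 hR hm hm1 hCE hC1
    hCL0 hCZ0 hp0 k1 k4 k2 k3
  rw [← hB1] at c1
  rw [← hB0, ← hB2] at c2
  rw [← hB0] at c4
  exact fin_sum _ (fun β => CM S φ N β) hH0 hK0 hn0 hR0 hC1 hq0 hp0 hB10 hB20 hB00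
    (fun β => u_le S φ hA hB hO hbd hR0 hm v hv hs0 β) c1 c2 c3 c4 c5

end Vale.Agent.P353.Z.AN
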