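import Vale.Agent.P353.AN.C.StmtU
import Vale.Agent.P353.AN.B.Fib

/-! # P353, all `N`, block C: `UFibStmt` from `FibStmt`, `UGapStmt`, `UPertStmt`, `ScaleFStmt` -/

open MeasureTheory Filter Topology Matrix
open scoped ContDiff

namespace Vale.Agent.P353.Z.AN

variable {d dh dm : ℕ} {F : Type*} [NormedAddCommGroup F] [InnerProductSpace ℂ F]

/-- entries of the inverse are bounded near an invertible matrix -/
lemma ufb_inv_bdd (M : Matrix (Fin dm) (Fin dm) ℝ) (hM : M.det ≠ 0) :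
    ∃ K e : ℝ, 0 < K ∧ 0 < e ∧ ∀ M' : Matrix (Fin dm) (Fin dm) ℝ, (∀ A B, |M' A B - M A B| ≤ e) →
      M'.det ≠ 0 ∧ ∀ A B, |M'⁻¹ A B| ≤ K := by
  have hdc : Continuous fun N : Matrix (Fin dm) (Fin dm) ℝ => N.det := continuous_id.matrix_det
  have hinv : ∀ A B, ContinuousAt (fun N : Matrix (Fin dm) (Fin dm) ℝ => N⁻¹ A B) M := by
    intro A B
    have h1 : (fun N : Matrix (Fin dm) (Fin dm) ℝ => N⁻¹ A B) =
        fun N => (N.det)⁻¹ * N.adjugate A B := by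
      funext N
      rw [Matrix.inv_def, Matrix.smul_apply, Ring.inverse_eq_inv', smul_eq_mul]
    rw [h1]
    have h2 : Continuous fun N : Matrix (Fin dm) (Fin dm) ℝ => N.adjugate A B :=
      (continuous_id.matrix_adjugate).matrix_elem A B
    exact (hdc.continuousAt.inv₀ hM).mul h2.continuousAt
  set K : ℝ := 1 + ∑ A, ∑ B, |M⁻¹ A B| with hK
  have hKle : ∀ A B, |M⁻¹ A B| < K := by
    intro A B
    have h1 : |M⁻¹ A B| ≤ ∑ B, |M⁻¹ A B| :=
      Finset.single_le_sum (f := fun B => |M⁻¹ A B|) (fun _ _ => abs_nonneg _) (Finset.mem_univ B)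
    have h2 : (∑ B, |M⁻¹ A B|) ≤ ∑ A, ∑ B, |M⁻¹ A B| :=
      Finset.single_le_sum (f := fun A => ∑ B, |M⁻¹ A B|)
        (fun _ _ => Finset.sum_nonneg fun _ _ => abs_nonneg _) (Finset.mem_univ A)
    rw [hK]; linarith
  have hev : ∀ᶠ N in 𝓝 M, N.det ≠ 0 ∧ ∀ A B, |N⁻¹ A B| < K := by
    refine (hdc.continuousAt.eventually_ne hM).and ?_
    rw [eventually_all]; intro A
    rw [eventually_all]; intro B
    exact (hinv A B).abs.eventually_lt continuousAt_const (hKle A B)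
  have hev' : ∀ᶠ N : Fin dm → Fin dm → ℝ in 𝓝 (fun A B => M A B),
      (Matrix.of N).det ≠ 0 ∧ ∀ A B, |(Matrix.of N)⁻¹ A B| < K := hev
  obtain ⟨e, he, hball⟩ := Metric.eventually_nhds_iff.1 hev'
  refine ⟨K, e / 2, ?_, half_pos he, ?_⟩
  · have : 0 ≤ ∑ A, ∑ B, |M⁻¹ A B| :=
      Finset.sum_nonneg fun _ _ => Finset.sum_nonneg fun _ _ => abs_nonneg _
    rw [hK]; linarith
  · intro M' hM'
    have hd : dist (fun A B => M' A B) (fun A B => M A B) < e := by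
      refine lt_of_le_of_lt ((dist_pi_le_iff (half_pos he).le).2 fun A => ?_) (half_lt_self he)
      exact (dist_pi_le_iff (half_pos he).le).2 fun B => by
        rw [Real.dist_eq]; exact hM' A B
    obtain ⟨h1, h2⟩ := hball hd
    exact ⟨h1, fun A B => (h2 A B).le⟩

/-- a matrix with bounded entries is bounded -/
lemma ufb_mulVec (M : Matrix (Fin dm) (Fin dm) ℝ) {K : ℝ} (hM : ∀ A B, |M A B| ≤ K)
    (x : Fin dm → ℝ) : (M *ᵥ x) ⬝ᵥ (M *ᵥ x) ≤ (dm * K) ^ 2 * (x ⬝ᵥ x) := by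
  have h1 : ∀ A, (M *ᵥ x) A * (M *ᵥ x) A ≤ dm * K ^ 2 * (x ⬝ᵥ x) := by
    intro A
    have h2 : (M *ᵥ x) A * (M *ᵥ x) A = (∑ B, M A B * x B) ^ 2 := by
      rw [sq]
      rfl
    have h3 : (∑ B, M A B * x B) ^ 2 ≤ (∑ B, M A B ^ 2) * ∑ B, x B ^ 2 :=
      Finset.sum_mul_sq_le_sq_mul_sq _ _ _
    have h4 : (∑ B, M A B ^ 2) ≤ dm * K ^ 2 := by
      have h5 : (∑ B, M A B ^ 2) ≤ ∑ _B : Fin dm, K ^ 2 := by
        refine Finset.sum_le_sum fun B _ => ?_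
        rw [← sq_abs (M A B)]
        have := hM A B
        gcongr
      rw [Finset.sum_const, Finset.card_univ, Fintype.card_fin, nsmul_eq_mul] at h5
      exact h5
    have h6 : x ⬝ᵥ x = ∑ B, x B ^ 2 := by
      unfold dotProduct
      exact Finset.sum_congr rfl fun B _ => (sq _).symm
    have h7 : 0 ≤ ∑ B, x B ^ 2 := Finset.sum_nonneg fun B _ => sq_nonneg _
    rw [h2, h6]
    exact h3.trans (mul_le_mul_of_nonneg_right h4 h7)
  have h8 : (M *ᵥ x) ⬝ᵥ (M *ᵥ x) ≤ ∑ _A : Fin dm, dm * K ^ 2 * (x ⬝ᵥ x) := by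
    unfold dotProduct
    exact Finset.sum_le_sum fun A _ => h1 A
  rw [Finset.sum_const, Finset.card_univ, Fintype.card_fin, nsmul_eq_mul] at h8
  calc _ ≤ _ := h8
    _ = _ := by ring

/-- the constants `s`, `K` near a frozen point -/
lemma ufb_sK (D00 : Fin 9 → Matrix (Fin dm) (Fin dm) ℝ) (h0 : (D00 8).det ≠ 0) :
    ∃ s K e : ℝ, 0 < s ∧ 0 ≤ K ∧ 0 < e ∧ ∀ D0 : Fin 9 → Matrix (Fin dm) (Fin dm) ℝ,
      (∀ i A B, |D0 i A B - D00 i A B| ≤ e) → (D0 8).det ≠ 0 ∧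
      (∀ x : Fin dm → ℝ, s ^ 2 * (x ⬝ᵥ x) ≤ (D0 8 *ᵥ x) ⬝ᵥ (D0 8 *ᵥ x)) ∧
      (∀ (i : Fin 9) (x : Fin dm → ℝ), (tI D0 i *ᵥ x) ⬝ᵥ (tI D0 i *ᵥ x) ≤ K ^ 2 * (x ⬝ᵥ x)) := by
  obtain ⟨K1, e, hK1, he, H⟩ := ufb_inv_bdd (D00 8) h0
  set K2 : ℝ := e + ∑ i, ∑ A, ∑ B, |D00 i A B| with hK2
  have hK2' : ∀ i A B, |D00 i A B| ≤ ∑ i, ∑ A, ∑ B, |D00 i A B| := by
    intro i A B
    have h1 : |D00 i A B| ≤ ∑ B, |D00 i A B| :=
      Finset.single_le_sum (f := fun B => |D00 i A B|) (fun _ _ => abs_nonneg _) (Finset.mem_univ B)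
    have h2 : (∑ B, |D00 i A B|) ≤ ∑ A, ∑ B, |D00 i A B| :=
      Finset.single_le_sum (f := fun A => ∑ B, |D00 i A B|)
        (fun _ _ => Finset.sum_nonneg fun _ _ => abs_nonneg _) (Finset.mem_univ A)
    have h3 : (∑ A, ∑ B, |D00 i A B|) ≤ ∑ i, ∑ A, ∑ B, |D00 i A B| :=
      Finset.single_le_sum (f := fun i => ∑ A, ∑ B, |D00 i A B|)
        (fun _ _ => Finset.sum_nonneg fun _ _ => Finset.sum_nonneg fun _ _ => abs_nonneg _)
        (Finset.mem_univ i)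
    linarith
  have hK20 : 0 ≤ K2 := by
    have : 0 ≤ ∑ i, ∑ A, ∑ B, |D00 i A B| := Finset.sum_nonneg fun _ _ =>
      Finset.sum_nonneg fun _ _ => Finset.sum_nonneg fun _ _ => abs_nonneg _
    rw [hK2]; linarith
  refine ⟨(dm * K1 + 1)⁻¹, dm * (dm * (K1 * K2)), e, by positivity, by positivity, he, ?_⟩
  intro D0 hD
  obtain ⟨h1, h2⟩ := H (D0 8) fun A B => hD 8 A B
  refine ⟨h1, fun x => ?_, fun i x => ?_⟩
  · have h3 := ufb_mulVec (D0 8)⁻¹ h2 (D0 8 *ᵥ x)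
    rw [mulVec_mulVec, nonsing_inv_mul _ (isUnit_iff_ne_zero.2 h1), one_mulVec] at h3
    have h4 : 0 ≤ (D0 8 *ᵥ x) ⬝ᵥ (D0 8 *ᵥ x) := Finset.sum_nonneg fun A _ => mul_self_nonneg _
    have h5 : (dm * K1) ^ 2 * ((D0 8 *ᵥ x) ⬝ᵥ (D0 8 *ᵥ x)) ≤
        (dm * K1 + 1) ^ 2 * ((D0 8 *ᵥ x) ⬝ᵥ (D0 8 *ᵥ x)) := by
      refine mul_le_mul_of_nonneg_right ?_ h4
      have : (0 : ℝ) ≤ dm * K1 := by positivity
      nlinarith
    have h6 : (0 : ℝ) < dm * K1 + 1 := by positivity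
    rw [inv_pow, inv_mul_le_iff₀ (by positivity)]
    exact h3.trans h5
  · refine ufb_mulVec _ (fun A B => ?_) x
    unfold tI
    rw [Matrix.mul_apply]
    have h3 : ∀ C, |(D0 8)⁻¹ A C * D0 i C B| ≤ K1 * K2 := by
      intro C
      rw [abs_mul]
      have h4 : |D0 i C B| ≤ K2 := by
        have a1 := abs_sub_abs_le_abs_sub (D0 i C B) (D00 i C B)
        have a2 := hD i C B
        have a3 := hK2' i C B
        rw [hK2]; linarith
      exact mul_le_mul (h2 A C) h4 (abs_nonneg _) hK1.le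
    refine (Finset.abs_sum_le_sum_abs _ _).trans ?_
    have h5 : ∑ C, |(D0 8)⁻¹ A C * D0 i C B| ≤ ∑ _C : Fin dm, K1 * K2 :=
      Finset.sum_le_sum fun C _ => h3 C
    rw [Finset.sum_const, Finset.card_univ, Fintype.card_fin, nsmul_eq_mul] at h5
    exact h5

/-- the statement at scale `1` -/
lemma ufb_one (S : Setup d F) (φ : Spl dh dm d) (hFib : FibStmt S φ) (hG : UGapStmt S φ)
    (hP : UPertStmt S φ) (hF : FiniteDimensional ℂ F)
    (D00 : Fin 9 → Matrix (Fin dm) (Fin dm) ℝ) (Om00 : Matrix (Fin dm) (Fin dm) ℝ) (hD00 : Frz D00)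
    (hO00 : IsOm S.κ D00 Om00) :
    ∃ C δ : ℝ, 0 < C ∧ 0 < δ ∧ ∀ (D0 : Fin 9 → Matrix (Fin dm) (Fin dm) ℝ)
    (Om : Matrix (Fin dm) (Fin dm) ℝ), Frz D0 → IsOm S.κ D0 Om →
    (∀ i A B, |D0 i A B - D00 i A B| ≤ δ) → ∀ ε : ℝ, 0 ≤ ε → ε ≤ δ →
    ∀ D : Fin 9 → Matrix (Fin dm) (Fin dm) ℝ, (∀ i A B, |D i A B - D0 i A B| ≤ ε) →
      (D 8).det ≠ 0 ∧ ∀ h : Wsp dm → F, FT h →
      ((∑ j, ∑ B, nsf (pf j B h)) + nsf (fun w => ((‖w‖ : ℝ) : ℂ) • h w) ≤
        C * (S.e1 φ D h + nsf h)) ∧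
      (nsf (fun w => h w - S.PR φ D0 Om 1 h w) ≤ C * (S.e1 φ D h + ε ^ 2 * nsf h)) ∧
      (∀ β, nsf (fun w => S.q1 φ D β h w - S.q1 φ D0 β h w) ≤ C * ε ^ 2 * (S.e1 φ D h + nsf h)) := by
  obtain ⟨c0, C1, ε1, hc0, hC1, hε1, HF⟩ := hFib hF D00 Om00 hD00 hO00
  obtain ⟨s, K, e, hs, hK, he, HsK⟩ := ufb_sK D00 hD00.inv
  obtain ⟨cG, hcG, HG⟩ := hG hF s K hs hK
  obtain ⟨CP, δP, hCP, hδP, HP⟩ := hP D00 hD00.inv
  set δ : ℝ := min 1 (min (ε1 / 2) (min e (δP / 2))) with hδ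
  have hδ0 : 0 < δ := by positivity
  have hd1 : δ ≤ 1 := min_le_left _ _
  have hd2 : δ ≤ ε1 / 2 := (min_le_right _ _).trans (min_le_left _ _)
  have hd3 : δ ≤ e := (min_le_right _ _).trans ((min_le_right _ _).trans (min_le_left _ _))
  have hd4 : δ ≤ δP / 2 := (min_le_right _ _).trans ((min_le_right _ _).trans (min_le_right _ _))
  set C : ℝ := C1 + CP * C1 + (2 + 2 * (CP * C1)) / cG with hCdef
  have hC0 : 0 < C := by positivity
  refine ⟨C, δ, hC0, hδ0, ?_⟩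
  intro D0 Om hD0 hOm hDD0 ε hε hεδ D hDD
  have hD00' : ∀ i A B, |D i A B - D00 i A B| ≤ 2 * δ := by
    intro i A B
    have h1 : D i A B - D00 i A B = (D i A B - D0 i A B) + (D0 i A B - D00 i A B) := by ring
    rw [h1]
    refine (abs_add_le _ _).trans ?_
    have h2 := hDD i A B
    have h3 := hDD0 i A B
    linarith
  obtain ⟨hdet, H1⟩ := HF 1 one_pos ε1 hε1.le le_rfl D fun i A B => by
    have := hD00' i A B
    rw [one_mul, mul_one]
    linarith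
  obtain ⟨hdet0, hsx, hKx⟩ := HsK D0 fun i A B => (hDD0 i A B).trans hd3
  have HG' := HG D0 Om hD0 hOm hsx hKx
  obtain ⟨-, HP'⟩ := HP D0 D (fun i A B => by have := hDD0 i A B; linarith)
    (fun i A B => by have := hD00' i A B; linarith)
  refine ⟨hdet, fun h hh => ?_⟩
  have hp := HP' ε hε hDD h hh
  have hx := (H1 h hh).1
  set X : ℝ := (∑ j, ∑ B, nsf (pf j B h)) + nsf (fun w => ((‖w‖ : ℝ) : ℂ) • h w) with hX
  have hX1 : X ≤ C1 * (S.e1 φ D h + nsf h) := by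
    rw [one_pow, one_mul, one_mul] at hx
    exact hx
  have hX0 : 0 ≤ X := by
    refine add_nonneg (Finset.sum_nonneg fun j _ => Finset.sum_nonneg fun B _ => ?_) ?_
    · exact fib_nsf_nonneg _
    · exact fib_nsf_nonneg _
  have hN0 : 0 ≤ nsf h := fib_nsf_nonneg h
  have hE0 : 0 ≤ S.e1 φ D h := by
    unfold Setup.e1
    exact mul_nonneg (by norm_num) (Finset.sum_nonneg fun β _ => fib_nsf_nonneg _)
  have hcomp : S.e1 φ D0 h ≤ 2 * S.e1 φ D h + 2 * (CP * ε ^ 2 * X) := by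
    have hβ : ∀ β : Fin 16, nsf (S.q1 φ D0 β h) ≤ 2 * nsf (S.q1 φ D β h) + 2 * (CP * ε ^ 2 * X) := by
      intro β
      refine (fib_nsf_two (fib_q1_cont S φ D0 β hh) (fib_q1_supp S φ D0 β hh)
        (fib_q1_cont S φ D β hh) (fib_q1_supp S φ D β hh)).trans ?_
      have := hp β
      linarith
    unfold Setup.e1
    have hs : ∑ β, nsf (S.q1 φ D0 β h) ≤ ∑ β : Fin 16, (2 * nsf (S.q1 φ D β h) + 2 * (CP * ε ^ 2 * X)) :=
      Finset.sum_le_sum fun β _ => hβ β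
    rw [Finset.sum_add_distrib, ← Finset.mul_sum, Finset.sum_const, Finset.card_univ,
      Fintype.card_fin, nsmul_eq_mul] at hs
    push_cast at hs
    linarith
  have hε2 : 0 ≤ ε ^ 2 := by positivity
  have hε1' : ε ^ 2 ≤ 1 := by
    have : ε ≤ 1 := hεδ.trans hd1
    nlinarith
  have hb : CP * ε ^ 2 * X ≤ CP * C1 * ε ^ 2 * (S.e1 φ D h + nsf h) := by
    have : CP * ε ^ 2 * X ≤ CP * ε ^ 2 * (C1 * (S.e1 φ D h + nsf h)) := by gcongr
    linarith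
  have hC1C : C1 ≤ C := by
    have h1 : 0 ≤ CP * C1 := by positivity
    have h2 : 0 ≤ (2 + 2 * (CP * C1)) / cG := by positivity
    rw [hCdef]; linarith
  have hC2C : CP * C1 ≤ C := by
    have h2 : 0 ≤ (2 + 2 * (CP * C1)) / cG := by positivity
    rw [hCdef]; linarith
  have hC3C : (2 + 2 * (CP * C1)) / cG ≤ C := by
    have h1 : 0 ≤ CP * C1 := by positivity
    rw [hCdef]; linarith
  refine ⟨?_, ?_, ?_⟩
  · exact hX1.trans (mul_le_mul_of_nonneg_right hC1C (by positivity))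
  · have b1 := HG' h hh
    have b2 : CP * C1 * ε ^ 2 * S.e1 φ D h ≤ CP * C1 * 1 * S.e1 φ D h := by gcongr
    have b3 : cG * nsf (fun w => h w - S.PR φ D0 Om 1 h w) ≤
        (2 + 2 * (CP * C1)) * (S.e1 φ D h + ε ^ 2 * nsf h) := by
      have b4 : 0 ≤ ε ^ 2 * nsf h := by positivity
      nlinarith
    have b5 : nsf (fun w => h w - S.PR φ D0 Om 1 h w) ≤
        (2 + 2 * (CP * C1)) / cG * (S.e1 φ D h + ε ^ 2 * nsf h) := by
      rw [div_mul_eq_mul_div, le_div_iff₀ hcG]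
      linarith
    exact b5.trans (mul_le_mul_of_nonneg_right hC3C (by positivity))
  · intro β
    refine (hp β).trans (hb.trans ?_)
    have b4 : 0 ≤ ε ^ 2 * (S.e1 φ D h + nsf h) := by positivity
    have b5 := mul_le_mul_of_nonneg_right hC2C b4
    linarith

theorem uFib_stmt (S : Setup d F) (φ : Spl dh dm d) : AlgStmt → ScaleFStmt S φ → FibStmt S φ →
    UGapStmt S φ → UPertStmt S φ → UFibStmt S φ := by
  intro _ hS hFib hG hP hF D00 Om00 hD00 hO00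
  obtain ⟨C, δ, hC0, hδ0, H⟩ := ufb_one S φ hFib hG hP hF D00 Om00 hD00 hO00
  refine ⟨C, δ, hC0, hδ0, ?_⟩
  intro D0 Om hD hO hDD0 R hR ε hε hεδ D hDD
  set D' : Fin 9 → Matrix (Fin dm) (Fin dm) ℝ := fun i => R⁻¹ • D i with hD'
  have hRD : (fun i => R • D' i) = D := by
    funext i
    rw [hD']
    simp only
    rw [smul_smul, mul_inv_cancel₀ hR.ne', one_smul]
  have hD'0 : ∀ i A B, |D' i A B - D0 i A B| ≤ ε := by
    intro i A B
    have h1 : D' i A B - D0 i A B = R⁻¹ * (D i A B - R * D0 i A B) := by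
      rw [hD']
      simp only [Matrix.smul_apply, smul_eq_mul]
      field_simp
    rw [h1, abs_mul, abs_of_pos (inv_pos.2 hR)]
    calc R⁻¹ * |D i A B - R * D0 i A B| ≤ R⁻¹ * (ε * R) := by
          gcongr
          exact hDD i A B
      _ = ε := by field_simp
  obtain ⟨hdet, H'⟩ := H D0 Om hD hO hDD0 ε hε hεδ D' hD'0
  refine ⟨?_, ?_⟩
  · intro h0
    apply hdet
    show (R⁻¹ • D 8).det = 0
    rw [Matrix.det_smul, h0, mul_zero]
  intro f hf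
  set r : ℝ := Real.sqrt R with hr
  have hr0 : 0 < r := Real.sqrt_pos.2 hR
  have hr2 : r ^ 2 = R := Real.sq_sqrt hR.le
  set h : Wsp dm → F := fun w => f (r⁻¹ • w) with hh
  have hfh : ∀ w, f w = h (r • w) := by
    intro w
    rw [hh]
    simp only
    rw [smul_smul, inv_mul_cancel₀ hr0.ne', one_smul]
  obtain ⟨s1, s2, s3, s4, s5, s6, s7⟩ := hS hF D' D0 Om R hR f h hf hfh
  obtain ⟨t1, t2, t3⟩ := H' h s1
  rw [hRD] at s5
  set s : ℝ := (r ^ (8 * dm))⁻¹ with hs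
  have hs0 : 0 < s := by positivity
  have hq : ∀ β, nsf (S.q1 φ D β f) = s * (R * nsf (S.q1 φ D' β h)) := by
    intro β
    have e1 : S.q1 φ D β f = fun w => (fun v => ((r : ℝ) : ℂ) • S.q1 φ D' β h v) (r • w) := by
      funext w
      exact s5 β w
    refine (congrArg nsf e1).trans
      ((fib_nsf_comp (fun v => ((r : ℝ) : ℂ) • S.q1 φ D' β h v) hr0).trans ?_)
    rw [fib_nsf_smul, Complex.norm_real, Real.norm_of_nonneg hr0.le, hr2]
  have he : S.e1 φ D f = s * R * S.e1 φ D' h := by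
    unfold Setup.e1
    simp only [hq, ← Finset.mul_sum]
    ring
  refine ⟨?_, ?_, ?_⟩
  · simp only [s3, s4, s2, ← Finset.mul_sum]
    rw [he]
    have k := mul_le_mul_of_nonneg_left t1 (mul_pos hs0 hR).le
    have k2 : R ^ 2 * (s * (R⁻¹ * nsf (fun w => ((‖w‖ : ℝ) : ℂ) • h w))) =
        s * R * nsf (fun w => ((‖w‖ : ℝ) : ℂ) • h w) := by
      field_simp
    rw [k2]
    calc _ = s * R * ((∑ j, ∑ B, nsf (pf j B h)) + nsf (fun w => ((‖w‖ : ℝ) : ℂ) • h w)) := by ring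
      _ ≤ _ := k
      _ = _ := by ring
  · have e1 : (fun w => f w - S.PR φ D0 Om R f w) =
        fun w => (fun v => h v - S.PR φ D0 Om 1 h v) (r • w) := by
      funext w
      simp only
      rw [s6 w, hfh w]
    have e2 := (congrArg nsf e1).trans
      (fib_nsf_comp (fun v => h v - S.PR φ D0 Om 1 h v) hr0)
    rw [e2, he, s2]
    have k := mul_le_mul_of_nonneg_left t2 (mul_pos hs0 hR).le
    calc _ = s * R * nsf (fun v => h v - S.PR φ D0 Om 1 h v) := by ring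
      _ ≤ _ := k
      _ = _ := by ring
  · intro β
    obtain ⟨u1, u2, u3, u4, u5, u6, u7⟩ := hS hF D0 D0 Om R hR f h hf hfh
    have e1 : (fun w => S.q1 φ D β f w - S.q1 φ (fun i => R • D0 i) β f w) =
        fun w => (fun v => ((r : ℝ) : ℂ) • (S.q1 φ D' β h v - S.q1 φ D0 β h v)) (r • w) := by
      funext w
      simp only
      rw [s5 β w, u5 β w, smul_sub]
    have e2 := (congrArg nsf e1).trans
      (fib_nsf_comp (fun v => ((r : ℝ) : ℂ) • (S.q1 φ D' β h v - S.q1 φ D0 β h v)) hr0)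
    rw [e2, fib_nsf_smul, Complex.norm_real, Real.norm_of_nonneg hr0.le, hr2, he, s2]
    have k := mul_le_mul_of_nonneg_left (t3 β) (mul_pos hs0 hR).le
    calc _ = s * R * nsf (fun v => S.q1 φ D' β h v - S.q1 φ D0 β h v) := by ring
      _ ≤ _ := k
      _ = _ := by ring

end Vale.Agent.P353.Z.AN
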