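import Vale.Agent.P353.AN.C.StmtU
import Vale.Agent.P353.AN.B.Gap

/-! # P353, all `N`, block C: the gap at the frozen point with a uniform constant (`C-U4`) -/

set_option linter.all false

open MeasureTheory Filter Topology Matrix
open scoped ContDiff

namespace Vale.Agent.P353.Z.AN

variable {d dh dm : ℕ} {F : Type*} [NormedAddCommGroup F] [InnerProductSpace ℂ F]

theorem uGap_stmt (S : Setup d F) (φ : Spl dh dm d) : AlgStmt → QFStmt → EnFStmt S φ →
    UPoiStmt dm F → ULamStmt S φ → UOmStmt → UGapStmt S φ := by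
  intro _ hQF hEn hPoi hLam hUOm hfd s K hs hK
  obtain ⟨c1, hc1, hP0⟩ := hPoi
  have hκ := S.κ_pos
  set cM : ℝ := S.κ * s / (2 + 16 * K ^ 2) with hcMdef
  have hcM : 0 < cM := by positivity
  have hc1M : 0 < c1 * cM := by positivity
  have hc2 : 0 < S.κ * s := by positivity
  refine ⟨min (c1 * cM / 2) (S.κ * s), lt_min (by linarith) hc2, ?_⟩
  intro D Om hF hOm hs8 hKT f hf
  obtain ⟨hOmlow, hqlow⟩ := hUOm dm S.κ D Om hκ hF hOm s K hs hK hs8 hKT
  obtain ⟨M, hsym, hqf, hent, -⟩ := hQF dm S.κ D Om hκ hF hOm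
  have hpos : ∀ w, cM * ‖w‖ ^ 2 ≤ inner ℝ w (M w) := by
    intro w
    rw [← hqf]
    exact hqlow w
  have hP := hP0 M hsym cM hcM hpos
  have hL := hLam hfd D Om hF hOm (S.κ * s) hc2 hOmlow
  set K' := S.F0 φ D Om with hK'
  set Z : ℝ := ∫ w' : Wsp dm, Real.exp (-(1 / 2) * inner ℝ w' (M w')) ^ 2 with hZ
  set v : F := ∫ w', ((Real.exp (-(1 / 2) * inner ℝ w' (M w')) : ℝ) : ℂ) • f w' with hv
  have hg : ∀ w : Wsp dm, gR D Om 1 w = Real.exp (-(1 / 2) * inner ℝ w (M w)) := by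
    intro w
    unfold gR
    rw [hqf]
  have hPR : ∀ w, S.PR φ D Om 1 f w =
      K'.starProjection (((Real.exp (-(1 / 2) * inner ℝ w (M w)) / Z : ℝ) : ℂ) • v) := by
    intro w
    unfold Setup.PR
    simp only [hg]
    rw [map_smul]
  -- the two pieces
  have hI1 : Integrable (fun w => ‖f w - K'.starProjection (f w)‖ ^ 2) :=
    gapF_intf hf (φ := fun x => ‖x - K'.starProjection x‖ ^ 2) (by fun_prop) (by simp)
  have hI2 : Integrable (fun w : Wsp dm =>
      ‖f w - ((Real.exp (-(1 / 2) * inner ℝ w (M w)) / Z : ℝ) : ℂ) • v‖ ^ 2) :=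
    gapF_int2 M hcM hpos hf Z v
  have hA : nsf (fun w => f w - S.PR φ D Om 1 f w) ≤
      (∫ w, ‖f w - K'.starProjection (f w)‖ ^ 2) +
        ∫ w : Wsp dm, ‖f w - ((Real.exp (-(1 / 2) * inner ℝ w (M w)) / Z : ℝ) : ℂ) • v‖ ^ 2 := by
    rw [← integral_add hI1 hI2]
    unfold nsf
    refine integral_mono_of_nonneg (Eventually.of_forall fun w => by positivity) (hI1.add hI2)
      (Eventually.of_forall fun w => ?_)
    simp only [hPR]
    exact gapF_split K' _ _
  -- bosonic piece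
  have hB : c1 * cM * (∫ w : Wsp dm,
      ‖f w - ((Real.exp (-(1 / 2) * inner ℝ w (M w)) / Z : ℝ) : ℂ) • v‖ ^ 2) ≤
      ∑ i, ∑ B, nsf (fun w => dd D i B f w + (((Om *ᵥ VV D w i) B : ℝ) : ℂ) • f w) := by
    refine (hP f hf).trans ?_
    rw [Fin.sum_univ_castSucc (fun i : Fin 9 =>
      ∑ B, nsf (fun w => dd D i B f w + (((Om *ᵥ VV D w i) B : ℝ) : ℂ) • f w))]
    have h1 : ∀ j : Fin 8, ∀ B : Fin dm,
        nsf (fun w => pf j B f w + ((M w (j, B) : ℝ) : ℂ) • f w) =
        nsf (fun w => dd D j.castSucc B f w +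
          (((Om *ᵥ VV D w j.castSucc) B : ℝ) : ℂ) • f w) := by
      intro j B
      congr 1
      funext w
      rw [hent]
      unfold dd
      rw [Fin.lastCases_castSucc]
    simp only [h1]
    have h2 : 0 ≤ ∑ B, nsf (fun w => dd D (Fin.last 8) B f w +
        (((Om *ᵥ VV D w (Fin.last 8)) B : ℝ) : ℂ) • f w) :=
      Finset.sum_nonneg fun B _ => integral_nonneg fun w => by positivity
    linarith
  -- fermionic piece
  have hC : S.κ * s * (∫ w, ‖f w - K'.starProjection (f w)‖ ^ 2) ≤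
      (∫ w, inner ℂ (f w) (S.NF φ D Om (f w))).re := by
    have hI3 : Integrable (fun w => (inner ℂ (f w) (S.NF φ D Om (f w)) : ℂ)) :=
      gapF_intf hf (φ := fun x => (inner ℂ x (S.NF φ D Om x) : ℂ)) (by fun_prop) (by simp)
    have h1 : (∫ w, inner ℂ (f w) (S.NF φ D Om (f w))).re =
        ∫ w, (inner ℂ (f w) (S.NF φ D Om (f w)) : ℂ).re := by
      have := integral_re hI3
      exact this.symm
    rw [h1, ← integral_const_mul]
    refine integral_mono (hI1.const_mul (S.κ * s)) hI3.re fun w => ?_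
    obtain ⟨v0, hv0, horth, hle⟩ := hL (f w)
    have h2 : K'.starProjection (f w) = v0 := by
      refine Submodule.eq_starProjection_of_mem_of_inner_eq_zero hv0 fun u hu => ?_
      rw [← inner_conj_symm, horth u hu, map_zero]
    show S.κ * s * ‖f w - K'.starProjection (f w)‖ ^ 2 ≤ _
    rw [h2]
    exact hle
  rw [hEn D Om hF hOm f hf]
  have hn1 : 0 ≤ ∫ w, ‖f w - K'.starProjection (f w)‖ ^ 2 :=
    integral_nonneg fun w => by positivity
  have hn2 : 0 ≤ ∫ w : Wsp dm,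
      ‖f w - ((Real.exp (-(1 / 2) * inner ℝ w (M w)) / Z : ℝ) : ℂ) • v‖ ^ 2 :=
    integral_nonneg fun w => by positivity
  have hm1 := min_le_left (c1 * cM / 2) (S.κ * s)
  have hm2 := min_le_right (c1 * cM / 2) (S.κ * s)
  have hm0 : 0 < min (c1 * cM / 2) (S.κ * s) := lt_min (by linarith) hc2
  have h5 := mul_le_mul_of_nonneg_left hA hm0.le
  have h6 := mul_le_mul_of_nonneg_right hm1 hn2
  have h7 := mul_le_mul_of_nonneg_right hm2 hn1
  rw [mul_add] at h5
  linarith

end Vale.Agent.P353.Z.AN
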