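import Vale.Agent.P353.AN.C.StmtU
import Vale.Agent.P353.AN.B.Lam

/-! # P353, all `N`, block C-U2: the gap of the fermionic energy is at least `λ_min(Ω)` -/

open MeasureTheory Filter Topology Matrix Kronecker
open scoped ContDiff

namespace Vale.Agent.P353.Z.AN

variable {d dh dm : ℕ} {F : Type*} [NormedAddCommGroup F] [InnerProductSpace ℂ F]

namespace ULamPf

open LamPf

/-- quadratic forms of vectors of `F` from real quadratic forms -/
lemma ul_quad [FiniteDimensional ℂ F] (Om : Matrix (Fin dm) (Fin dm) ℝ) {c : ℝ}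
    (hc : ∀ x : Fin dm → ℝ, c * (x ⬝ᵥ x) ≤ x ⬝ᵥ (Om *ᵥ x)) (t : Fin dm → F) :
    c * ∑ B, ‖t B‖ ^ 2 ≤ (∑ B, ∑ E, ((Om B E : ℝ) : ℂ) * inner ℂ (t B) (t E)).re := by
  set b := stdOrthonormalBasis ℂ F with hb
  set x : Fin (Module.finrank ℂ F) → Fin dm → ℝ := fun k B => (inner ℂ (b k) (t B)).re with hx
  set y : Fin (Module.finrank ℂ F) → Fin dm → ℝ := fun k B => (inner ℂ (b k) (t B)).im with hy
  have h1 : ∀ B E, (inner ℂ (t B) (t E)).re = ∑ k, (x k B * x k E + y k B * y k E) := by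
    intro B E
    rw [← b.sum_inner_mul_inner (t B) (t E), Complex.re_sum]
    refine Finset.sum_congr rfl fun k _ => ?_
    rw [← inner_conj_symm (t B) (b k), Complex.mul_re, Complex.conj_re, Complex.conj_im]
    ring
  have h2 : (∑ B, ∑ E, ((Om B E : ℝ) : ℂ) * inner ℂ (t B) (t E)).re =
      ∑ k, (x k ⬝ᵥ (Om *ᵥ x k) + y k ⬝ᵥ (Om *ᵥ y k)) := by
    have h3 : ∀ k, x k ⬝ᵥ (Om *ᵥ x k) + y k ⬝ᵥ (Om *ᵥ y k) =
        ∑ B, ∑ E, Om B E * (x k B * x k E + y k B * y k E) := by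
      intro k
      simp only [dotProduct, mulVec, Finset.mul_sum, ← Finset.sum_add_distrib]
      refine Finset.sum_congr rfl fun B _ => Finset.sum_congr rfl fun E _ => ?_
      ring
    simp only [h3, Complex.re_sum, Complex.re_ofReal_mul, h1, Finset.mul_sum]
    rw [Finset.sum_comm]
    conv_rhs => rw [Finset.sum_comm]
    rw [Finset.sum_comm]
    refine Finset.sum_congr rfl fun B _ => ?_
    rw [Finset.sum_comm]
  have h4 : ∑ B, ‖t B‖ ^ 2 = ∑ k, (x k ⬝ᵥ x k + y k ⬝ᵥ y k) := by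
    have h5 : ∀ B, ‖t B‖ ^ 2 = ∑ k, (x k B * x k B + y k B * y k B) := by
      intro B
      rw [← h1 B B, inner_self_eq_norm_sq_to_K]
      norm_cast
    simp only [h5, dotProduct, ← Finset.sum_add_distrib]
    rw [Finset.sum_comm]
  rw [h2, h4, Finset.mul_sum]
  refine Finset.sum_le_sum fun k _ => ?_
  rw [mul_add]
  exact add_le_add (hc _) (hc _)

variable (S : Setup d F) (φ : Spl dh dm d) (D : Fin 9 → Matrix (Fin dm) (Fin dm) ℝ)
  (Om : Matrix (Fin dm) (Fin dm) ℝ)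

/-- the off-diagonal fermions -/
noncomputable def tt (p : Fin 16 × Fin dm) : F →L[ℂ] F := S.th p.1 (φ (Sum.inr p.2))

lemma tt_anti (p q : Fin 16 × Fin dm) :
    tt S φ p * tt S φ q + tt S φ q * tt S φ p = if p = q then 1 else 0 := by
  rw [tt, tt, S.th_anti]
  simp only [EmbeddingLike.apply_eq_iff_eq, Sum.inr.injEq, Prod.ext_iff]

lemma Tm_eq (A : Matrix (Fin 16 × Fin dm) (Fin 16 × Fin dm) ℂ) (r : Fin 16 × Fin dm) :
    Tm S φ A r = ∑ q, A r q • tt S φ q := rfl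

/-- `{(Aθ)_r, θ_p} = A_rp` -/
lemma Tm_tt (A : Matrix (Fin 16 × Fin dm) (Fin 16 × Fin dm) ℂ) (r p : Fin 16 × Fin dm) :
    Tm S φ A r * tt S φ p + tt S φ p * Tm S φ A r = A r p • (1 : F →L[ℂ] F) := by
  rw [Tm_eq, Finset.sum_mul, Finset.mul_sum, ← Finset.sum_add_distrib]
  have h1 : ∀ q, A r q • tt S φ q * tt S φ p + tt S φ p * A r q • tt S φ q =
      if q = p then A r p • (1 : F →L[ℂ] F) else 0 := by
    intro q
    rw [smul_mul_assoc, mul_smul_comm, ← smul_add, tt_anti]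
    split_ifs with h
    · rw [h]
    · rw [smul_zero]
  simp only [h1, Finset.sum_ite_eq', Finset.mem_univ, if_true]

/-- `{(Aθ)_r, (Bθ)_p} = (A Bᵀ)_rp` -/
lemma Tm_Tm (A B : Matrix (Fin 16 × Fin dm) (Fin 16 × Fin dm) ℂ) (r p : Fin 16 × Fin dm) :
    Tm S φ A r * Tm S φ B p + Tm S φ B p * Tm S φ A r = (A * Bᵀ) r p • (1 : F →L[ℂ] F) := by
  rw [Tm_eq S φ B, Finset.sum_mul, Finset.mul_sum, ← Finset.sum_add_distrib, mul_apply, Finset.sum_smul]
  refine Finset.sum_congr rfl fun q _ => ?_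
  rw [smul_mul_assoc, mul_smul_comm, ← smul_add, Tm_tt, smul_smul, transpose_apply, mul_comm]

lemma Tm_mul (A B : Matrix (Fin 16 × Fin dm) (Fin 16 × Fin dm) ℂ) (r : Fin 16 × Fin dm) :
    Tm S φ (A * B) r = ∑ p, A r p • Tm S φ B p := by
  simp only [Tm_eq, Finset.smul_sum, smul_smul, mul_apply, Finset.sum_smul]
  rw [Finset.sum_comm]

lemma NF_eq : S.NF φ D Om = ∑ p, tt S φ p * Tm S φ (S.Lam D Om) p := rfl

/-- commutation of `(Aθ)_r` with `N` -/
lemma Tm_NF (A : Matrix (Fin 16 × Fin dm) (Fin 16 × Fin dm) ℂ) (r : Fin 16 × Fin dm) :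
    Tm S φ A r * S.NF φ D Om = S.NF φ D Om * Tm S φ A r + Tm S φ (A * S.Lam D Om) r -
      Tm S φ (A * (S.Lam D Om)ᵀ) r := by
  set L := S.Lam D Om with hL
  have h1 : ∀ p, Tm S φ A r * (tt S φ p * Tm S φ L p) =
      A r p • Tm S φ L p - (A * Lᵀ) r p • tt S φ p + tt S φ p * Tm S φ L p * Tm S φ A r := by
    intro p
    have e1 := Tm_tt S φ A r p
    have e2 := Tm_Tm S φ A L r p
    have e3 : Tm S φ A r * tt S φ p = A r p • (1 : F →L[ℂ] F) - tt S φ p * Tm S φ A r :=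
      eq_sub_of_add_eq e1
    have e4 : Tm S φ A r * Tm S φ L p = (A * Lᵀ) r p • (1 : F →L[ℂ] F) - Tm S φ L p * Tm S φ A r :=
      eq_sub_of_add_eq e2
    rw [← mul_assoc, e3, sub_mul, smul_mul_assoc, one_mul, mul_assoc (tt S φ p), e4, mul_sub,
      mul_smul_comm, mul_one, mul_assoc]
    abel
  have h2 : Tm S φ A r * S.NF φ D Om = ∑ p, (A r p • Tm S φ L p - (A * Lᵀ) r p • tt S φ p +
      tt S φ p * Tm S φ L p * Tm S φ A r) := by
    rw [NF_eq, Finset.mul_sum]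
    exact Finset.sum_congr rfl fun p _ => h1 p
  have h3 : S.NF φ D Om * Tm S φ A r = ∑ p, tt S φ p * Tm S φ L p * Tm S φ A r := by
    rw [NF_eq, Finset.sum_mul]
  rw [h2, h3, Tm_mul S φ A L, Tm_eq S φ (A * Lᵀ), Finset.sum_add_distrib, Finset.sum_sub_distrib]
  abel

lemma PP_tr (hD : ∀ i, (D i)ᵀ = -D i) : (S.PP D)ᵀ = -S.PP D := by
  ext p q
  have h3 : ∀ i, ((S.g i q.1 p.1 : ℂ)) * ((D i q.2 p.2 : ℝ) : ℂ) =
      -(((S.g i p.1 q.1 : ℂ)) * ((D i p.2 q.2 : ℝ) : ℂ)) := by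
    intro i
    have h1 : S.g i q.1 p.1 = S.g i p.1 q.1 := congrFun (congrFun (S.g_symm i) p.1) q.1
    have h2 : D i q.2 p.2 = -D i p.2 q.2 := congrFun (congrFun (hD i) p.2) q.2
    rw [h1, h2]
    push_cast
    ring
  simp only [transpose_apply, Setup.PP, of_apply, Matrix.neg_apply, h3, Finset.sum_neg_distrib, mul_neg]

lemma l1_tr (M : Matrix (Fin dm) (Fin dm) ℝ) (hM : Mᵀ = M) : (l1 M)ᵀ = l1 M := by
  ext p q
  have h2 : M q.2 p.2 = M p.2 q.2 := congrFun (congrFun hM p.2) q.2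
  simp only [transpose_apply, l1, lc, kroneckerMap_apply, map_apply, one_apply, h2, eq_comm]

lemma Lam_tr (hD : ∀ i, (D i)ᵀ = -D i) (hO : Omᵀ = Om) :
    (S.Lam D Om)ᵀ = (1 / 2 : ℂ) • (l1 Om + Complex.I • S.PP D) := by
  rw [Lam_eq, transpose_smul, transpose_sub, transpose_smul, PP_tr S D hD, l1_tr _ hO, smul_neg,
    sub_neg_eq_add]

lemma Lam_Lam_tr (hD : Frz D) (hO : IsOm S.κ D Om) (hOD : ∀ i, D i * Om = Om * D i) :
    S.Lam D Om * (S.Lam D Om)ᵀ = 0 := by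
  have h1 : S.PP D * S.PP D = -(l1 Om * l1 Om) := by
    rw [PP_sq S D hD.comm, l1_mul, hO.sq]
    ext p q
    simp [l1, lc, kroneckerMap_apply]
  have h2 := l1_PP S D Om hOD
  rw [Lam_tr S D Om hD.anti hO.symm, Lam_eq, smul_mul_smul_comm]
  have h3 : (l1 Om - Complex.I • S.PP D) * (l1 Om + Complex.I • S.PP D) = 0 := by
    rw [sub_mul, mul_add, mul_add, smul_mul_smul_comm, h1, smul_mul_assoc, mul_smul_comm, ← h2,
      Complex.I_mul_I, neg_one_smul, neg_neg]
    abel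
  rw [h3, smul_zero]

/-- polarised form of `inner_NF` -/
lemma inner_NF2 (Y : Matrix (Fin 16 × Fin dm) (Fin 16 × Fin dm) ℂ) (hY : Yᴴ = Y)
    (hYY : Y * Y = S.Lam D Om) (w v : F) :
    inner ℂ w (S.NF φ D Om v) = ∑ r, inner ℂ (Tm S φ Y r w) (Tm S φ Y r v) := by
  set θ : Fin 16 × Fin dm → F := fun p => S.th p.1 (φ (Sum.inr p.2)) v with hθ
  set η : Fin 16 × Fin dm → F := fun p => S.th p.1 (φ (Sum.inr p.2)) w with hη
  have h1 : inner ℂ w (S.NF φ D Om v) = ∑ p, ∑ q, S.Lam D Om p q * inner ℂ (η p) (θ q) := by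
    rw [Setup.NF, _root_.sum_apply, inner_sum]
    refine Finset.sum_congr rfl fun p _ => ?_
    have h0 : inner ℂ w ((S.th p.1 (φ (Sum.inr p.2)) * S.Lth φ D Om p) v) =
        inner ℂ (η p) (S.Lth φ D Om p v) := (S.th_sa _ _ _ _).symm
    rw [h0, Setup.Lth, _root_.sum_apply, inner_sum]
    refine Finset.sum_congr rfl fun q _ => ?_
    rw [_root_.smul_apply, inner_smul_right]
  have h2 : ∀ r, inner ℂ (Tm S φ Y r w) (Tm S φ Y r v) =
      ∑ p, ∑ q, (Y p r * Y r q) * inner ℂ (η p) (θ q) := by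
    intro r
    have h4 : Tm S φ Y r v = ∑ q, Y r q • θ q := by
      rw [Tm, _root_.sum_apply]
      rfl
    have h4' : Tm S φ Y r w = ∑ q, Y r q • η q := by
      rw [Tm, _root_.sum_apply]
      rfl
    rw [h4, h4', sum_inner]
    refine Finset.sum_congr rfl fun p _ => ?_
    rw [inner_sum]
    refine Finset.sum_congr rfl fun q _ => ?_
    rw [inner_smul_left, inner_smul_right]
    have h5 : (starRingEnd ℂ) (Y r p) = Y p r := by
      have := congrFun (congrFun hY p) r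
      rwa [conjTranspose_apply] at this
    rw [h5]
    ring
  rw [h1]
  simp only [h2]
  have h6 : ∀ p q, S.Lam D Om p q = ∑ r, Y p r * Y r q := by
    intro p q
    rw [← hYY, mul_apply]
  symm
  rw [Finset.sum_comm]
  refine Finset.sum_congr rfl fun p _ => ?_
  rw [Finset.sum_comm]
  refine Finset.sum_congr rfl fun q _ => ?_
  rw [h6, Finset.sum_mul]

lemma NF_F0 {u : F} (hu : u ∈ S.F0 φ D Om) : S.NF φ D Om u = 0 := by
  rw [Setup.NF, _root_.sum_apply]
  refine Finset.sum_eq_zero fun p _ => ?_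
  change S.th p.1 (φ (Sum.inr p.2)) (S.Lth φ D Om p u) = 0
  rw [hu p, map_zero]

/-- `N² ≥ c N` in the form needed -/
lemma N_sq_ge [FiniteDimensional ℂ F] (hD : Frz D) (hO : IsOm S.κ D Om) {c : ℝ}
    (hc : ∀ x : Fin dm → ℝ, c * (x ⬝ᵥ x) ≤ x ⬝ᵥ (Om *ᵥ x))
    (K : Matrix (Fin dm) (Fin dm) ℝ)
    (hY : (l1 K⁻¹ * S.Lam D Om)ᴴ = l1 K⁻¹ * S.Lam D Om)
    (hYY : (l1 K⁻¹ * S.Lam D Om) * (l1 K⁻¹ * S.Lam D Om) = S.Lam D Om) (v : F) :
    c * ∑ r, ‖Tm S φ (l1 K⁻¹ * S.Lam D Om) r v‖ ^ 2 ≤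
      (inner ℂ v (S.NF φ D Om (S.NF φ D Om v))).re := by
  have hOD : ∀ i, D i * Om = Om * D i := by
    intro i
    refine hO.comm (D i) ?_
    rw [Finset.mul_sum, Finset.sum_mul]
    refine Finset.sum_congr rfl fun j _ => ?_
    rw [← mul_assoc, hD.comm i j, mul_assoc, hD.comm i j, mul_assoc]
  have hYT : (l1 K⁻¹ * S.Lam D Om) * (S.Lam D Om)ᵀ = 0 := by
    rw [mul_assoc, Lam_Lam_tr S D Om hD hO hOD, mul_zero]
  have hLc : (S.Lam D Om)ᴴ = S.Lam D Om := Lam_ct S D Om hD.anti hO.symm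
  have hOc : (l1 Om)ᴴ = l1 Om := l1_ct _ hO.symm
  have hL2 : S.Lam D Om * S.Lam D Om = l1 Om * S.Lam D Om := Lam_sq S D Om hD hO hOD
  have hL3 : S.Lam D Om * S.Lam D Om = S.Lam D Om * l1 Om := by
    have := congrArg conjTranspose hL2
    rwa [conjTranspose_mul, conjTranspose_mul, hLc, hOc] at this
  have hY1 : (l1 K⁻¹ * S.Lam D Om) * S.Lam D Om = (l1 K⁻¹ * S.Lam D Om) * l1 Om := by
    rw [mul_assoc, hL3, mul_assoc]
  obtain ⟨Y, hYdef⟩ : ∃ Y, Y = l1 K⁻¹ * S.Lam D Om := ⟨_, rfl⟩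
  rw [← hYdef] at hY hYY hYT hY1 ⊢
  have e2 : S.Lam D Om * Y = l1 Om * Y := by
    have := congrArg conjTranspose hY1
    rwa [conjTranspose_mul, conjTranspose_mul, hLc, hOc, hY] at this
  have e3 : Y * S.Lam D Om = l1 Om * Y := by
    rw [← e2, ← hYY, mul_assoc]
  have e4 : Y * (S.Lam D Om)ᵀ = 0 := hYT
  have hT : ∀ r, Tm S φ Y r (S.NF φ D Om v) = S.NF φ D Om (Tm S φ Y r v) +
      ∑ s, l1 Om r s • Tm S φ Y s v := by
    intro r
    have h1 := Tm_NF S φ D Om Y r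
    have h0 : Tm S φ (0 : Matrix (Fin 16 × Fin dm) (Fin 16 × Fin dm) ℂ) r = 0 := by
      simp [Tm_eq]
    rw [e3, e4, h0, sub_zero, Tm_mul S φ (l1 Om) Y r] at h1
    have h2 := congrArg (fun A : F →L[ℂ] F => A v) h1
    simp only [_root_.add_apply, _root_.sum_apply, _root_.smul_apply] at h2
    exact h2
  rw [inner_NF2 S φ D Om Y hY hYY]
  simp only [hT, inner_add_right, Finset.sum_add_distrib]
  rw [Complex.add_re]
  have h3 : 0 ≤ (∑ r, inner ℂ (Tm S φ Y r v) (S.NF φ D Om (Tm S φ Y r v))).re := by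
    rw [Complex.re_sum]
    refine Finset.sum_nonneg fun r _ => ?_
    rw [inner_NF S D Om φ Y hY hYY, ← Complex.ofReal_sum, Complex.ofReal_re]
    exact Finset.sum_nonneg fun s _ => by positivity
  have h4 : (∑ r, inner ℂ (Tm S φ Y r v) (∑ s, l1 Om r s • Tm S φ Y s v)).re =
      ∑ α : Fin 16, (∑ B, ∑ E, ((Om B E : ℝ) : ℂ) *
        inner ℂ (Tm S φ Y (α, B) v) (Tm S φ Y (α, E) v)).re := by
    rw [← Complex.re_sum, Fintype.sum_prod_type]
    congr 1
    refine Finset.sum_congr rfl fun α _ => Finset.sum_congr rfl fun B _ => ?_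
    rw [inner_sum, Fintype.sum_prod_type, Finset.sum_eq_single α]
    · refine Finset.sum_congr rfl fun E _ => ?_
      rw [inner_smul_right]
      simp [l1, lc, kroneckerMap_apply]
    · intro β _ hβ
      refine Finset.sum_eq_zero fun E _ => ?_
      have : l1 Om (α, B) (β, E) = 0 := by
        simp [l1, lc, kroneckerMap_apply, one_apply, hβ.symm]
      rw [this, zero_smul, inner_zero_right]
    · intro h
      exact absurd (Finset.mem_univ _) h
  have h5 : c * ∑ r, ‖Tm S φ Y r v‖ ^ 2 ≤ ∑ α : Fin 16, (∑ B, ∑ E, ((Om B E : ℝ) : ℂ) *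
        inner ℂ (Tm S φ Y (α, B) v) (Tm S φ Y (α, E) v)).re := by
    rw [Fintype.sum_prod_type, Finset.mul_sum]
    exact Finset.sum_le_sum fun α _ => ul_quad Om hc fun B => Tm S φ Y (α, B) v
  rw [h4]
  linarith

end ULamPf

open LamPf ULamPf in
/-- **C-U2** -/
theorem uLam_stmt (S : Setup d F) (φ : Spl dh dm d) : LamStmt S φ → ULamStmt S φ := by
  intro _ hfin D Om hD hO c hc hOm v
  obtain ⟨K, hK1, hK2, hK3⟩ := exists_root S D Om hD hO
  set Y := l1 K⁻¹ * S.Lam D Om with hYdef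
  set N := S.NF φ D Om with hN
  have hin : ∀ w u : F, inner ℂ w (N u) = ∑ r, inner ℂ (Tm S φ Y r w) (Tm S φ Y r u) :=
    fun w u => inner_NF2 S φ D Om Y hK2 hK3 w u
  have hsym : (N : F →ₗ[ℂ] F).IsSymmetric := by
    intro w u
    change inner ℂ (N w) u = inner ℂ w (N u)
    rw [← inner_conj_symm, hin, hin, map_sum]
    exact Finset.sum_congr rfl fun r _ => inner_conj_symm _ _
  have hsymm : ∀ w u : F, inner ℂ (N w) u = inner ℂ w (N u) := hsym
  set b := hsym.eigenvectorBasis rfl with hb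
  set ev := hsym.eigenvalues rfl with hev
  have hbe : ∀ i, N (b i) = ((ev i : ℝ) : ℂ) • b i := fun i => hsym.apply_eigenvectorBasis rfl i
  have hbn : ∀ i, inner ℂ (b i) (b i) = (1 : ℂ) := fun i => by
    rw [inner_self_eq_norm_sq_to_K, b.norm_eq_one]
    norm_num
  have hev1 : ∀ i, ev i = ∑ r, ‖Tm S φ Y r (b i)‖ ^ 2 := by
    intro i
    have h1 := inner_NF S D Om φ Y hK2 hK3 (b i)
    rw [← hN, hbe, inner_smul_right, hbn, mul_one, ← Complex.ofReal_sum] at h1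
    exact_mod_cast h1
  have hev0 : ∀ i, 0 ≤ ev i := fun i => by
    rw [hev1]
    exact Finset.sum_nonneg fun r _ => by positivity
  have hev2 : ∀ i, ev i = 0 ∨ c ≤ ev i := by
    intro i
    have h1 := N_sq_ge S φ D Om hD hO hOm K hK2 hK3 (b i)
    rw [← hev1, ← hN, hbe, map_smul, hbe, smul_smul, inner_smul_right, hbn, mul_one,
      ← Complex.ofReal_mul, Complex.ofReal_re] at h1
    rcases (hev0 i).eq_or_lt with h | h
    · exact Or.inl h.symm
    · exact Or.inr (le_of_mul_le_mul_right h1 h)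
  have hmem : ∀ i, ev i = 0 → b i ∈ S.F0 φ D Om := by
    intro i hi
    refine (Tm_zero S D Om φ K hK1 _).1 fun r => ?_
    have h1 := hev1 i
    rw [hi] at h1
    have h2 := (Finset.sum_eq_zero_iff_of_nonneg (fun r _ => by positivity)).1 h1.symm r (Finset.mem_univ r)
    exact norm_eq_zero.1 (pow_eq_zero_iff (two_ne_zero)|>.1 h2)
  have horth : ∀ i, ev i ≠ 0 → ∀ u ∈ S.F0 φ D Om, inner ℂ u (b i) = (0 : ℂ) := by
    intro i hi u hu
    have h1 : inner ℂ (N u) (b i) = inner ℂ u (N (b i)) := hsymm _ _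
    rw [hN, NF_F0 S φ D Om hu, inner_zero_left, ← hN, hbe, inner_smul_right] at h1
    rcases mul_eq_zero.1 h1.symm with h | h
    · exact absurd (Complex.ofReal_eq_zero.1 h) hi
    · exact h
  set v0 : F := ∑ i, if ev i = 0 then inner ℂ (b i) v • b i else 0 with hv0
  have hd : v - v0 = ∑ i, if ev i = 0 then 0 else inner ℂ (b i) v • b i := by
    rw [sub_eq_iff_eq_add, hv0, ← Finset.sum_add_distrib]
    conv_lhs => rw [← b.sum_repr' v]
    refine Finset.sum_congr rfl fun i _ => ?_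
    split_ifs <;> simp
  have hco : ∀ i, inner ℂ (b i) (v - v0) = if ev i = 0 then 0 else inner ℂ (b i) v := by
    intro i
    rw [hd, inner_sum, Finset.sum_eq_single i]
    · split_ifs
      · rw [inner_zero_right]
      · rw [inner_smul_right, hbn, mul_one]
    · intro j _ hj
      split_ifs
      · rw [inner_zero_right]
      · rw [inner_smul_right, b.inner_eq_zero hj.symm, mul_zero]
    · intro h
      exact absurd (Finset.mem_univ _) h
  refine ⟨v0, ?_, ?_, ?_⟩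
  · refine Submodule.sum_mem _ fun i _ => ?_
    split_ifs with h
    · exact Submodule.smul_mem _ _ (hmem i h)
    · exact Submodule.zero_mem _
  · intro u hu
    rw [hd, inner_sum]
    refine Finset.sum_eq_zero fun i _ => ?_
    split_ifs with h
    · rw [inner_zero_right]
    · rw [inner_smul_right, horth i h u hu, mul_zero]
  · have h1 : ‖v - v0‖ ^ 2 = ∑ i, ‖inner ℂ (b i) (v - v0)‖ ^ 2 := (b.sum_sq_norm_inner_right _).symm
    have h2 : (inner ℂ v (N v)).re = ∑ i, ev i * ‖inner ℂ (b i) v‖ ^ 2 := by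
      rw [← b.sum_inner_mul_inner v (N v), Complex.re_sum]
      refine Finset.sum_congr rfl fun i _ => ?_
      rw [← hsymm, hbe, inner_smul_left, Complex.conj_ofReal, ← inner_conj_symm v (b i)]
      rw [mul_left_comm, ← Complex.normSq_eq_conj_mul_self, Complex.normSq_eq_norm_sq, ← Complex.ofReal_mul,
        Complex.ofReal_re]
    rw [h1, h2, Finset.mul_sum]
    refine Finset.sum_le_sum fun i _ => ?_
    rw [hco]
    split_ifs with h
    · rw [norm_zero, h]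
      simp
    · rcases hev2 i with h' | h'
      · exact absurd h' h
      · exact mul_le_mul_of_nonneg_right h' (by positivity)

end Vale.Agent.P353.Z.AN
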