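import Vale.Agent.P353.AN.C.StmtU

/-! # P353, all `N`, block C-U3: lower bounds for `Ω` and for the quadratic form -/

open MeasureTheory Filter Topology Matrix
open scoped ContDiff

namespace Vale.Agent.P353.Z.AN

/-- a symmetric positive matrix with `Ω² ≥ a²` satisfies `Ω ≥ a` -/
lemma uOm_low {n : Type*} [Fintype n] [DecidableEq n] {Om : Matrix n n ℝ} (hs : Omᵀ = Om)
    (hp : ∀ v : n → ℝ, v ≠ 0 → 0 < v ⬝ᵥ (Om *ᵥ v)) {a : ℝ} (ha : 0 ≤ a)
    (h2 : ∀ v : n → ℝ, a ^ 2 * (v ⬝ᵥ v) ≤ v ⬝ᵥ ((Om * Om) *ᵥ v)) (x : n → ℝ) :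
    a * (x ⬝ᵥ x) ≤ x ⬝ᵥ (Om *ᵥ x) := by
  set M : Matrix n n ℝ := Om - a • (1 : Matrix n n ℝ) with hM
  have hH : M.IsHermitian := by
    rw [IsHermitian, conjTranspose_eq_transpose_of_trivial, hM, transpose_sub, transpose_smul,
      transpose_one, hs]
  have hpsd : M.PosSemidef := by
    rw [hH.posSemidef_iff_eigenvalues_nonneg]
    intro j
    have hv := hH.mulVec_eigenvectorBasis j
    set v : n → ℝ := ⇑(hH.eigenvectorBasis j) with hvdef
    set μ := hH.eigenvalues j with hμ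
    have hv0 : v ≠ 0 := by
      intro h0
      have h1 : hH.eigenvectorBasis j ≠ 0 := (hH.eigenvectorBasis.orthonormal.ne_zero j)
      apply h1
      ext i
      exact congrFun h0 i
    have hOm : Om *ᵥ v = (μ + a) • v := by
      have h1 : Om *ᵥ v = M *ᵥ v + a • v := by
        rw [hM, sub_mulVec, smul_mulVec, one_mulVec]; abel
      rw [h1, hv, add_smul]
    have hvv : 0 < v ⬝ᵥ v := by
      refine lt_of_le_of_ne (Finset.sum_nonneg fun j _ => mul_self_nonneg _) (Ne.symm ?_)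
      exact (dotProduct_self_eq_zero (v := v)).not.2 hv0
    have h3 := hp v hv0
    rw [hOm, dotProduct_smul, smul_eq_mul] at h3
    have h4 := h2 v
    rw [← mulVec_mulVec, hOm, mulVec_smul, hOm, smul_smul, dotProduct_smul, smul_eq_mul] at h4
    have h5 : 0 < μ + a := by
      by_contra h
      push Not at h
      nlinarith
    have h6 : a ^ 2 ≤ (μ + a) * (μ + a) := le_of_mul_le_mul_right h4 hvv
    have h7 : a ≤ μ + a := by nlinarith
    change 0 ≤ μ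
    linarith
  have h := hpsd.dotProduct_mulVec_nonneg x
  rw [star_trivial, hM, sub_mulVec, smul_mulVec, one_mulVec, dotProduct_sub, dotProduct_smul,
    smul_eq_mul] at h
  linarith

lemma uOm_norm {dm : ℕ} (w : Wsp dm) :
    ‖w‖ ^ 2 = ∑ j : Fin 8, (wt w j.castSucc) ⬝ᵥ (wt w j.castSucc) := by
  rw [EuclideanSpace.norm_sq_eq, Fintype.sum_prod_type]
  refine Finset.sum_congr rfl fun j _ => ?_
  rw [dotProduct]
  refine Finset.sum_congr rfl fun B _ => ?_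
  rw [Real.norm_eq_abs, sq_abs, wt, Fin.lastCases_castSucc, sq]

lemma uOm_sub {n : Type*} [Fintype n] (u v : n → ℝ) :
    (u - v) ⬝ᵥ (u - v) ≤ 2 * (u ⬝ᵥ u) + 2 * (v ⬝ᵥ v) := by
  rw [dotProduct, dotProduct, dotProduct, Finset.mul_sum, Finset.mul_sum, ← Finset.sum_add_distrib]
  refine Finset.sum_le_sum fun i _ => ?_
  rw [Pi.sub_apply]
  nlinarith [sq_nonneg (u i + v i)]

/-- **C-U3** -/
theorem uOm_stmt : AlgStmt → UOmStmt := by
  intro hAlg dm κ D Om hκ hD hOm s K hs hK h8 hT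
  obtain ⟨-, -, -, -, -, -, -, -, -, -, hw⟩ := hAlg dm κ D Om hκ hD hOm
  have hq : ∀ (i : Fin 9) (v : Fin dm → ℝ),
      v ⬝ᵥ ((D i * D i) *ᵥ v) = -((D i *ᵥ v) ⬝ᵥ (D i *ᵥ v)) := by
    intro i v
    rw [← mulVec_mulVec, dotProduct_mulVec, ← mulVec_transpose, hD.anti i, neg_mulVec,
      neg_dotProduct]
  have h1 : ∀ x : Fin dm → ℝ, κ * s * (x ⬝ᵥ x) ≤ x ⬝ᵥ (Om *ᵥ x) := by
    refine uOm_low hOm.symm hOm.pos (by positivity) fun v => ?_
    rw [hOm.sq, neg_mulVec, smul_mulVec, sum_mulVec, dotProduct_neg, dotProduct_smul,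
      dotProduct_sum]
    simp only [hq]
    rw [Finset.sum_neg_distrib, smul_neg, neg_neg, smul_eq_mul, mul_pow, mul_assoc]
    refine mul_le_mul_of_nonneg_left ?_ (by positivity)
    refine (h8 v).trans ?_
    exact Finset.single_le_sum (f := fun i => (D i *ᵥ v) ⬝ᵥ (D i *ᵥ v))
      (fun i _ => Finset.sum_nonneg fun j _ => mul_self_nonneg _) (Finset.mem_univ 8)
  refine ⟨h1, fun w => ?_⟩
  have hc : 0 < 2 + 16 * K ^ 2 := by positivity
  have h2 : κ * s * ∑ i, VV D w i ⬝ᵥ VV D w i ≤ qf D Om w := by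
    rw [qf, Finset.mul_sum]
    exact Finset.sum_le_sum fun i _ => h1 _
  have hnn : ∀ i, 0 ≤ VV D w i ⬝ᵥ VV D w i := fun i =>
    Finset.sum_nonneg fun j _ => mul_self_nonneg _
  have h3 : ‖w‖ ^ 2 ≤ (2 + 16 * K ^ 2) * ∑ i, VV D w i ⬝ᵥ VV D w i := by
    have h4 : ∀ j : Fin 8, (wt w j.castSucc) ⬝ᵥ (wt w j.castSucc) ≤
        2 * (VV D w j.castSucc ⬝ᵥ VV D w j.castSucc) + 2 * (K ^ 2 * (VV D w 8 ⬝ᵥ VV D w 8)) := by
      intro j
      rw [hw w j]
      refine (uOm_sub _ _).trans ?_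
      have := hT j.castSucc (VV D w 8)
      linarith
    rw [uOm_norm]
    refine (Finset.sum_le_sum fun j _ => h4 j).trans ?_
    rw [Finset.sum_add_distrib, ← Finset.mul_sum, Finset.sum_const, Finset.card_univ,
      Fintype.card_fin, nsmul_eq_mul, Fin.sum_univ_castSucc (f := fun i => VV D w i ⬝ᵥ VV D w i)]
    change 2 * _ + ((8 : ℕ) : ℝ) * _ ≤ (2 + 16 * K ^ 2) * (_ + VV D w 8 ⬝ᵥ VV D w 8)
    have h5 : 0 ≤ ∑ j : Fin 8, VV D w j.castSucc ⬝ᵥ VV D w j.castSucc :=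
      Finset.sum_nonneg fun j _ => hnn _
    have h6 := hnn 8
    have h7 : 0 ≤ K ^ 2 := by positivity
    push_cast
    nlinarith [mul_nonneg h7 h5, mul_nonneg h7 h6]
  calc κ * s / (2 + 16 * K ^ 2) * ‖w‖ ^ 2
      ≤ κ * s / (2 + 16 * K ^ 2) * ((2 + 16 * K ^ 2) * ∑ i, VV D w i ⬝ᵥ VV D w i) :=
        mul_le_mul_of_nonneg_left h3 (by positivity)
    _ = κ * s * ∑ i, VV D w i ⬝ᵥ VV D w i := by field_simp
    _ ≤ qf D Om w := h2

end Vale.Agent.P353.Z.AN
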