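import Vale.Agent.P353.AN.C.StmtU
import Vale.Agent.P353.AN.C.Fib
import Vale.Agent.P353.AN.C.Out

/-! # P353, all `N`, block C: unfrozen vacuum on the slice (C-UOut) -/

open MeasureTheory Filter Topology Matrix
open scoped ContDiff

namespace Vale.Agent.P353.Z.AN

variable {d dh dm : ℕ} {F : Type*} [NormedAddCommGroup F] [InnerProductSpace ℂ F]

/-! ### the vacuum projection is bounded -/

lemma u570_wt (i : Fin 9) : Continuous fun w : Wsp dm => wt w i := by
  refine continuous_pi fun B => ?_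
  refine Fin.lastCases ?_ (fun j => ?_) i
  · simp only [wt, Fin.lastCases_last]
    exact continuous_const
  · simp only [wt, Fin.lastCases_castSucc]
    fun_prop

lemma u570_gR (D : Fin 9 → Matrix (Fin dm) (Fin dm) ℝ) (Om : Matrix (Fin dm) (Fin dm) ℝ) (R : ℝ) :
    Continuous fun w : Wsp dm => gR D Om R w := by
  have hs : Continuous fun w : Wsp dm => sV D w :=
    Continuous.matrix_mulVec continuous_const
      (continuous_finsetSum _ fun i _ => Continuous.matrix_mulVec continuous_const (u570_wt i))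
  have hV : ∀ i, Continuous fun w : Wsp dm => VV D w i := fun i =>
    (u570_wt i).sub (Continuous.matrix_mulVec continuous_const hs)
  have hq : Continuous fun w : Wsp dm => qf D Om w :=
    continuous_finsetSum _ fun i _ =>
      Continuous.dotProduct (hV i) (Continuous.matrix_mulVec continuous_const (hV i))
  exact Real.continuous_exp.comp (continuous_const.mul hq)

lemma u570_fi (f : Wsp dm → F) (hf : FT f) : Integrable (fun w => ‖f w‖ ^ 2) := by
  have hc : Continuous fun w => ‖f w‖ ^ 2 := hf.1.continuous.norm.pow 2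
  have hs : HasCompactSupport fun w => ‖f w‖ ^ 2 := by
    refine hf.2.mono ?_
    intro w hw
    rw [Function.mem_support] at hw ⊢
    intro h0
    apply hw
    rw [h0, norm_zero]
    norm_num
  exact hc.integrable_of_hasCompactSupport hs

/-- Cauchy–Schwarz with a weight -/
lemma u570_cs (g : Wsp dm → ℝ) (hg : Continuous g) (hg0 : ∀ w, 0 < g w) (hgi : Integrable (fun w => g w ^ 2))
    (f : Wsp dm → F) (hf : FT f) {G : ℝ} (hGp : 0 < G) (hG : G = ∫ w, g w ^ 2) :
    ‖∫ w, ((g w : ℝ) : ℂ) • f w‖ ^ 2 / G ≤ nsf f := by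
  have hfi := u570_fi f hf
  obtain ⟨B, hB⟩ : ∃ B : ℝ, B = ∫ w, g w * ‖f w‖ := ⟨_, rfl⟩
  have hgfi : Integrable (fun w => g w * ‖f w‖) :=
    (hg.mul hf.1.continuous.norm).integrable_of_hasCompactSupport
      (HasCompactSupport.mul_left (hf.2.norm))
  have hbB : ‖∫ w, ((g w : ℝ) : ℂ) • f w‖ ≤ B := by
    rw [hB]
    refine (norm_integral_le_integral_norm _).trans (le_of_eq ?_)
    refine integral_congr_ae (Eventually.of_forall fun w => ?_)
    simp only [norm_smul, Complex.norm_real, Real.norm_eq_abs]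
    rw [abs_of_pos (hg0 w)]
  have h1 : 0 ≤ ∫ w, (B / G * g w - ‖f w‖) ^ 2 := integral_nonneg fun _ => sq_nonneg _
  have h2 : ∫ w, (B / G * g w - ‖f w‖) ^ 2 = (B / G) ^ 2 * G - 2 * (B / G) * B + nsf f := by
    have h3 : (fun w => (B / G * g w - ‖f w‖) ^ 2) = fun w =>
        ((B / G) ^ 2 * g w ^ 2 - 2 * (B / G) * (g w * ‖f w‖)) + ‖f w‖ ^ 2 := by
      funext w
      ring
    have i1 : Integrable (fun w => (B / G) ^ 2 * g w ^ 2) := hgi.const_mul _
    have i2 : Integrable (fun w => 2 * (B / G) * (g w * ‖f w‖)) := hgfi.const_mul _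
    have i3 : Integrable (fun w => (B / G) ^ 2 * g w ^ 2 - 2 * (B / G) * (g w * ‖f w‖)) := i1.sub i2
    rw [h3, integral_add i3 hfi, integral_sub i1 i2, integral_const_mul, integral_const_mul,
      ← hG, ← hB]
    rfl
  rw [h2] at h1
  have h4 : (B / G) ^ 2 * G - 2 * (B / G) * B + nsf f = nsf f - B ^ 2 / G := by
    field_simp
    ring
  have h5 : ‖∫ w, ((g w : ℝ) : ℂ) • f w‖ ^ 2 ≤ B ^ 2 := pow_le_pow_left₀ (norm_nonneg _) hbB 2
  have h6 := div_le_div_of_nonneg_right h5 hGp.le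
  linarith

lemma u570_dif (f P : Wsp dm → F) (hf : FT f) (hPi : Integrable (fun w => ‖P w‖ ^ 2))
    (hP : ∫ w, ‖P w‖ ^ 2 ≤ nsf f) : nsf (fun w => f w - P w) ≤ 4 * nsf f := by
  have hfi := u570_fi f hf
  have hm : nsf (fun w => f w - P w) ≤ ∫ w, (2 * ‖f w‖ ^ 2 + 2 * ‖P w‖ ^ 2) := by
    refine integral_mono_of_nonneg (Eventually.of_forall fun w => sq_nonneg _)
      ((hfi.const_mul 2).add (hPi.const_mul 2)) (Eventually.of_forall fun w => ?_)
    show ‖f w - P w‖ ^ 2 ≤ 2 * ‖f w‖ ^ 2 + 2 * ‖P w‖ ^ 2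
    have h1 := norm_sub_le (f w) (P w)
    have h2 := pow_le_pow_left₀ (norm_nonneg _) h1 2
    nlinarith [sq_nonneg (‖f w‖ - ‖P w‖)]
  rw [integral_add (hfi.const_mul 2) (hPi.const_mul 2), integral_const_mul, integral_const_mul] at hm
  have : ∫ w, ‖f w‖ ^ 2 = nsf f := rfl
  rw [this] at hm
  linarith

lemma u570_PR (S : Setup d F) (φ : Spl dh dm d) [FiniteDimensional ℂ F]
    (D : Fin 9 → Matrix (Fin dm) (Fin dm) ℝ) (Om : Matrix (Fin dm) (Fin dm) ℝ) (R : ℝ)
    (f : Wsp dm → F) (hf : FT f) :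
    nsf (fun w => f w - S.PR φ D Om R f w) ≤ 4 * nsf f := by
  have hn : 0 ≤ nsf f := fo_nsf f
  obtain ⟨G, hG⟩ : ∃ G, G = ∫ w', gR D Om R w' ^ 2 := ⟨_, rfl⟩
  have hG0 : 0 ≤ G := by
    rw [hG]
    exact integral_nonneg fun _ => sq_nonneg _
  obtain ⟨b, hb⟩ : ∃ b : F, b = ∫ w', ((gR D Om R w' : ℝ) : ℂ) • f w' := ⟨_, rfl⟩
  obtain ⟨c, hc, hcb⟩ : ∃ c : F, c = (S.F0 φ D Om).starProjection b ∧ ‖c‖ ≤ ‖b‖ :=
    ⟨_, rfl, Submodule.norm_starProjection_apply_le _ _⟩
  have hPR : ∀ w, S.PR φ D Om R f w = ((gR D Om R w / G : ℝ) : ℂ) • c := by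
    intro w
    rw [Setup.PR, ← hG, ← hb, ← hc]
  clear hc
  refine u570_dif f _ hf ?_ ?_
  · have hPn : ∀ w, ‖S.PR φ D Om R f w‖ ^ 2 = ‖c‖ ^ 2 / G ^ 2 * gR D Om R w ^ 2 := by
      intro w
      rw [hPR, norm_smul, Complex.norm_real, Real.norm_eq_abs, mul_pow, sq_abs, div_pow]
      ring
    simp only [hPn]
    rcases hG0.lt_or_eq with hGp | hGz
    · have hgi : Integrable (fun w => gR D Om R w ^ 2) := by
        by_contra h
        rw [hG, integral_undef h] at hGp
        exact lt_irrefl _ hGp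
      exact hgi.const_mul _
    · rw [← hGz]
      simp
  · have hPn : ∀ w, ‖S.PR φ D Om R f w‖ ^ 2 = ‖c‖ ^ 2 / G ^ 2 * gR D Om R w ^ 2 := by
      intro w
      rw [hPR, norm_smul, Complex.norm_real, Real.norm_eq_abs, mul_pow, sq_abs, div_pow]
      ring
    simp only [hPn]
    rw [integral_const_mul, ← hG]
    rcases hG0.lt_or_eq with hGp | hGz
    · have hgi : Integrable (fun w => gR D Om R w ^ 2) := by
        by_contra h
        rw [hG, integral_undef h] at hGp
        exact lt_irrefl _ hGp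
      have h1 : ‖c‖ ^ 2 / G ^ 2 * G = ‖c‖ ^ 2 / G := by
        field_simp
      rw [h1]
      have h2 := u570_cs (fun w => gR D Om R w) (u570_gR D Om R) (fun w => Real.exp_pos _) hgi f hf hGp hG
      rw [← hb] at h2
      refine le_trans ?_ h2
      exact div_le_div_of_nonneg_right (pow_le_pow_left₀ (norm_nonneg _) hcb 2) hG0
    · rw [← hGz]
      simpa using hn

/-! ### scaling of the frozen data -/

lemma u570_inv {R : ℝ} (hR : R ≠ 0) (M : Matrix (Fin dm) (Fin dm) ℝ) :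
    (R • M)⁻¹ = R⁻¹ • M⁻¹ := by
  by_cases h : IsUnit M.det
  · exact Matrix.inv_smul' M (Units.mk0 R hR) h
  · rw [Matrix.nonsing_inv_apply_not_isUnit _ h, smul_zero]
    refine Matrix.nonsing_inv_apply_not_isUnit _ ?_
    rw [Matrix.det_smul]
    intro h1
    exact h (isUnit_of_mul_isUnit_right h1)

lemma u570_tI (D : Fin 9 → Matrix (Fin dm) (Fin dm) ℝ) {R : ℝ} (hR : R ≠ 0) :
    tI (fun i => R • D i) = tI D := by
  funext i
  unfold tI
  rw [u570_inv hR, Matrix.smul_mul, Matrix.mul_smul, smul_smul, inv_mul_cancel₀ hR, one_smul]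

lemma u570_VV (D : Fin 9 → Matrix (Fin dm) (Fin dm) ℝ) {R : ℝ} (hR : R ≠ 0) (w : Wsp dm) (i : Fin 9) :
    VV (fun i => R • D i) w i = VV D w i := by
  unfold VV sV t2
  rw [u570_tI D hR]

lemma u570_g (D : Fin 9 → Matrix (Fin dm) (Fin dm) ℝ) (Om : Matrix (Fin dm) (Fin dm) ℝ) {R : ℝ}
    (hR : R ≠ 0) (w : Wsp dm) :
    gR (fun i => R⁻¹ • D i) (R⁻¹ • Om) R w = gR D Om 1 w := by
  unfold gR
  congr 1
  have h : qf (fun i => R⁻¹ • D i) (R⁻¹ • Om) w = R⁻¹ * qf D Om w := by
    unfold qf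
    rw [Finset.mul_sum]
    refine Finset.sum_congr rfl fun i _ => ?_
    rw [u570_VV D (inv_ne_zero hR), Matrix.smul_mulVec, dotProduct_smul, smul_eq_mul]
  rw [h]
  field_simp

lemma u570_sc (S : Setup d F) (φ : Spl dh dm d) [FiniteDimensional ℂ F] (hF0 : F0Stmt S φ)
    (D : Fin 9 → Matrix (Fin dm) (Fin dm) ℝ) (Om : Matrix (Fin dm) (Fin dm) ℝ) {R : ℝ}
    (hR : 0 < R) (f : Wsp dm → F) (w : Wsp dm) :
    S.PR φ (fun i => R⁻¹ • D i) (R⁻¹ • Om) R f w = S.PR φ D Om 1 f w := by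
  have h1 := (hF0 D Om).2 R⁻¹ (inv_pos.2 hR)
  unfold Setup.PR
  simp only [h1, u570_g D Om hR.ne']

lemma u570_frz {D : Fin 9 → Matrix (Fin dm) (Fin dm) ℝ} (h : Frz D) {R : ℝ} (hR : R ≠ 0) :
    Frz (fun i => R • D i) := by
  refine ⟨fun i => ?_, fun i j => ?_, ?_⟩
  · rw [Matrix.transpose_smul, h.anti, smul_neg]
  · rw [Matrix.smul_mul, Matrix.mul_smul, Matrix.smul_mul, Matrix.mul_smul, h.comm]
  · rw [Matrix.det_smul]
    exact mul_ne_zero (pow_ne_zero _ hR) h.inv

lemma u570_om {κ : ℝ} {D : Fin 9 → Matrix (Fin dm) (Fin dm) ℝ} {Om : Matrix (Fin dm) (Fin dm) ℝ}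
    (h : IsOm κ D Om) {R : ℝ} (hR : 0 < R) : IsOm κ (fun i => R • D i) (R • Om) := by
  have hs : (∑ i, (R • D i) * (R • D i)) = (R * R) • ∑ i, D i * D i := by
    rw [Finset.smul_sum]
    refine Finset.sum_congr rfl fun i _ => ?_
    rw [Matrix.smul_mul, Matrix.mul_smul, smul_smul]
  refine ⟨?_, fun v hv => ?_, ?_, fun M hM => ?_⟩
  · rw [Matrix.transpose_smul, h.symm]
  · rw [Matrix.smul_mulVec, dotProduct_smul, smul_eq_mul]
    exact mul_pos hR (h.pos v hv)
  · rw [hs, Matrix.smul_mul, Matrix.mul_smul, smul_smul, h.sq, smul_neg, smul_comm]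
  · rw [Matrix.mul_smul, Matrix.smul_mul]
    rw [h.comm M]
    rw [hs, Matrix.mul_smul, Matrix.smul_mul] at hM
    have hRR : R * R ≠ 0 := mul_ne_zero hR.ne' hR.ne'
    exact smul_right_injective _ hRR hM

/-! ### integration with a continuous weight -/

lemma u570_int (u : Cfg dh → Wsp dm → F) (hu : Tst2 u) (ρ : Cfg dh → ℝ) (hρ : Continuous ρ) :
    Integrable (fun y => ρ y ^ 2 * nsf (u y)) ∧
      ns2 (mul2 (fun y _ => ρ y) u) = ∫ y, ρ y ^ 2 * nsf (u y) := by
  have hc : Continuous (fun p : Cfg dh × Wsp dm => ‖mul2 (fun y _ => ρ y) u p.1 p.2‖ ^ 2) := by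
    unfold mul2
    have h1 : Continuous fun p : Cfg dh × Wsp dm => ((ρ p.1 : ℝ) : ℂ) :=
      Complex.continuous_ofReal.comp (hρ.comp continuous_fst)
    exact ((h1.smul hu.1.continuous).norm).pow 2
  have hcs : HasCompactSupport (fun p : Cfg dh × Wsp dm => ‖mul2 (fun y _ => ρ y) u p.1 p.2‖ ^ 2) := by
    refine hu.2.mono ?_
    intro p hp
    simp only [Function.mem_support] at hp ⊢
    intro h0
    apply hp
    simp [mul2, h0]
  have hi : Integrable (fun p : Cfg dh × Wsp dm => ‖mul2 (fun y _ => ρ y) u p.1 p.2‖ ^ 2)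
      ((volume : Measure (Cfg dh)).prod (volume : Measure (Wsp dm))) :=
    hc.integrable_of_hasCompactSupport hcs
  have he : ∀ y, ∫ w, ‖mul2 (fun y _ => ρ y) u y w‖ ^ 2 = ρ y ^ 2 * nsf (u y) := by
    intro y
    unfold nsf
    rw [← integral_const_mul]
    refine integral_congr_ae (Eventually.of_forall fun w => ?_)
    simp only [mul2, norm_smul, Complex.norm_real, Real.norm_eq_abs, mul_pow, sq_abs]
  refine ⟨?_, ?_⟩
  · have h1 := hi.integral_prod_left
    simpa only [he] using h1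
  · unfold ns2
    rw [integral_prod _ hi]
    simp only [he]

lemma u570_Q1 (hA : CalcA dh dm F) (S : Setup d F) (φ : Spl dh dm d) (β : Fin 16)
    (v : Cfg dh → Wsp dm → F) (hv : Tst2 v) (ρ : Cfg dh → ℝ) :
    S.Q1 φ β (mul2 (fun y _ => ρ y) v) = mul2 (fun y _ => ρ y) (S.Q1 φ β v) := by
  funext y w
  have h1 : ∀ j B, pw j B (mul2 (fun y _ => ρ y) v) y w = ((ρ y : ℝ) : ℂ) • pw j B v y w :=
    fun j B => hA.pw_mul j B ρ v hv y w
  have h2 : mul2 (fun y _ => ρ y) v y w = ((ρ y : ℝ) : ℂ) • v y w := rfl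
  show S.Q1 φ β (mul2 (fun y _ => ρ y) v) y w = ((ρ y : ℝ) : ℂ) • S.Q1 φ β v y w
  unfold Setup.Q1
  simp only [h1, h2, map_smul, smul_comm _ ((ρ y : ℝ) : ℂ), ← Finset.smul_sum, ← smul_add]

/-- **C-UOut** -/
theorem uOut_stmt (S : Setup d F) (φ : Spl dh dm d) : CalcA dh dm F → CalcB dh dm F → OpStmt S φ →
    CoefStmt S φ → OmStmt → F0Stmt S φ → UFibStmt S φ → UOutStmt S φ := by
  intro hA hB hOp hCo hOm hF0 hU fd Y hY
  obtain ⟨ea, C0, hea, hC0, hcoef⟩ := hCo Y hY
  have hz := fo_frz S φ Y hY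
  obtain ⟨Om00, hOm00⟩ := hOm dm S.κ (S.DY φ Y) S.κ_pos hz
  obtain ⟨C, δ, hC, hδ, H⟩ := hU fd (S.DY φ Y) Om00 hz hOm00
  have hK := foK_pos S φ
  obtain ⟨K, hKd⟩ : ∃ K, K = foK S φ := ⟨_, rfl⟩
  rw [← hKd] at hK
  obtain ⟨e, he⟩ : ∃ e, e = min ea (δ / K) := ⟨_, rfl⟩
  have hepos : 0 < e := by
    rw [he]
    exact lt_min hea (by positivity)
  have hea' : e ≤ ea := by
    rw [he]
    exact min_le_left _ _
  have heδ : K * e ≤ δ := by
    have h1 : e ≤ δ / K := by
      rw [he]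
      exact min_le_right _ _
    rw [le_div_iff₀ hK] at h1
    linarith
  have hcoef' := co359_mono hcoef hea'
  have hop := hOp (fun _ => 0) (fun i α β => by simp) Y e C0 hepos hcoef'
  obtain ⟨C1, hC1⟩ : ∃ C1, C1 = C * (1 + K ^ 2) + 4 * K ^ 2 / δ ^ 2 := ⟨_, rfl⟩
  have hC1p : 0 < C1 := by
    rw [hC1]
    positivity
  refine ⟨e, C1, hepos, hC1p, ?_⟩
  intro z Om ρ hOmz hρ0 hρc R hR v hv hs hyp
  have hRp : 0 < R := by linarith
  have ht1 := hop.t1 R hRp v hv hs
  have hQi : ∀ β, Integrable (fun y => nsf (S.Q1 φ β v y)) ∧ ns2 (S.Q1 φ β v) = ∫ y, nsf (S.Q1 φ β v y) :=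
    fun β => hB.yw _ (ht1 β)
  have he1i : Integrable (fun y => S.e1 φ (S.DY φ y) (v y)) := by
    have : Integrable (fun y => ∑ β, nsf (S.Q1 φ β v y)) := integrable_finsetSum _ fun β _ => (hQi β).1
    exact this.const_mul (1 / 16 : ℝ)
  have he1e : ∫ y, S.e1 φ (S.DY φ y) (v y) = (1 / 16) * S.E1 φ v := by
    have h1 : (fun y => S.e1 φ (S.DY φ y) (v y)) = fun y => (1 / 16 : ℝ) * ∑ β, nsf (S.Q1 φ β v y) := rfl
    rw [h1, integral_const_mul, integral_finsetSum _ fun β _ => (hQi β).1]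
    unfold Setup.E1
    congr 1
    exact Finset.sum_congr rfl fun β _ => ((hQi β).2).symm
  have hE1 : 0 ≤ S.E1 φ v := Finset.sum_nonneg fun β _ => hB.nonneg _
  have hρv := u570_int v hv ρ hρc
  -- the frozen data
  have key : ∀ y w, v y w ≠ 0 → Frz (fun i => R⁻¹ • S.DY φ (z y) i) ∧
      IsOm S.κ (fun i => R⁻¹ • S.DY φ (z y) i) (R⁻¹ • Om y) ∧
      (∀ i A B, |(fun i => R⁻¹ • S.DY φ (z y) i) i A B - S.DY φ Y i A B| ≤ δ) ∧
      (∀ i A B, |S.DY φ y i A B - R * (fun i => R⁻¹ • S.DY φ (z y) i) i A B| ≤ (K * ρ y / R) * R) := by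
    intro y w hvy
    obtain ⟨h1, h2, h3⟩ := hyp y w hvy
    refine ⟨u570_frz h1 (inv_ne_zero hRp.ne'), u570_om (hOmz y h1) (inv_pos.2 hRp), fun i A B => ?_,
      fun i A B => ?_⟩
    · have h4 := fo_near S φ (z y) Y h2 i A B
      rw [← hKd] at h4
      have h5 : (fun i => R⁻¹ • S.DY φ (z y) i) i A B - S.DY φ Y i A B =
          R⁻¹ * (S.DY φ (z y) i A B - R * S.DY φ Y i A B) := by
        simp only [Matrix.smul_apply, smul_eq_mul]
        field_simp
      rw [h5, abs_mul, abs_of_pos (inv_pos.2 hRp), inv_mul_le_iff₀ hRp]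
      refine h4.trans ?_
      rw [mul_comm R δ]
      exact mul_le_mul_of_nonneg_right heδ hRp.le
    · have h5 : S.DY φ y i A B - R * (fun i => R⁻¹ • S.DY φ (z y) i) i A B =
          S.Dy φ i (y - (1 : ℝ) • z y) A B := by
        rw [← fo_sub]
        simp only [Matrix.smul_apply, smul_eq_mul, one_mul]
        rw [mul_inv_cancel_left₀ hRp.ne']
      rw [h5, div_mul_cancel₀ _ hRp.ne', one_smul]
      refine (fo_lin S φ i _ A B).trans ?_
      rw [← hKd]
      exact mul_le_mul_of_nonneg_left h3 hK.le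
  have hsc : ∀ y, (fun i => R • (fun i => R⁻¹ • S.DY φ (z y) i) i) = S.DY φ (z y) := by
    intro y
    funext i
    simp only []
    rw [smul_smul, mul_inv_cancel₀ hRp.ne', one_smul]
  refine ⟨?_, ?_⟩
  · -- vacuum
    have h1 : ns2 (fun y w => v y w - S.PR φ (S.DY φ (z y)) (Om y) 1 (v y) w) ≤
        ∫ y, R⁻¹ * (C1 * (S.e1 φ (S.DY φ y) (v y) + 1 / R * (ρ y ^ 2 * nsf (v y)))) := by
      refine int359 _ _ (((he1i.add (hρv.1.const_mul (1 / R))).const_mul C1).const_mul R⁻¹) ?_ ?_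
      · intro y
        have := e1359_nonneg S φ (S.DY φ y) (v y)
        have := nsf359_nonneg (v y)
        positivity
      · intro y
        have hn := nsf359_nonneg (v y)
        have he1 := e1359_nonneg S φ (S.DY φ y) (v y)
        have hρy := hρ0 y
        by_cases hvy : ∃ w, v y w ≠ 0
        · obtain ⟨w, hw⟩ := hvy
          obtain ⟨k1, k2, k3, k4⟩ := key y w hw
          rw [inv_mul_eq_div, le_div_iff₀ hRp, mul_comm _ R]
          by_cases hε : K * ρ y / R ≤ δ
          · have h2 := ((H _ _ k1 k2 k3 R hRp (K * ρ y / R) (by positivity) hε (S.DY φ y) k4).2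
              (v y) (hA.slw v hv y)).2.1
            simp only [u570_sc S φ hF0 (S.DY φ (z y)) (Om y) hRp (v y)] at h2
            refine h2.trans ?_
            have h3 : (K * ρ y / R) ^ 2 * R * nsf (v y) = K ^ 2 * (1 / R * (ρ y ^ 2 * nsf (v y))) := by
              field_simp
            rw [h3]
            have h4 : 0 ≤ 1 / R * (ρ y ^ 2 * nsf (v y)) := by positivity
            have h5 : 0 ≤ 4 * K ^ 2 / δ ^ 2 := by positivity
            have h6 : 0 ≤ K ^ 2 * S.e1 φ (S.DY φ y) (v y) := by positivity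
            rw [hC1]
            nlinarith [mul_nonneg h5 (add_nonneg he1 h4), mul_nonneg hC.le h6, mul_nonneg hC.le h4]
          · push Not at hε
            have h2 := u570_PR S φ (S.DY φ (z y)) (Om y) 1 (v y) (hA.slw v hv y)
            have h3 : R * nsf (fun w => v y w - S.PR φ (S.DY φ (z y)) (Om y) 1 (v y) w) ≤
                R * (4 * nsf (v y)) := mul_le_mul_of_nonneg_left h2 hRp.le
            refine h3.trans ?_
            have h4 : δ ^ 2 ≤ (K * ρ y / R) ^ 2 := pow_le_pow_left₀ hδ.le hε.le 2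
            have h5 : R * (4 * nsf (v y)) ≤ 4 * K ^ 2 / δ ^ 2 * (1 / R * (ρ y ^ 2 * nsf (v y))) := by
              have h6 : 4 * K ^ 2 / δ ^ 2 * (1 / R * (ρ y ^ 2 * nsf (v y))) =
                  (K * ρ y / R) ^ 2 / δ ^ 2 * (R * (4 * nsf (v y))) := by
                field_simp
              rw [h6]
              have h7 : 1 ≤ (K * ρ y / R) ^ 2 / δ ^ 2 := by
                rw [one_le_div (by positivity)]
                exact h4
              have h8 : 0 ≤ R * (4 * nsf (v y)) := by positivity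
              nlinarith
            refine h5.trans ?_
            have h6 : 0 ≤ 1 / R * (ρ y ^ 2 * nsf (v y)) := by positivity
            have h7 : 4 * K ^ 2 / δ ^ 2 ≤ C1 := by
              rw [hC1]
              have : 0 ≤ C * (1 + K ^ 2) := by positivity
              linarith
            have h8 := mul_le_mul_of_nonneg_right h7 h6
            have h9 : 0 ≤ C1 * S.e1 φ (S.DY φ y) (v y) := by positivity
            linarith
        · push Not at hvy
          have h0 : v y = fun _ => 0 := funext hvy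
          rw [h0]
          simp only [pr359_zero, sub_zero, nsf359_zero]
          have := e1359_nonneg S φ (S.DY φ y) (fun _ => (0 : F))
          positivity
    rw [integral_const_mul, integral_const_mul, integral_add he1i (hρv.1.const_mul (1 / R)),
      integral_const_mul, he1e, ← hρv.2] at h1
    have h2 := mul_le_mul_of_nonneg_left h1 hRp.le
    rw [mul_inv_cancel_left₀ hRp.ne'] at h2
    refine h2.trans (mul_le_mul_of_nonneg_left ?_ hC1p.le)
    linarith
  · -- frozen coefficients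
    intro hρs β
    have hQρ : ∀ β, Integrable (fun y => ρ y ^ 2 * nsf (S.Q1 φ β v y)) ∧
        ns2 (mul2 (fun y _ => ρ y) (S.Q1 φ β v)) = ∫ y, ρ y ^ 2 * nsf (S.Q1 φ β v y) :=
      fun β => u570_int _ (ht1 β) ρ hρc
    have hei : Integrable (fun y => ρ y ^ 2 * S.e1 φ (S.DY φ y) (v y)) := by
      have h1 : Integrable (fun y => (1 / 16 : ℝ) * ∑ β, ρ y ^ 2 * nsf (S.Q1 φ β v y)) :=
        (integrable_finsetSum _ fun β _ => (hQρ β).1).const_mul _
      refine h1.congr (Eventually.of_forall fun y => ?_)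
      show (1 / 16 : ℝ) * ∑ β, ρ y ^ 2 * nsf (S.Q1 φ β v y) =
        ρ y ^ 2 * ((1 / 16 : ℝ) * ∑ β, nsf (S.Q1 φ β v y))
      rw [← Finset.mul_sum]
      ring
    have hee : ∫ y, ρ y ^ 2 * S.e1 φ (S.DY φ y) (v y) =
        (1 / 16) * S.E1 φ (mul2 (fun y _ => ρ y) v) := by
      have h1 : (fun y => ρ y ^ 2 * S.e1 φ (S.DY φ y) (v y)) =
          fun y => (1 / 16 : ℝ) * ∑ β, ρ y ^ 2 * nsf (S.Q1 φ β v y) := by
        funext y
        show ρ y ^ 2 * ((1 / 16 : ℝ) * ∑ β, nsf (S.Q1 φ β v y)) = _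
        rw [← Finset.mul_sum]
        ring
      rw [h1, integral_const_mul, integral_finsetSum _ fun β _ => (hQρ β).1]
      unfold Setup.E1
      congr 1
      refine Finset.sum_congr rfl fun β _ => ?_
      rw [u570_Q1 hA S φ β v hv ρ]
      exact ((hQρ β).2).symm
    have hE1ρ : 0 ≤ S.E1 φ (mul2 (fun y _ => ρ y) v) := Finset.sum_nonneg fun β _ => hB.nonneg _
    have h1 : ns2 (fun y w => S.Q1 φ β v y w - S.q1 φ (S.DY φ (z y)) β (v y) w) ≤
        ∫ y, C1 / R ^ 2 * (ρ y ^ 2 * S.e1 φ (S.DY φ y) (v y) + R * (ρ y ^ 2 * nsf (v y))) := by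
      refine int359 _ _ ((hei.add (hρv.1.const_mul R)).const_mul (C1 / R ^ 2)) ?_ ?_
      · intro y
        have := e1359_nonneg S φ (S.DY φ y) (v y)
        have := nsf359_nonneg (v y)
        positivity
      · intro y
        have hn := nsf359_nonneg (v y)
        have he1 := e1359_nonneg S φ (S.DY φ y) (v y)
        have hρy := hρ0 y
        by_cases hvy : ∃ w, v y w ≠ 0
        · obtain ⟨w, hw⟩ := hvy
          obtain ⟨k1, k2, k3, k4⟩ := key y w hw
          have hε : K * ρ y / R ≤ δ := by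
            rw [div_le_iff₀ hRp]
            calc K * ρ y ≤ K * (e * R) := mul_le_mul_of_nonneg_left (hρs y w hw) hK.le
              _ = K * e * R := by ring
              _ ≤ δ * R := mul_le_mul_of_nonneg_right heδ hRp.le
          have h2 := ((H _ _ k1 k2 k3 R hRp (K * ρ y / R) (by positivity) hε (S.DY φ y) k4).2
            (v y) (hA.slw v hv y)).2.2 β
          rw [hsc y] at h2
          refine h2.trans ?_
          have h3 : C * (K * ρ y / R) ^ 2 * (S.e1 φ (S.DY φ y) (v y) + R * nsf (v y)) =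
              C * K ^ 2 / R ^ 2 * (ρ y ^ 2 * S.e1 φ (S.DY φ y) (v y) + R * (ρ y ^ 2 * nsf (v y))) := by
            field_simp
          rw [h3]
          refine mul_le_mul_of_nonneg_right ?_ (by positivity)
          refine div_le_div_of_nonneg_right ?_ (by positivity)
          rw [hC1]
          have h4 : 0 ≤ 4 * K ^ 2 / δ ^ 2 := by positivity
          nlinarith
        · push Not at hvy
          have h0 : v y = fun _ => 0 := funext hvy
          have hzz : ∀ w, S.Q1 φ β v y w - S.q1 φ (S.DY φ (z y)) β (v y) w = 0 := by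
            intro w
            rw [Setup.Q1_eq, h0, q1359_zero, q1359_zero, sub_zero]
          have h2 : nsf (fun w => S.Q1 φ β v y w - S.q1 φ (S.DY φ (z y)) β (v y) w) = 0 := by
            simp only [hzz, nsf359_zero]
          rw [h2]
          positivity
    rw [integral_const_mul, integral_add hei (hρv.1.const_mul R), integral_const_mul, hee,
      ← hρv.2] at h1
    refine h1.trans (mul_le_mul_of_nonneg_left ?_ (by positivity))
    linarith

end Vale.Agent.P353.Z.AN
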