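import Vale.Agent.P353.AN.C.StmtU

/-! # P353, all `N`, block C, C-U1: Poincaré inequality with constant `c1 · λ_min(M)` -/

open MeasureTheory Filter Topology Matrix
open scoped ContDiff

namespace Vale.Agent.P353.Z.AN

namespace UPoi

section General

variable {ι : Type} [Fintype ι] [DecidableEq ι]

/-- spectral theorem with index set `ι` -/
theorem exists_basis (M : EuclideanSpace ℝ ι →L[ℝ] EuclideanSpace ℝ ι)
    (hM : ∀ v w, inner ℝ (M v) w = inner ℝ v (M w)) (c : ℝ)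
    (hc : ∀ w, c * ‖w‖ ^ 2 ≤ inner ℝ w (M w)) :
    ∃ (b : OrthonormalBasis ι ℝ (EuclideanSpace ℝ ι)) (l : ι → ℝ),
      (∀ i, M (b i) = l i • b i) ∧ ∀ i, c ≤ l i := by
  have hs : (M : EuclideanSpace ℝ ι →ₗ[ℝ] EuclideanSpace ℝ ι).IsSymmetric := fun v w => hM v w
  have hn : Module.finrank ℝ (EuclideanSpace ℝ ι) = Fintype.card ι := finrank_euclideanSpace
  let e : Fin (Fintype.card ι) ≃ ι := (Fintype.equivFin ι).symm
  have h1 : ∀ i, M ((hs.eigenvectorBasis hn).reindex e i) =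
      (hs.eigenvalues hn (e.symm i)) • (hs.eigenvectorBasis hn).reindex e i := by
    intro i
    rw [OrthonormalBasis.reindex_apply]
    exact hs.apply_eigenvectorBasis hn (e.symm i)
  refine ⟨(hs.eigenvectorBasis hn).reindex e, fun i => hs.eigenvalues hn (e.symm i), h1, ?_⟩
  intro i
  have h2 := hc ((hs.eigenvectorBasis hn).reindex e i)
  rw [h1 i, inner_smul_right, real_inner_self_eq_norm_sq, OrthonormalBasis.norm_eq_one] at h2
  simpa using h2

/-- the normalising map -/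
noncomputable def TT (b : OrthonormalBasis ι ℝ (EuclideanSpace ℝ ι)) (l : ι → ℝ) :
    EuclideanSpace ℝ ι →L[ℝ] EuclideanSpace ℝ ι :=
  ∑ i, (EuclideanSpace.proj i : EuclideanSpace ℝ ι →L[ℝ] ℝ).smulRight ((Real.sqrt (l i))⁻¹ • b i)

theorem TT_apply (b : OrthonormalBasis ι ℝ (EuclideanSpace ℝ ι)) (l : ι → ℝ)
    (z : EuclideanSpace ℝ ι) : TT b l z = ∑ i, z i • ((Real.sqrt (l i))⁻¹ • b i) := by
  simp [TT]

theorem TT_single (b : OrthonormalBasis ι ℝ (EuclideanSpace ℝ ι)) (l : ι → ℝ) (i : ι) :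
    TT b l (EuclideanSpace.single i 1) = (Real.sqrt (l i))⁻¹ • b i := by
  rw [TT_apply, Finset.sum_eq_single i]
  · simp
  · intro j _ hj
    simp [hj]
  · intro h
    exact absurd (Finset.mem_univ i) h

theorem M_TT (M : EuclideanSpace ℝ ι →L[ℝ] EuclideanSpace ℝ ι)
    (b : OrthonormalBasis ι ℝ (EuclideanSpace ℝ ι)) (l : ι → ℝ) (hb : ∀ i, M (b i) = l i • b i)
    (hl : ∀ i, 0 < l i) (z : EuclideanSpace ℝ ι) :
    M (TT b l z) = ∑ i, z i • (Real.sqrt (l i) • b i) := by
  rw [TT_apply, map_sum]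
  refine Finset.sum_congr rfl fun i _ => ?_
  rw [map_smul, map_smul, hb, smul_smul (Real.sqrt (l i))⁻¹]
  congr 2
  have h1 : Real.sqrt (l i) ≠ 0 := (Real.sqrt_pos.2 (hl i)).ne'
  have h2 : Real.sqrt (l i) * Real.sqrt (l i) = l i := Real.mul_self_sqrt (hl i).le
  field_simp
  rw [sq, h2]

theorem inner_M_TT (M : EuclideanSpace ℝ ι →L[ℝ] EuclideanSpace ℝ ι)
    (b : OrthonormalBasis ι ℝ (EuclideanSpace ℝ ι)) (l : ι → ℝ) (hb : ∀ i, M (b i) = l i • b i)
    (hl : ∀ i, 0 < l i) (z : EuclideanSpace ℝ ι) (i : ι) :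
    inner ℝ (M (TT b l z)) (TT b l (EuclideanSpace.single i 1)) = z i := by
  rw [M_TT M b l hb hl, TT_single, sum_inner, Finset.sum_eq_single i]
  · rw [inner_smul_left, inner_smul_left, inner_smul_right, real_inner_self_eq_norm_sq,
      OrthonormalBasis.norm_eq_one]
    have h1 : Real.sqrt (l i) ≠ 0 := (Real.sqrt_pos.2 (hl i)).ne'
    simp [h1]
  · intro j _ hj
    rw [inner_smul_left, inner_smul_left, inner_smul_right, b.inner_eq_zero hj]
    simp
  · intro h
    exact absurd (Finset.mem_univ i) h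

theorem inner_TT (M : EuclideanSpace ℝ ι →L[ℝ] EuclideanSpace ℝ ι)
    (b : OrthonormalBasis ι ℝ (EuclideanSpace ℝ ι)) (l : ι → ℝ) (hb : ∀ i, M (b i) = l i • b i)
    (hl : ∀ i, 0 < l i) (z : EuclideanSpace ℝ ι) :
    inner ℝ (TT b l z) (M (TT b l z)) = ‖z‖ ^ 2 := by
  have hz : z = ∑ i, z i • EuclideanSpace.single i (1 : ℝ) := by
    have := (EuclideanSpace.basisFun ι ℝ).sum_repr z
    simpa using this.symm
  have h1 : TT b l z = ∑ i, z i • TT b l (EuclideanSpace.single i 1) := by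
    conv_lhs => rw [hz]
    rw [map_sum]
    exact Finset.sum_congr rfl fun i _ => map_smul _ _ _
  conv_lhs => rw [real_inner_comm]
  rw [show inner ℝ (M (TT b l z)) (TT b l z) =
    inner ℝ (M (TT b l z)) (∑ i, z i • TT b l (EuclideanSpace.single i 1)) from by rw [← h1],
    inner_sum, EuclideanSpace.norm_sq_eq]
  refine Finset.sum_congr rfl fun i _ => ?_
  rw [inner_smul_right, inner_M_TT M b l hb hl, Real.norm_eq_abs, sq_abs, sq]

theorem TT_inj (b : OrthonormalBasis ι ℝ (EuclideanSpace ℝ ι)) (l : ι → ℝ)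
    (hl : ∀ i, 0 < l i) : Function.Injective (TT b l) := by
  intro z z' h
  ext i
  have h1 : ∀ y : EuclideanSpace ℝ ι, inner ℝ (b i) (TT b l y) = (Real.sqrt (l i))⁻¹ * y i := by
    intro y
    rw [TT_apply, inner_sum, Finset.sum_eq_single i]
    · rw [inner_smul_right, inner_smul_right, real_inner_self_eq_norm_sq,
        OrthonormalBasis.norm_eq_one]
      ring
    · intro j _ hj
      rw [inner_smul_right, inner_smul_right, b.inner_eq_zero (Ne.symm hj)]
      simp
    · intro h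
      exact absurd (Finset.mem_univ i) h
  have h2 := h1 z
  rw [h, h1 z'] at h2
  have h3 : (Real.sqrt (l i))⁻¹ ≠ 0 := inv_ne_zero (Real.sqrt_pos.2 (hl i)).ne'
  exact (mul_left_cancel₀ h3 h2).symm

theorem TT_det (b : OrthonormalBasis ι ℝ (EuclideanSpace ℝ ι)) (l : ι → ℝ)
    (hl : ∀ i, 0 < l i) :
    LinearMap.det (TT b l : EuclideanSpace ℝ ι →ₗ[ℝ] EuclideanSpace ℝ ι) ≠ 0 := by
  have h1 : Function.Injective (TT b l : EuclideanSpace ℝ ι →ₗ[ℝ] EuclideanSpace ℝ ι) :=
    TT_inj b l hl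
  have h2 := (LinearEquiv.ofInjectiveEndo _ h1).isUnit_det'
  have h3 : ((LinearEquiv.ofInjectiveEndo _ h1 : EuclideanSpace ℝ ι ≃ₗ[ℝ] EuclideanSpace ℝ ι) :
      EuclideanSpace ℝ ι →ₗ[ℝ] EuclideanSpace ℝ ι) = TT b l := LinearMap.ext fun _ => rfl
  rw [h3] at h2
  exact h2.ne_zero

/-- substitution -/
theorem int_comp {G : Type*} [NormedAddCommGroup G] [NormedSpace ℝ G]
    (b : OrthonormalBasis ι ℝ (EuclideanSpace ℝ ι)) (l : ι → ℝ)
    (hl : ∀ i, 0 < l i) (φ : EuclideanSpace ℝ ι → G) :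
    ∫ z, φ (TT b l z) =
      |(LinearMap.det (TT b l : EuclideanSpace ℝ ι →ₗ[ℝ] EuclideanSpace ℝ ι))⁻¹| • ∫ w, φ w := by
  have hinj : Function.Injective (TT b l : EuclideanSpace ℝ ι →ₗ[ℝ] EuclideanSpace ℝ ι) :=
    TT_inj b l hl
  let L : EuclideanSpace ℝ ι ≃L[ℝ] EuclideanSpace ℝ ι :=
    (LinearEquiv.ofInjectiveEndo _ hinj).toContinuousLinearEquiv
  have hemb : MeasurableEmbedding (TT b l) := L.toHomeomorph.measurableEmbedding
  have h1 := hemb.integral_map (μ := volume) φ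
  rw [← h1]
  have h2 : Measure.map (TT b l) (volume : Measure (EuclideanSpace ℝ ι)) =
      ENNReal.ofReal |(LinearMap.det (TT b l : EuclideanSpace ℝ ι →ₗ[ℝ] EuclideanSpace ℝ ι))⁻¹| •
        (volume : Measure (EuclideanSpace ℝ ι)) :=
    Measure.map_linearMap_addHaar_eq_smul_addHaar volume (TT_det b l hl)
  rw [h2, integral_smul_measure, ENNReal.toReal_ofReal (abs_nonneg _)]

end General

section HS

variable {ι : Type} [Fintype ι] [DecidableEq ι] {F : Type*} [NormedAddCommGroup F]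
  [InnerProductSpace ℂ F]

/-- the Hilbert–Schmidt norm does not depend on the orthonormal basis -/
theorem hs_eq (A : EuclideanSpace ℝ ι →ₗ[ℝ] F) (b : OrthonormalBasis ι ℝ (EuclideanSpace ℝ ι)) :
    ∑ i, ‖A (b i)‖ ^ 2 = ∑ i, ‖A (EuclideanSpace.single i 1)‖ ^ 2 := by
  let _ : InnerProductSpace ℝ F := InnerProductSpace.complexToReal
  have h1 : ∀ i, A (b i) = ∑ j, (b i j) • A (EuclideanSpace.single j 1) := by
    intro i
    have hz : b i = ∑ j, (b i j) • EuclideanSpace.single j (1 : ℝ) := by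
      have := (EuclideanSpace.basisFun ι ℝ).sum_repr (b i)
      simpa using this.symm
    conv_lhs => rw [hz]
    rw [map_sum]
    exact Finset.sum_congr rfl fun j _ => map_smul _ _ _
  have h2 : ∀ i, ‖A (b i)‖ ^ 2 = ∑ j, ∑ k, (b i j) * (b i k) *
      inner ℝ (A (EuclideanSpace.single j 1)) (A (EuclideanSpace.single k 1)) := by
    intro i
    rw [← real_inner_self_eq_norm_sq, h1 i, sum_inner]
    refine Finset.sum_congr rfl fun j _ => ?_
    rw [inner_sum]
    refine Finset.sum_congr rfl fun k _ => ?_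
    rw [real_inner_smul_left, real_inner_smul_right]
    ring
  have h3 : ∀ j k, ∑ i, (b i j) * (b i k) = if j = k then 1 else 0 := by
    intro j k
    have h4 := b.sum_inner_mul_inner (EuclideanSpace.single j (1 : ℝ))
      (EuclideanSpace.single k (1 : ℝ))
    have h5 : ∀ i, inner ℝ (EuclideanSpace.single j (1 : ℝ)) (b i) = b i j := by
      intro i
      rw [EuclideanSpace.inner_single_left]
      simp
    have h6 : ∀ i, inner ℝ (b i) (EuclideanSpace.single k (1 : ℝ)) = b i k := by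
      intro i
      rw [EuclideanSpace.inner_single_right]
      simp
    simp only [h5, h6] at h4
    rw [h4, EuclideanSpace.inner_single_left]
    by_cases hjk : j = k
    · subst hjk
      simp
    · simp [hjk]
  simp only [h2]
  rw [Finset.sum_comm]
  refine Finset.sum_congr rfl fun j _ => ?_
  rw [Finset.sum_comm]
  have h7 : ∀ k, ∑ i, (b i j) * (b i k) *
      inner ℝ (A (EuclideanSpace.single j 1)) (A (EuclideanSpace.single k 1)) =
      if j = k then inner ℝ (A (EuclideanSpace.single j 1)) (A (EuclideanSpace.single k 1))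
        else 0 := by
    intro k
    rw [← Finset.sum_mul, h3]
    split_ifs <;> simp
  simp only [h7]
  rw [Finset.sum_ite_eq]
  simp only [Finset.mem_univ, if_true, real_inner_self_eq_norm_sq]

end HS

/-- the first order operator at `w`, as a linear map of the direction -/
noncomputable def AA {dm : ℕ} {F : Type*} [NormedAddCommGroup F] [InnerProductSpace ℂ F]
    (M : Wsp dm →L[ℝ] Wsp dm) (f : Wsp dm → F) (w : Wsp dm) : Wsp dm →L[ℝ] F :=
  fderiv ℝ f w + ((innerSL ℝ (M w)).smulRight (f w))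

theorem AA_apply {dm : ℕ} {F : Type*} [NormedAddCommGroup F] [InnerProductSpace ℂ F]
    (M : Wsp dm →L[ℝ] Wsp dm) (f : Wsp dm → F) (w v : Wsp dm) :
    AA M f w v = fderiv ℝ f w v + ((inner ℝ (M w) v : ℝ) : ℂ) • f w := by
  simp [AA]

theorem AA_int {dm : ℕ} {F : Type*} [NormedAddCommGroup F] [InnerProductSpace ℂ F]
    (M : Wsp dm →L[ℝ] Wsp dm) (f : Wsp dm → F) (hf : FT f) (v : Wsp dm) :
    Integrable (fun w => ‖AA M f w v‖ ^ 2) := by
  have hc : Continuous (fun w => AA M f w v) := by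
    simp only [AA_apply]
    have h1 : Continuous (fderiv ℝ f) := hf.1.continuous_fderiv (by simp)
    have h2 : Continuous fun w => ((inner ℝ (M w) v : ℝ) : ℂ) :=
      Complex.continuous_ofReal.comp (M.continuous.inner continuous_const)
    exact (h1.clm_apply continuous_const).add (h2.smul hf.1.continuous)
  have hs : HasCompactSupport (fun w => ‖AA M f w v‖ ^ 2) := by
    refine HasCompactSupport.intro hf.2 fun w hw => ?_
    have h1 : f w = 0 := image_eq_zero_of_notMem_tsupport hw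
    have h2 : fderiv ℝ f w = 0 := by
      have h3 : w ∉ tsupport (fderiv ℝ f) := fun h => hw (tsupport_fderiv_subset ℝ h)
      exact image_eq_zero_of_notMem_tsupport h3
    rw [AA_apply, h1, h2]
    simp
  exact (hc.norm.pow 2).integrable_of_hasCompactSupport hs

end UPoi

open UPoi in
/-- **C-U1** -/
theorem uPoi_stmt (dm : ℕ) (F : Type*) [NormedAddCommGroup F] [InnerProductSpace ℂ F] :
    PoiStmt dm F → UPoiStmt dm F := by
  intro hP
  obtain ⟨c1, hc1, h1⟩ := hP (ContinuousLinearMap.id ℝ (Wsp dm)) (fun v w => rfl)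
    ⟨1, one_pos, fun w => by
      rw [one_mul, ContinuousLinearMap.id_apply, real_inner_self_eq_norm_sq]⟩
  refine ⟨c1, hc1, ?_⟩
  intro M hM c hc hcM f hf
  obtain ⟨b, l, hb, hl⟩ := exists_basis M hM c hcM
  have hl0 : ∀ i, 0 < l i := fun i => hc.trans_le (hl i)
  obtain ⟨K, hK⟩ : ∃ K, K = |(LinearMap.det
    (TT b l : Wsp dm →ₗ[ℝ] Wsp dm))⁻¹| := ⟨_, rfl⟩
  have hK0 : 0 < K := by
    rw [hK]
    exact abs_pos.2 (inv_ne_zero (TT_det b l hl0))
  have hcomp : ∀ (φ : Wsp dm → ℝ), ∫ z, φ (TT b l z) = K * ∫ w, φ w := by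
    intro φ
    rw [int_comp b l hl0 φ, hK, smul_eq_mul]
  have hcompF : ∀ (φ : Wsp dm → F), ∫ z, φ (TT b l z) = K • ∫ w, φ w := by
    intro φ
    rw [int_comp b l hl0 φ, hK]
  have hh : FT (fun z => f (TT b l z)) := by
    refine ⟨hf.1.comp (TT b l).contDiff, ?_⟩
    have hinj : Function.Injective (TT b l : Wsp dm →ₗ[ℝ] Wsp dm) := TT_inj b l hl0
    let L : Wsp dm ≃L[ℝ] Wsp dm := (LinearEquiv.ofInjectiveEndo _ hinj).toContinuousLinearEquiv
    exact hf.2.comp_isClosedEmbedding L.toHomeomorph.isClosedEmbedding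
  have h2 := h1 _ hh
  have e1 : ∀ z : Wsp dm, Real.exp (-(1 / 2) * inner ℝ z ((ContinuousLinearMap.id ℝ (Wsp dm)) z)) =
      Real.exp (-(1 / 2) * inner ℝ (TT b l z) (M (TT b l z))) := by
    intro z
    rw [inner_TT M b l hb hl0, ContinuousLinearMap.id_apply, real_inner_self_eq_norm_sq]
  simp only [e1] at h2
  rw [hcomp (fun w => Real.exp (-(1 / 2) * inner ℝ w (M w)) ^ 2),
    hcompF (fun w => ((Real.exp (-(1 / 2) * inner ℝ w (M w)) : ℝ) : ℂ) • f w)] at h2
  -- left side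
  have hL : nsf (fun z : Wsp dm => f (TT b l z) -
      ((Real.exp (-(1 / 2) * inner ℝ (TT b l z) (M (TT b l z))) /
        (K * ∫ w, Real.exp (-(1 / 2) * inner ℝ w (M w)) ^ 2) : ℝ) : ℂ) •
      (K • ∫ w, ((Real.exp (-(1 / 2) * inner ℝ w (M w)) : ℝ) : ℂ) • f w)) =
      K * nsf (fun w => f w - ((Real.exp (-(1 / 2) * inner ℝ w (M w)) /
      ∫ w' : Wsp dm, Real.exp (-(1 / 2) * inner ℝ w' (M w')) ^ 2 : ℝ) : ℂ) •
        ∫ w', ((Real.exp (-(1 / 2) * inner ℝ w' (M w')) : ℝ) : ℂ) • f w') := by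
    unfold nsf
    generalize (∫ w' : Wsp dm, Real.exp (-(1 / 2) * inner ℝ w' (M w')) ^ 2) = I
    generalize (∫ w', ((Real.exp (-(1 / 2) * inner ℝ w' (M w')) : ℝ) : ℂ) • f w') = J
    rw [← hcomp]
    refine integral_congr_ae (Eventually.of_forall fun z => ?_)
    have h3 : ∀ (a I : ℝ) (J : F), ((a / (K * I) : ℝ) : ℂ) • (K • J) = ((a / I : ℝ) : ℂ) • J := by
      intro a I J
      rw [← Complex.coe_smul K J, smul_smul, ← Complex.ofReal_mul]
      congr 2
      by_cases hI : I = 0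
      · simp [hI]
      · field_simp
    simp only [h3]
  rw [hL] at h2
  -- right side
  have hR1 : ∀ (j : Fin 8) (B : Fin dm), nsf (fun w => pf j B (fun z => f (TT b l z)) w +
      ((((ContinuousLinearMap.id ℝ (Wsp dm)) w) (j, B) : ℝ) : ℂ) • f (TT b l w)) =
      K * ∫ w, ‖AA M f w (TT b l (EuclideanSpace.single (j, B) 1))‖ ^ 2 := by
    intro j B
    unfold nsf
    rw [← hcomp]
    refine integral_congr_ae (Eventually.of_forall fun z => ?_)
    have h3 : pf j B (fun z => f (TT b l z)) z =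
        fderiv ℝ f (TT b l z) (TT b l (EuclideanSpace.single (j, B) 1)) := by
      have h4 : HasFDerivAt f (fderiv ℝ f (TT b l z)) (TT b l z) :=
        (hf.1.differentiable (by simp) _).hasFDerivAt
      have h5 := h4.comp z (TT b l).hasFDerivAt
      unfold pf
      have h6 : fderiv ℝ (fun z => f (TT b l z)) z = (fderiv ℝ f (TT b l z)).comp (TT b l) :=
        h5.fderiv
      rw [h6]
      rfl
    simp only
    rw [h3, AA_apply, inner_M_TT M b l hb hl0, ContinuousLinearMap.id_apply]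
  simp only [hR1] at h2
  have hR2 : ∀ (j : Fin 8) (B : Fin dm), nsf (fun w => pf j B f w + ((M w (j, B) : ℝ) : ℂ) • f w) =
      ∫ w, ‖AA M f w (EuclideanSpace.single (j, B) 1)‖ ^ 2 := by
    intro j B
    unfold nsf
    refine integral_congr_ae (Eventually.of_forall fun w => ?_)
    have h3 : inner ℝ (M w) (EuclideanSpace.single (j, B) (1 : ℝ)) = M w (j, B) := by
      rw [EuclideanSpace.inner_single_right]
      simp
    simp only
    rw [AA_apply, h3]
    rfl
  simp only [hR2]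
  have hsum : ∑ p : Fin 8 × Fin dm, ∫ w, ‖AA M f w (TT b l (EuclideanSpace.single p 1))‖ ^ 2 ≤
      c⁻¹ * ∑ p : Fin 8 × Fin dm, ∫ w, ‖AA M f w (EuclideanSpace.single p 1)‖ ^ 2 := by
    rw [← integral_finsetSum _ (fun p _ => AA_int M f hf _),
      ← integral_finsetSum _ (fun p _ => AA_int M f hf _), ← integral_const_mul]
    refine integral_mono (integrable_finsetSum _ fun p _ => AA_int M f hf _)
      ((integrable_finsetSum _ fun p _ => AA_int M f hf _).const_mul _) fun w => ?_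
    simp only
    have h3 := hs_eq (AA M f w : Wsp dm →ₗ[ℝ] F) b
    have h4 : ∑ p : Fin 8 × Fin dm, ‖AA M f w (EuclideanSpace.single p 1)‖ ^ 2 =
        ∑ p, ‖AA M f w (b p)‖ ^ 2 := h3.symm
    rw [h4, Finset.mul_sum]
    refine Finset.sum_le_sum fun p _ => ?_
    rw [TT_single, map_smul, norm_smul, mul_pow]
    refine mul_le_mul_of_nonneg_right ?_ (sq_nonneg _)
    rw [Real.norm_eq_abs, sq_abs, inv_pow, Real.sq_sqrt (hl0 p).le]
    exact inv_anti₀ hc (hl p)
  rw [Fintype.sum_prod_type, Fintype.sum_prod_type] at hsum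
  simp only [← Finset.mul_sum] at h2
  have h5 : c1 * (K * nsf (fun w => f w - ((Real.exp (-(1 / 2) * inner ℝ w (M w)) /
      ∫ w' : Wsp dm, Real.exp (-(1 / 2) * inner ℝ w' (M w')) ^ 2 : ℝ) : ℂ) •
        ∫ w', ((Real.exp (-(1 / 2) * inner ℝ w' (M w')) : ℝ) : ℂ) • f w')) ≤
      K * (c⁻¹ * ∑ x : Fin 8, ∑ y : Fin dm,
        ∫ w, ‖AA M f w (EuclideanSpace.single (x, y) 1)‖ ^ 2) :=
    h2.trans (mul_le_mul_of_nonneg_left hsum hK0.le)
  have h6 : c1 * nsf (fun w => f w - ((Real.exp (-(1 / 2) * inner ℝ w (M w)) /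
      ∫ w' : Wsp dm, Real.exp (-(1 / 2) * inner ℝ w' (M w')) ^ 2 : ℝ) : ℂ) •
        ∫ w', ((Real.exp (-(1 / 2) * inner ℝ w' (M w')) : ℝ) : ℂ) • f w') ≤
      c⁻¹ * ∑ x : Fin 8, ∑ y : Fin dm,
        ∫ w, ‖AA M f w (EuclideanSpace.single (x, y) 1)‖ ^ 2 := by
    refine le_of_mul_le_mul_left ?_ hK0
    calc _ = _ := by ring
      _ ≤ _ := h5
  have h7 := mul_le_mul_of_nonneg_left h6 hc.le
  rw [← mul_assoc c c⁻¹, mul_inv_cancel₀ hc.ne', one_mul] at h7
  calc _ = _ := by ring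
    _ ≤ _ := h7

end Vale.Agent.P353.Z.AN
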