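import Vale.Agent.P353.AN.B.All
import Vale.Agent.P353.AN.A.Bd
import Vale.Agent.P353.AN.C.CalcA
import Vale.Agent.P353.AN.C.CalcB
import Vale.Agent.P353.AN.C.Op
import Vale.Agent.P353.AN.C.Coef
import Vale.Agent.P353.AN.C.Fib
import Vale.Agent.P353.AN.C.FInt
import Vale.Agent.P353.AN.C.Cross
import Vale.Agent.P353.AN.C.Par
import Vale.Agent.P353.AN.C.Gen
import Vale.Agent.P353.AN.C.EnH
import Vale.Agent.P353.AN.C.Mass
import Vale.Agent.P353.AN.C.Rem
import Vale.Agent.P353.AN.C.Crude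
import Vale.Agent.P353.AN.C.Out
import Vale.Agent.P353.AN.C.Frame
import Vale.Agent.P353.AN.C.UPoi
import Vale.Agent.P353.AN.C.ULam
import Vale.Agent.P353.AN.C.UOm
import Vale.Agent.P353.AN.C.UGap
import Vale.Agent.P353.AN.C.UPert
import Vale.Agent.P353.AN.C.UFib
import Vale.Agent.P353.AN.C.UOut

/-! # P353, all `N`, block C: assembly (unconditional outputs) -/

namespace Vale.Agent.P353.Z.AN

variable {d dh dm : ℕ} {F : Type*} [NormedAddCommGroup F] [InnerProductSpace ℂ F]

theorem opAll (S : Setup d F) (φ : Spl dh dm d) : OpStmt S φ := op_stmt S φ (calcA dh dm F) (calcB dh dm F (calcA dh dm F))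

theorem coefAll (S : Setup d F) (φ : Spl dh dm d) : CoefStmt S φ := coef_stmt S φ (bd_stmt S)

theorem fIntAll (S : Setup d F) (φ : Spl dh dm d) : FIntStmt S φ :=
  fInt_stmt S φ (calcA dh dm F) (calcB dh dm F (calcA dh dm F)) (opAll S φ)

theorem crossAll (S : Setup d F) (φ : Spl dh dm d) : CrossStmt S φ :=
  cross_stmt S φ (calcA dh dm F) (calcB dh dm F (calcA dh dm F)) (opAll S φ)

theorem parAll (S : Setup d F) (φ : Spl dh dm d) : ParStmt S φ :=
  par_stmt S φ (calcA dh dm F) (calcB dh dm F (calcA dh dm F)) (opAll S φ)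

theorem enHAll (S : Setup d F) (φ : Spl dh dm d) : EnHStmt S φ :=
  enH_stmt S φ (calcA dh dm F) (calcB dh dm F (calcA dh dm F)) fun S' => gen_stmt S'

theorem massAll (S : Setup d F) (φ : Spl dh dm d) : MassStmt S φ :=
  mass_stmt S φ (calcA dh dm F) (calcB dh dm F (calcA dh dm F))

theorem remAll (S : Setup d F) (φ : Spl dh dm d) : RemStmt S φ :=
  rem_stmt S φ (calcA dh dm F) (calcB dh dm F (calcA dh dm F)) (opAll S φ) (fIntAll S φ) (enHAll S φ)

theorem crudeAll (S : Setup d F) (φ : Spl dh dm d) : CrudeStmt S φ :=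
  crude_stmt S φ (calcA dh dm F) (calcB dh dm F (calcA dh dm F)) (opAll S φ) (fIntAll S φ) (crossAll S φ) (parAll S φ) (remAll S φ)

/-- **C-Fib**, unconditional -/
theorem fibOutAll (S : Setup d F) (φ : Spl dh dm d) : FibOutStmt S φ := fibOut_stmt S φ om (fibAll S φ)

/-- **C-Out**, unconditional -/
theorem outAll (S : Setup d F) (φ : Spl dh dm d) : OutStmt S φ :=
  out_stmt S φ (calcA dh dm F) (calcB dh dm F (calcA dh dm F)) (opAll S φ) (coefAll S φ) (fibOutAll S φ) (fIntAll S φ) (enHAll S φ)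
    (massAll S φ) (crudeAll S φ)

/-- **C-Frame**, unconditional -/
theorem frameAll (S : Setup d F) : FrameStmt S := frame_stmt S

theorem uGapAll (S : Setup d F) (φ : Spl dh dm d) : UGapStmt S φ := by
  intro hF
  have := FiniteDimensional.complete ℂ F
  exact uGap_stmt S φ alg qfS (enF S φ alg) (uPoi_stmt dm F (poi dm F)) (uLam_stmt S φ (lamS S φ)) (uOm_stmt alg) hF

theorem uFibAll (S : Setup d F) (φ : Spl dh dm d) : UFibStmt S φ :=
  uFib_stmt S φ alg (scaleF S φ) (fibAll S φ) (uGapAll S φ) (uPert_stmt S φ)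

/-- **C-UOut**, unconditional -/
theorem uOutAll (S : Setup d F) (φ : Spl dh dm d) : UOutStmt S φ :=
  uOut_stmt S φ (calcA dh dm F) (calcB dh dm F (calcA dh dm F)) (opAll S φ) (coefAll S φ) om (f0S S φ) (uFibAll S φ)

end Vale.Agent.P353.Z.AN
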