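import Vale.Agent.P353.AN.C.Stmt

/-! # P353, all `N`, block C: the crude bound (S3) -/

open MeasureTheory Filter Topology
open scoped ContDiff

namespace Vale.Agent.P353.Z.AN

set_option linter.unusedSectionVars false

variable {d dh dm : ℕ} {F : Type*} [NormedAddCommGroup F] [InnerProductSpace ℂ F]

/-- enlarging the tube -/
private theorem h459_sup {Y : Cfg dh} {e e' R : ℝ} {v : Cfg dh → Wsp dm → F} (h : Sup2 Y e' R v) (hR : 0 < R)
    (he : e' ≤ e) : Sup2 Y e R v := by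
  intro y w hv
  have key : e' * R ≤ e * R := mul_le_mul_of_nonneg_right he hR.le
  exact ⟨(h y w hv).1.trans key, (h y w hv).2.trans key⟩

/-- lower bound of `∑|Qv|²` by the square of `Q^h + Q¹` and the remainder -/
private theorem h459_low {S : Setup d F} {φ : Spl dh dm d} (hA : CalcA dh dm F) (hB : CalcB dh dm F)
    {N : Fin 9 → Matrix (Fin 16) (Fin 16) ℂ} {Y : Cfg dh} {ε0 : ℝ} (hO : OpFacts S φ N Y ε0)
    {R : ℝ} (hR : 0 < R) (m : ℝ) {v : Cfg dh → Wsp dm → F} (hv : Tst2 v) (hs : Sup2 Y ε0 R v) :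
    (1 / 2) * (S.EH φ N m v + S.E1 φ v + 2 * ∑ β, (ip2 (S.Qhm φ N m β v) (S.Q1 φ β v)).re) -
      ∑ β, ns2 (fun y w => S.Qr φ β v y w + (m : ℂ) • S.Mw φ N β w (v y w)) ≤ S.ES φ N m v := by
  have key : ∀ β : Fin 16, (1 / 2) * (ns2 (S.Qhm φ N m β v) + ns2 (S.Q1 φ β v) +
      2 * (ip2 (S.Qhm φ N m β v) (S.Q1 φ β v)).re) -
      ns2 (fun y w => S.Qr φ β v y w + (m : ℂ) • S.Mw φ N β w (v y w)) ≤ ns2 (S.QS φ N m β v) := by
    intro β
    have hth := hO.th v hv m β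
    have ht1 := hO.t1 R hR v hv hs β
    have htr : Tst2 (fun y w => S.Qr φ β v y w + (m : ℂ) • S.Mw φ N β w (v y w)) :=
      hA.add _ _ (hO.tr R hR v hv hs β) (hA.smul _ _ (hO.tm v hv β))
    have h1 := hB.ns_add _ _ hth ht1
    have h2 := hB.ns_add_ge _ _ (hA.add _ _ hth ht1) htr
    rw [h1] at h2
    exact h2
  have hsum := Finset.sum_le_sum fun β (_ : β ∈ Finset.univ) => key β
  rw [Finset.sum_sub_distrib, ← Finset.mul_sum, Finset.sum_add_distrib, Finset.sum_add_distrib,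
    ← Finset.mul_sum] at hsum
  exact hsum

/-- constants for the cross term -/
private theorem h459_cross {Cc M A R n K X a w : ℝ} (hCc0 : 0 ≤ Cc) (hA0 : 0 < A) (hK0 : 0 ≤ K)
    (hCcM : Cc * M ≤ A / 4) (hR : 0 < R) (ha : a ≤ n) {D W : ℝ} (hw : w = D + R ^ 2 * W) (hwb : w ≤ M * K)
    (hX : |X| ≤ Cc * (A / R ^ 2 * a + (A / R ^ 2)⁻¹ * (1 / R ^ 2 * D + W))) :
    |X| ≤ Cc * A * (1 / R ^ 2) * n + (1 / 4) * K := by
  have e1 : (A / R ^ 2)⁻¹ * (1 / R ^ 2 * D + W) = (1 / A) * w := by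
    rw [hw]
    field_simp
  rw [e1] at hX
  have e2 : Cc * ((1 / A) * w) ≤ (1 / 4) * K := by
    have h0 : (0 : ℝ) ≤ 1 / A := by positivity
    have h1 : Cc * ((1 / A) * w) ≤ Cc * ((1 / A) * (M * K)) :=
      mul_le_mul_of_nonneg_left (mul_le_mul_of_nonneg_left hwb h0) hCc0
    have h2 : Cc * ((1 / A) * (M * K)) = (1 / A) * ((Cc * M) * K) := by ring
    have h3 : (1 / A) * ((Cc * M) * K) ≤ (1 / A) * ((A / 4) * K) :=
      mul_le_mul_of_nonneg_left (mul_le_mul_of_nonneg_right hCcM hK0) h0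
    have h4 : (1 / A) * ((A / 4) * K) = (1 / 4) * K := by field_simp
    linarith
  have e3 : Cc * (A / R ^ 2 * a) ≤ Cc * A * (1 / R ^ 2) * n := by
    have h0 : (0 : ℝ) ≤ A / R ^ 2 := by positivity
    have h1 : Cc * (A / R ^ 2 * a) ≤ Cc * (A / R ^ 2 * n) :=
      mul_le_mul_of_nonneg_left (mul_le_mul_of_nonneg_left ha h0) hCc0
    have h2 : Cc * (A / R ^ 2 * n) = Cc * A * (1 / R ^ 2) * n := by ring
    linarith
  have e4 : Cc * (A / R ^ 2 * a + (1 / A) * w) = Cc * (A / R ^ 2 * a) + Cc * ((1 / A) * w) := by ring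
  linarith

/-- smallness of the constants of the remainder -/
private theorem h459_small {Cr e R : ℝ} (hCr : 0 ≤ Cr) (he0 : 0 ≤ e) (he : e ≤ 1 / (4 * (Cr + 1)))
    (hR : 4 * (Cr + 1) ≤ R) : Cr * (e ^ 2 + 1 / R ^ 2) ≤ 1 / 8 := by
  have hc1 : (0 : ℝ) < Cr + 1 := by linarith
  have h2 : e ^ 2 ≤ (1 / (4 * (Cr + 1))) ^ 2 := by gcongr
  have h3 : 1 / R ^ 2 ≤ (1 / (4 * (Cr + 1))) ^ 2 := by
    rw [div_pow, one_pow]
    gcongr
  have h4 : Cr * (1 / (4 * (Cr + 1))) ^ 2 ≤ 1 / 16 := by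
    rw [div_pow, one_pow, mul_one_div, div_le_div_iff₀ (by positivity) (by norm_num)]
    nlinarith
  calc Cr * (e ^ 2 + 1 / R ^ 2) ≤ Cr * ((1 / (4 * (Cr + 1))) ^ 2 + (1 / (4 * (Cr + 1))) ^ 2) := by gcongr
    _ = 2 * (Cr * (1 / (4 * (Cr + 1))) ^ 2) := by ring
    _ ≤ 2 * (1 / 16) := by gcongr
    _ = 1 / 8 := by norm_num

/-- final arithmetic -/
private theorem h459_fin {Cc Cr A R m n K H X Rm ES e : ℝ} (hCc0 : 0 ≤ Cc) (hCr0 : 0 ≤ Cr) (hA0 : 0 < A)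
    (hR : 0 < R) (hn0 : 0 ≤ n) (hK0 : 0 ≤ K) (hH0 : 0 ≤ H) (hES0 : 0 ≤ ES)
    (hsmall : Cr * (e ^ 2 + 1 / R ^ 2) ≤ 1 / 8)
    (hX : |X| ≤ Cc * A * (1 / R ^ 2) * n + (1 / 4) * K)
    (hlow : (1 / 2) * (H + K + 2 * X) - Rm ≤ ES)
    (hrem : Rm ≤ Cr * (e ^ 2 + 1 / R ^ 2) * (H + K) + Cr * (1 / R ^ 2 + m ^ 2 / R) * n) :
    H + K ≤ 8 * (1 + Cc * A + Cr) * (ES + (1 / R ^ 2 + m ^ 2 / R) * n) := by
  have hmR : 0 ≤ m ^ 2 / R := by positivity
  have hRR : 0 ≤ 1 / R ^ 2 := by positivity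
  have hCA : 0 ≤ Cc * A := mul_nonneg hCc0 hA0.le
  have h1 : Cr * (e ^ 2 + 1 / R ^ 2) * (H + K) ≤ (1 / 8) * (H + K) :=
    mul_le_mul_of_nonneg_right hsmall (by linarith)
  generalize hq : 1 / R ^ 2 + m ^ 2 / R = q at *
  have hqn : (1 / R ^ 2) * n ≤ q * n := mul_le_mul_of_nonneg_right (by linarith) hn0
  have hqn0 : 0 ≤ q * n := mul_nonneg (by linarith) hn0
  have h2 : Cc * A * (1 / R ^ 2) * n ≤ Cc * A * (q * n) := by
    have := mul_le_mul_of_nonneg_left hqn hCA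
    linarith
  have h3 : Cr * q * n = Cr * (q * n) := by ring
  have h4 : -X ≤ Cc * A * (q * n) + (1 / 4) * K := (neg_le_abs X).trans (by linarith)
  have h5 : (1 / 8) * (H + K) ≤ ES + (Cc * A * (q * n) + Cr * (q * n)) := by linarith
  have h6 : 0 ≤ (Cc * A + Cr) * ES := mul_nonneg (add_nonneg hCA hCr0) hES0
  have h7 : 8 * (1 + Cc * A + Cr) * (ES + q * n) = 8 * (ES + (Cc * A * (q * n) + Cr * (q * n))) +
      8 * ((Cc * A + Cr) * ES) + 8 * (q * n) := by ring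
  linarith

theorem crude_stmt (S : Setup d F) (φ : Spl dh dm d) : CalcA dh dm F → CalcB dh dm F → OpStmt S φ →
    FIntStmt S φ → CrossStmt S φ → ParStmt S φ → RemStmt S φ → CrudeStmt S φ := by
  intro hA hB hOp hFI hCr hPa hRe _ N hN Y ε0 C0 C1 hY hε0 hC0 hCo hFF hC1
  have hO := hOp N hN.real Y ε0 C0 hε0 hCo
  obtain ⟨Cc, hCc0, hCc⟩ := hCr N hN.real Y ε0 C0 hε0 hC0 hCo
  obtain ⟨Cr, hCr0, hCrr⟩ := hRe hY.sub N hN Y ε0 C0 C1 hε0 hC0 hCo hFF hC1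
  -- constants
  obtain ⟨M, hM⟩ : ∃ M : ℝ, M = C1 * (1 + C1) := ⟨_, rfl⟩
  have hM0 : 0 ≤ M := by rw [hM]; positivity
  obtain ⟨A, hAdef⟩ : ∃ A : ℝ, A = 4 * (Cc + 1) * (M + 1) := ⟨_, rfl⟩
  have hA0 : 0 < A := by rw [hAdef]; positivity
  have hCcM : Cc * M ≤ A / 4 := by
    rw [hAdef]
    nlinarith [mul_nonneg hCc0 hM0]
  refine ⟨min ε0 (1 / (4 * (Cr + 1))), 4 * (Cr + 1), 8 * (1 + Cc * A + Cr), ?_, min_le_left _ _, ?_, ?_, ?_⟩
  · exact lt_min hε0 (by positivity)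
  · linarith
  · positivity
  intro R hR m hm hm1 v hv hsv
  have hε1pos : 0 < min ε0 (1 / (4 * (Cr + 1))) := lt_min hε0 (by positivity)
  have hR1 : 1 ≤ R := by linarith
  have hRpos : 0 < R := by linarith
  have hs : Sup2 Y ε0 R v := h459_sup hsv hRpos (min_le_left _ _)
  -- parity
  obtain ⟨te, tod, se, so, hodd, hn, hK, hX⟩ := hPa N hN.real Y ε0 C0 hε0 hCo R hRpos m v hv hs
  -- fibre facts for the odd part
  obtain ⟨f1, f3⟩ := hFI Y ε0 C0 C1 hε0 hCo hFF hC1 R hRpos (odp v) tod so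
  have f3' := f3 hodd
  have hn0 : 0 ≤ ns2 v := hB.nonneg v
  have hne : ns2 (evp v) ≤ ns2 v := by
    have := hB.nonneg (odp v)
    linarith
  have hKe : 0 ≤ S.E1 φ (evp v) := Finset.sum_nonneg fun β _ => hB.nonneg _
  have hKo : 0 ≤ S.E1 φ (odp v) := Finset.sum_nonneg fun β _ => hB.nonneg _
  have hH0 : 0 ≤ S.EH φ N m v := Finset.sum_nonneg fun β _ => hB.nonneg _
  have hK0 : 0 ≤ S.E1 φ v := Finset.sum_nonneg fun β _ => hB.nonneg _
  have hES0 : 0 ≤ S.ES φ N m v := Finset.sum_nonneg fun β _ => hB.nonneg _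
  have hKole : S.E1 φ (odp v) ≤ S.E1 φ v := by linarith
  have hodd2 : D2w (odp v) + R ^ 2 * W2 (odp v) ≤ M * S.E1 φ v := by
    have h1 : C1 * (S.E1 φ (odp v) + R * ns2 (odp v)) ≤ C1 * (S.E1 φ (odp v) + C1 * S.E1 φ (odp v)) :=
      mul_le_mul_of_nonneg_left (by linarith) hC1
    have h2 : C1 * (S.E1 φ (odp v) + C1 * S.E1 φ (odp v)) = M * S.E1 φ (odp v) := by rw [hM]; ring
    have h3 : M * S.E1 φ (odp v) ≤ M * S.E1 φ v := mul_le_mul_of_nonneg_left hKole hM0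
    linarith
  -- the cross term
  have hcross := hCc R hR1 m (evp v) (odp v) te tod se so (A / R ^ 2) (by positivity)
  rw [← hX] at hcross
  have hXb := h459_cross hCc0 hA0 hK0 hCcM hRpos hne rfl hodd2 hcross
  -- the remainder
  have hrem := hCrr _ hε1pos (min_le_left _ _) R hR1 m hm hm1 v hv hsv
  exact h459_fin hCc0 hCr0 hA0 hRpos hn0 hK0 hH0 hES0
    (h459_small hCr0 hε1pos.le (min_le_right _ _) hR) hXb (h459_low hA hB hO hRpos m hv hs) hrem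

end Vale.Agent.P353.Z.AN
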