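import Vale.Agent.P353.AN.A.StmtS
import Vale.Agent.P353.AN.B.Stmt

/-! # P353, all `N`, block C: crude bound on the slice — definitions

Slice functions are `v : Cfg dh → Wsp dm → F` (curried). `Y : Cfg dh` is the reference point (`AN.Std S φ Y`), `R` the scale.
`N` is the mass operator in the given frame (`N_i = a_i γ^i Γ` in the standard frame). Norms are with respect to
`dy dw` (the square root of the density is in `res`). -/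

open MeasureTheory Filter Topology
open scoped ContDiff

namespace Vale.Agent.P353.Z

variable {d dh dm : ℕ} {F : Type*} [NormedAddCommGroup F] [InnerProductSpace ℂ F]

/-- test functions on the slice -/
def Tst2 (v : Cfg dh → Wsp dm → F) : Prop :=
  ContDiff ℝ ∞ (fun p : Cfg dh × Wsp dm => v p.1 p.2) ∧
    HasCompactSupport (fun p : Cfg dh × Wsp dm => v p.1 p.2)

/-- squared `L²` norm on the slice -/
noncomputable def ns2 {E : Type*} [NormedAddCommGroup E] (v : Cfg dh → Wsp dm → E) : ℝ :=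
  ∫ p, ‖v p.1 p.2‖ ^ 2 ∂((volume : Measure (Cfg dh)).prod (volume : Measure (Wsp dm)))

/-- `L²` inner product on the slice -/
noncomputable def ip2 (u v : Cfg dh → Wsp dm → F) : ℂ :=
  ∫ p, inner ℂ (u p.1 p.2) (v p.1 p.2) ∂((volume : Measure (Cfg dh)).prod (volume : Measure (Wsp dm)))

/-- multiplication with a real function on the slice -/
noncomputable def mul2 (c : Cfg dh → Wsp dm → ℝ) (v : Cfg dh → Wsp dm → F) (y : Cfg dh) (w : Wsp dm) : F :=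
  ((c y w : ℝ) : ℂ) • v y w

/-- multiplication with the coordinate `w_k` -/
noncomputable def mw (k : Fin 8 × Fin dm) (v : Cfg dh → Wsp dm → F) : Cfg dh → Wsp dm → F :=
  mul2 (fun _ w => w k) v

/-- support in the tube of width `ε R` about `R Y` -/
def Sup2 (Y : Cfg dh) (ε R : ℝ) (v : Cfg dh → Wsp dm → F) : Prop :=
  ∀ y w, v y w ≠ 0 → ‖y - R • Y‖ ≤ ε * R ∧ ‖w‖ ≤ ε * R

/-- `∫∫ |∂_w v|²` -/
noncomputable def D2w (v : Cfg dh → Wsp dm → F) : ℝ := ∑ j, ∑ B, ns2 (pw j B v)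

/-- `∫∫ |∂_y v|²` -/
noncomputable def D2y (v : Cfg dh → Wsp dm → F) : ℝ := ∑ i, ∑ A, ns2 (py i A v)

/-- `∫∫ |w|² |v|²` -/
noncomputable def W2 (v : Cfg dh → Wsp dm → F) : ℝ := ns2 (mul2 (fun _ w => ‖w‖) v)

/-- even part in `w` -/
noncomputable def evp (v : Cfg dh → Wsp dm → F) (y : Cfg dh) (w : Wsp dm) : F :=
  (1 / 2 : ℂ) • (v y w + v y (-w))

/-- odd part in `w` -/
noncomputable def odp (v : Cfg dh → Wsp dm → F) (y : Cfg dh) (w : Wsp dm) : F :=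
  (1 / 2 : ℂ) • (v y w - v y (-w))

namespace Setup

variable (S : Setup d F)

/-- the nine matrices `D_i(y)` -/
noncomputable abbrev DY (φ : Spl dh dm d) (y : Cfg dh) : Fin 9 → Matrix (Fin dm) (Fin dm) ℝ := fun i => S.Dy φ i y

/-- admissible mass operators: real, `tr γ^i N_jᵀ = 0`, `∑ y_i y_j tr N_i N_jᵀ ≥ 16 |y|²`. -/
structure IsMass (N : Fin 9 → Matrix (Fin 16) (Fin 16) ℂ) : Prop where
  real : ∀ i α β, (N i α β).im = 0
  tr : ∀ i j, (S.g i * (N j).transpose).trace = 0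
  pos : ∀ y : Fin 9 → ℝ, 16 * ∑ i, y i ^ 2 ≤ ∑ i, ∑ j, y i * y j * ((N i * (N j).transpose).trace).re

/-- mass operator, `h` part -/
noncomputable def Mh (φ : Spl dh dm d) (N : Fin 9 → Matrix (Fin 16) (Fin 16) ℂ) (β : Fin 16) (y : Cfg dh) :
    F →L[ℂ] F :=
  ∑ i, ∑ A, ((y (i, A) : ℝ) : ℂ) • S.vec (N i) (φ (Sum.inl A)) β

/-- mass operator, `m` part -/
noncomputable def Mw (φ : Spl dh dm d) (N : Fin 9 → Matrix (Fin 16) (Fin 16) ℂ) (β : Fin 16) (w : Wsp dm) :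
    F →L[ℂ] F :=
  ∑ i, ∑ B, ((wt w i B : ℝ) : ℂ) • S.vec (N i) (φ (Sum.inr B)) β

/-- mass operator on `Cfg d` in the frame with mass matrices `N` -/
noncomputable def Mx (N : Fin 9 → Matrix (Fin 16) (Fin 16) ℂ) (β : Fin 16) (x : Cfg d) : F →L[ℂ] F :=
  ∑ i, ∑ A, ((x (i, A) : ℝ) : ℂ) • S.vec (N i) A β

/-- block diagonal supercharge with mass -/
noncomputable def Qhm (φ : Spl dh dm d) (N : Fin 9 → Matrix (Fin 16) (Fin 16) ℂ) (m : ℝ) (β : Fin 16)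
    (v : Cfg dh → Wsp dm → F) (y : Cfg dh) (w : Wsp dm) : F :=
  S.Qh φ β v y w + (m : ℂ) • S.Mh φ N β y (v y w)

/-- full supercharge on the slice with mass -/
noncomputable def QS (φ : Spl dh dm d) (N : Fin 9 → Matrix (Fin 16) (Fin 16) ℂ) (m : ℝ) (β : Fin 16)
    (v : Cfg dh → Wsp dm → F) (y : Cfg dh) (w : Wsp dm) : F :=
  S.Qhm φ N m β v y w + S.Q1 φ β v y w + (S.Qr φ β v y w + (m : ℂ) • S.Mw φ N β w (v y w))

/-- `∑_β ∫∫ |Q^h_β v|²` (with mass) -/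
noncomputable def EH (φ : Spl dh dm d) (N : Fin 9 → Matrix (Fin 16) (Fin 16) ℂ) (m : ℝ)
    (v : Cfg dh → Wsp dm → F) : ℝ := ∑ β, ns2 (S.Qhm φ N m β v)

/-- `∑_β ∫∫ |Q¹_β v|²` -/
noncomputable def E1 (φ : Spl dh dm d) (v : Cfg dh → Wsp dm → F) : ℝ := ∑ β, ns2 (S.Q1 φ β v)

/-- `∑_β ∫∫ |Q_β v|²` (with mass) -/
noncomputable def ES (φ : Spl dh dm d) (N : Fin 9 → Matrix (Fin 16) (Fin 16) ℂ) (m : ℝ)
    (v : Cfg dh → Wsp dm → F) : ℝ := ∑ β, ns2 (S.QS φ N m β v)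

/-- fibre facts (F1, F3 of block B) near the reference point `Y`, uniform in the scale `R` -/
structure FibFacts (φ : Spl dh dm d) (Y : Cfg dh) (ε0 C : ℝ) : Prop where
  F1 : ∀ R : ℝ, 0 < R → ∀ y : Cfg dh, ‖y - R • Y‖ ≤ ε0 * R → ∀ f : Wsp dm → F, FT f →
    (∑ j, ∑ B, nsf (pf j B f)) + R ^ 2 * nsf (fun w => ((‖w‖ : ℝ) : ℂ) • f w) ≤
      C * (S.e1 φ (S.DY φ y) f + R * nsf f)
  F3 : ∀ R : ℝ, 0 < R → ∀ y : Cfg dh, ‖y - R • Y‖ ≤ ε0 * R → ∀ f : Wsp dm → F, FT f →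
    (∀ w, f (-w) = -f w) → R * nsf f ≤ C * S.e1 φ (S.DY φ y) f

/-- bounds for the coefficients near `R Y`, uniform in the scale `R` -/
structure CoefBd (φ : Spl dh dm d) (Y : Cfg dh) (ε0 C : ℝ) : Prop where
  det : ∀ R : ℝ, 0 < R → ∀ y : Cfg dh, ‖y - R • Y‖ ≤ ε0 * R → (S.Dy φ 8 y).det ≠ 0
  dy : ∀ R : ℝ, 0 < R → ∀ y : Cfg dh, ‖y - R • Y‖ ≤ ε0 * R → ∀ i B E, |S.Dy φ i y B E| ≤ C * R
  inv : ∀ R : ℝ, 0 < R → ∀ y : Cfg dh, ‖y - R • Y‖ ≤ ε0 * R → ∀ B E, |(S.Dy φ 8 y)⁻¹ B E| ≤ C / R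
  dcf : ∀ R : ℝ, 0 < R → ∀ y : Cfg dh, ‖y - R • Y‖ ≤ ε0 * R → ∀ (j : Fin 9) (B E : Fin dm) (i : Fin 9) (A : Fin dh),
    |fderiv ℝ (fun y' => ((S.Dy φ 8 y')⁻¹ * S.Dy φ j y') B E) y (EuclideanSpace.single (i, A) 1)| ≤ C / R
  rem : ∀ R : ℝ, 0 < R → ∀ y : Cfg dh, ‖y - R • Y‖ ≤ ε0 * R → ∀ w : Wsp dm, ‖w‖ ≤ ε0 * R →
    ∀ (v : Cfg dh → Wsp dm → F) (β : Fin 16), ‖S.Qr φ β v y w‖ ≤
      C * (‖w‖ / R * ((∑ i, ∑ A, ‖py i A v y w‖) + ∑ j, ∑ B, ‖pw j B v y w‖) + (1 / R + ‖w‖ ^ 2) * ‖v y w‖)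

end Setup

end Vale.Agent.P353.Z
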