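import Vale.Agent.P353.AN.C.Defs

/-! # P353, all `N`, block C: crude bound on the slice — statements

A prover delivers the theorem named in the task in `Vale/Agent/P353/AN/C/<File>.lean`, importing this file and landed files of
`Z`, `Z/U`, `AN`, with the other statements as hypotheses. `C` denotes constants. Write `H = EH v`, `K = E1 v`, `n = ns2 v`. -/

open MeasureTheory Filter Topology
open scoped ContDiff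

namespace Vale.Agent.P353.Z.AN

variable {d dh dm : ℕ} {F : Type*} [NormedAddCommGroup F] [InnerProductSpace ℂ F]

/-- **C-CalcA** test functions on the slice. PROOF: smoothness of compositions with `y ↦ (y,w)`, `w ↦ (y,w)` (affine),
`fderiv` of `y' ↦ v y' w` is `fderiv (uncurried v) (y,w) ∘ inl`; support of a derivative is in the closed support. -/
structure CalcA (dh dm : ℕ) (F : Type*) [NormedAddCommGroup F] [InnerProductSpace ℂ F] : Prop where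
  sly : ∀ v : Cfg dh → Wsp dm → F, Tst2 v → ∀ w, Setup.Tst fun y => v y w
  slw : ∀ v : Cfg dh → Wsp dm → F, Tst2 v → ∀ y, FT (v y)
  zero : Tst2 (fun (_ : Cfg dh) (_ : Wsp dm) => (0 : F))
  add : ∀ u v : Cfg dh → Wsp dm → F, Tst2 u → Tst2 v → Tst2 fun y w => u y w + v y w
  sub : ∀ u v : Cfg dh → Wsp dm → F, Tst2 u → Tst2 v → Tst2 fun y w => u y w - v y w
  smul : ∀ (c : ℂ) (v : Cfg dh → Wsp dm → F), Tst2 v → Tst2 fun y w => c • v y w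
  clm : ∀ (T : F →L[ℂ] F) (v : Cfg dh → Wsp dm → F), Tst2 v → Tst2 fun y w => T (v y w)
  mul : ∀ (c : Cfg dh → Wsp dm → ℝ) (v : Cfg dh → Wsp dm → F), ContDiff ℝ ∞ (fun p : Cfg dh × Wsp dm => c p.1 p.2) →
    Tst2 v → Tst2 (mul2 c v)
  mulOn : ∀ (c : Cfg dh → ℝ) (v : Cfg dh → Wsp dm → F) (K U : Set (Cfg dh)), IsClosed K → IsOpen U → K ⊆ U →
    ContDiffOn ℝ ∞ c U → (∀ y w, v y w ≠ 0 → y ∈ K) → Tst2 v → Tst2 (mul2 (fun y _ => c y) v)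
  py : ∀ (i : Fin 9) (A : Fin dh) (v : Cfg dh → Wsp dm → F), Tst2 v → Tst2 (py i A v)
  pw : ∀ (j : Fin 8) (B : Fin dm) (v : Cfg dh → Wsp dm → F), Tst2 v → Tst2 (pw j B v)
  neg : ∀ v : Cfg dh → Wsp dm → F, Tst2 v → Tst2 fun y w => v y (-w)
  supy : ∀ (Y : Cfg dh) (ε R : ℝ) (i : Fin 9) (A : Fin dh) (v : Cfg dh → Wsp dm → F), Tst2 v → Sup2 Y ε R v →
    Sup2 Y ε R (Z.py i A v)
  supw : ∀ (Y : Cfg dh) (ε R : ℝ) (j : Fin 8) (B : Fin dm) (v : Cfg dh → Wsp dm → F), Tst2 v → Sup2 Y ε R v →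
    Sup2 Y ε R (Z.pw j B v)
  py_add : ∀ (i : Fin 9) (A : Fin dh) (u v : Cfg dh → Wsp dm → F), Tst2 u → Tst2 v → ∀ y w,
    Z.py i A (fun y w => u y w + v y w) y w = Z.py i A u y w + Z.py i A v y w
  pw_add : ∀ (j : Fin 8) (B : Fin dm) (u v : Cfg dh → Wsp dm → F), Tst2 u → Tst2 v → ∀ y w,
    Z.pw j B (fun y w => u y w + v y w) y w = Z.pw j B u y w + Z.pw j B v y w
  py_smul : ∀ (i : Fin 9) (A : Fin dh) (c : ℂ) (v : Cfg dh → Wsp dm → F), Tst2 v → ∀ y w,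
    Z.py i A (fun y w => c • v y w) y w = c • Z.py i A v y w
  pw_smul : ∀ (j : Fin 8) (B : Fin dm) (c : ℂ) (v : Cfg dh → Wsp dm → F), Tst2 v → ∀ y w,
    Z.pw j B (fun y w => c • v y w) y w = c • Z.pw j B v y w
  py_clm : ∀ (i : Fin 9) (A : Fin dh) (T : F →L[ℂ] F) (v : Cfg dh → Wsp dm → F), Tst2 v → ∀ y w,
    Z.py i A (fun y w => T (v y w)) y w = T (Z.py i A v y w)
  pw_clm : ∀ (j : Fin 8) (B : Fin dm) (T : F →L[ℂ] F) (v : Cfg dh → Wsp dm → F), Tst2 v → ∀ y w,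
    Z.pw j B (fun y w => T (v y w)) y w = T (Z.pw j B v y w)
  py_mw : ∀ (i : Fin 9) (A : Fin dh) (k : Fin 8 × Fin dm) (v : Cfg dh → Wsp dm → F), Tst2 v → ∀ y w,
    Z.py i A (mw k v) y w = ((w k : ℝ) : ℂ) • Z.py i A v y w
  pw_mw : ∀ (j : Fin 8) (B : Fin dm) (k : Fin 8 × Fin dm) (v : Cfg dh → Wsp dm → F), Tst2 v → ∀ y w,
    Z.pw j B (mw k v) y w = ((w k : ℝ) : ℂ) • Z.pw j B v y w + if k = (j, B) then v y w else 0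
  py_mul : ∀ (i : Fin 9) (A : Fin dh) (c : Cfg dh → ℝ) (v : Cfg dh → Wsp dm → F), Tst2 v → ∀ y w, DifferentiableAt ℝ c y →
    Z.py i A (mul2 (fun y _ => c y) v) y w = ((c y : ℝ) : ℂ) • Z.py i A v y w +
      ((fderiv ℝ c y (EuclideanSpace.single (i, A) 1) : ℝ) : ℂ) • v y w
  pw_mul : ∀ (j : Fin 8) (B : Fin dm) (c : Cfg dh → ℝ) (v : Cfg dh → Wsp dm → F), Tst2 v → ∀ y w,
    Z.pw j B (mul2 (fun y _ => c y) v) y w = ((c y : ℝ) : ℂ) • Z.pw j B v y w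
  comm : ∀ (i : Fin 9) (A : Fin dh) (j : Fin 8) (B : Fin dm) (v : Cfg dh → Wsp dm → F), Tst2 v → ∀ y w,
    Z.py i A (Z.pw j B v) y w = Z.pw j B (Z.py i A v) y w
  py_neg : ∀ (i : Fin 9) (A : Fin dh) (v : Cfg dh → Wsp dm → F), ∀ y w,
    Z.py i A (fun y w => v y (-w)) y w = Z.py i A v y (-w)
  pw_neg : ∀ (j : Fin 8) (B : Fin dm) (v : Cfg dh → Wsp dm → F), Tst2 v → ∀ y w,
    Z.pw j B (fun y w => v y (-w)) y w = -Z.pw j B v y (-w)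

/-- **C-CalcB** integration on the slice. PROOF: continuous functions with compact support are integrable; Fubini
(`MeasureTheory.integral_prod`, `integral_prod_symm`, `integral_prod_mul` …); integration by parts in one variable with the others
fixed (`Z/Tools`: `integral_inner_pd`, `Loc`); `w ↦ -w` preserves the measure; Cauchy–Schwarz pointwise. -/
structure CalcB (dh dm : ℕ) (F : Type*) [NormedAddCommGroup F] [InnerProductSpace ℂ F] : Prop where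
  int_sq : ∀ v : Cfg dh → Wsp dm → F, Tst2 v → Integrable (fun p : Cfg dh × Wsp dm => ‖v p.1 p.2‖ ^ 2)
    ((volume : Measure (Cfg dh)).prod (volume : Measure (Wsp dm)))
  int_ip : ∀ u v : Cfg dh → Wsp dm → F, Tst2 u → Tst2 v → Integrable (fun p : Cfg dh × Wsp dm => inner ℂ (u p.1 p.2) (v p.1 p.2))
    ((volume : Measure (Cfg dh)).prod (volume : Measure (Wsp dm)))
  yw : ∀ v : Cfg dh → Wsp dm → F, Tst2 v → Integrable (fun y => nsf (v y)) ∧ ns2 v = ∫ y, nsf (v y)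
  wy : ∀ v : Cfg dh → Wsp dm → F, Tst2 v → Integrable (fun w => nsq (fun y => v y w)) ∧ ns2 v = ∫ w, nsq (fun y => v y w)
  ip_wy : ∀ u v : Cfg dh → Wsp dm → F, Tst2 u → Tst2 v → ip2 u v = ∫ w, ∫ y, inner ℂ (u y w) (v y w)
  nonneg : ∀ v : Cfg dh → Wsp dm → F, 0 ≤ ns2 v
  ns_add : ∀ u v : Cfg dh → Wsp dm → F, Tst2 u → Tst2 v →
    ns2 (fun y w => u y w + v y w) = ns2 u + ns2 v + 2 * (ip2 u v).re
  ns_add_le : ∀ u v : Cfg dh → Wsp dm → F, Tst2 u → Tst2 v →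
    ns2 (fun y w => u y w + v y w) ≤ 2 * ns2 u + 2 * ns2 v
  ns_add_ge : ∀ u v : Cfg dh → Wsp dm → F, Tst2 u → Tst2 v →
    (1 / 2) * ns2 u - ns2 v ≤ ns2 (fun y w => u y w + v y w)
  ns_smul : ∀ (c : ℂ) (v : Cfg dh → Wsp dm → F), ns2 (fun y w => c • v y w) = ‖c‖ ^ 2 * ns2 v
  ns_neg : ∀ v : Cfg dh → Wsp dm → F, ns2 (fun y w => v y (-w)) = ns2 v
  le_sum : ∀ (ι : Type) [Fintype ι] (c : ι → ℝ) (u : Cfg dh → Wsp dm → F) (v : ι → Cfg dh → Wsp dm → F), Tst2 u → (∀ l, Tst2 (v l)) →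
    (∀ y w, ‖u y w‖ ^ 2 ≤ ∑ l, c l * ‖v l y w‖ ^ 2) → ns2 u ≤ ∑ l, c l * ns2 (v l)
  mono : ∀ (c : ℝ) (u v : Cfg dh → Wsp dm → F), Tst2 u → Tst2 v → (∀ y w, ‖u y w‖ ^ 2 ≤ c * ‖v y w‖ ^ 2) → ns2 u ≤ c * ns2 v
  cs : ∀ (s : ℝ) (u v : Cfg dh → Wsp dm → F), 0 < s → Tst2 u → Tst2 v → 2 * |(ip2 u v).re| ≤ s * ns2 u + s⁻¹ * ns2 v
  conj : ∀ u v : Cfg dh → Wsp dm → F, ip2 u v = (starRingEnd ℂ) (ip2 v u)
  ip_add : ∀ u v z : Cfg dh → Wsp dm → F, Tst2 u → Tst2 v → Tst2 z →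
    ip2 u (fun y w => v y w + z y w) = ip2 u v + ip2 u z
  ip_smul : ∀ (c : ℂ) (u v : Cfg dh → Wsp dm → F), ip2 u (fun y w => c • v y w) = c * ip2 u v
  ip_mul : ∀ (c : Cfg dh → Wsp dm → ℝ) (u v : Cfg dh → Wsp dm → F), ip2 (mul2 c u) v = ip2 u (mul2 c v)
  ibp_y : ∀ (i : Fin 9) (A : Fin dh) (u v : Cfg dh → Wsp dm → F), Tst2 u → Tst2 v → ip2 (py i A u) v = -ip2 u (py i A v)
  ibp_w : ∀ (j : Fin 8) (B : Fin dm) (u v : Cfg dh → Wsp dm → F), Tst2 u → Tst2 v → ip2 (pw j B u) v = -ip2 u (pw j B v)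
  refl : ∀ u v : Cfg dh → Wsp dm → F, ip2 (fun y w => u y (-w)) (fun y w => v y (-w)) = ip2 u v
  W2_eq : ∀ v : Cfg dh → Wsp dm → F, Tst2 v → W2 v = ∑ k, ns2 (mw k v)
  W2_yw : ∀ v : Cfg dh → Wsp dm → F, Tst2 v → Integrable (fun y => nsf (fun w => ((‖w‖ : ℝ) : ℂ) • v y w)) ∧
    W2 v = ∫ y, nsf (fun w => ((‖w‖ : ℝ) : ℂ) • v y w)

/-- **C-Op** the operators on test functions. PROOF: CalcA; the coefficients `(D_8⁻¹)_{BC}(y)` are smooth on the open set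
`{det D_8 ≠ 0} ⊇ {|y - RY| ≤ ε0 R}` (`mulOn`; inverse = `det⁻¹ • adjugate`), `∂ log J` likewise. `Q^h`: coefficients polynomial in `y`.
Symmetry of `Q^h`: `ibp_y`, `S.vec_symm`, reality of `γ, γ^{ij}, N`. -/
structure OpFacts (S : Setup d F) (φ : Spl dh dm d) (N : Fin 9 → Matrix (Fin 16) (Fin 16) ℂ) (Y : Cfg dh) (ε0 : ℝ) : Prop where
  th : ∀ v : Cfg dh → Wsp dm → F, Tst2 v → ∀ m β, Tst2 (S.Qhm φ N m β v)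
  tm : ∀ v : Cfg dh → Wsp dm → F, Tst2 v → ∀ β, Tst2 (fun y w => S.Mw φ N β w (v y w))
  t1 : ∀ R : ℝ, 0 < R → ∀ v : Cfg dh → Wsp dm → F, Tst2 v → Sup2 Y ε0 R v → ∀ β, Tst2 (S.Q1 φ β v)
  tr : ∀ R : ℝ, 0 < R → ∀ v : Cfg dh → Wsp dm → F, Tst2 v → Sup2 Y ε0 R v → ∀ β, Tst2 (S.Qr φ β v)
  ts : ∀ R : ℝ, 0 < R → ∀ v : Cfg dh → Wsp dm → F, Tst2 v → Sup2 Y ε0 R v → ∀ m β, Tst2 (S.QS φ N m β v)
  suh : ∀ (ε R : ℝ) (v : Cfg dh → Wsp dm → F), Tst2 v → Sup2 Y ε R v → ∀ m β, Sup2 Y ε R (S.Qhm φ N m β v)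
  su1 : ∀ (ε R : ℝ) (v : Cfg dh → Wsp dm → F), Tst2 v → Sup2 Y ε R v → ∀ β, Sup2 Y ε R (S.Q1 φ β v)
  symm : ∀ u v : Cfg dh → Wsp dm → F, Tst2 u → Tst2 v → ∀ m β, ip2 (S.Qhm φ N m β u) v = ip2 u (S.Qhm φ N m β v)

def OpStmt (S : Setup d F) (φ : Spl dh dm d) : Prop := ∀ N : Fin 9 → Matrix (Fin 16) (Fin 16) ℂ,
  (∀ i α β, (N i α β).im = 0) → ∀ (Y : Cfg dh) (ε0 C0 : ℝ), 0 < ε0 → S.CoefBd φ Y ε0 C0 → OpFacts S φ N Y ε0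

/-- **C-Coef** PROOF: `BdStmt S` gives `det`, `inv`, `rem`. `dy`: `Dy` is linear in `y`, `|y| ≤ (|Y| + ε0)R`. `dcf`:
`∂(D_8⁻¹D_j) = -D_8⁻¹(∂D_8)D_8⁻¹D_j + D_8⁻¹∂D_j`, `∂D_j` constant, entries `O(1/R)`, `D_8⁻¹D_j = O(1)`. -/
def CoefStmt (S : Setup d F) (φ : Spl dh dm d) : Prop := ∀ Y : Cfg dh, Std S φ Y →
  ∃ ε0 C : ℝ, 0 < ε0 ∧ 0 ≤ C ∧ S.CoefBd φ Y ε0 C

/-- **C-Fib** fibre facts near `R Y`, from `FibStmt S φ` (block B) and `OmStmt`. PROOF: `D0 = DY φ Y` is frozen: antisymmetric by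
`f_swap`, `f_cyc`; `[D_i(Y), D_j(Y)] = ad [Y_i, Y_j] = 0` by Jacobi, `Std.sub` and `Std.cen`; `Std.inv`. `|D_i(y) - R D_i(Y)| ≤ C|y - RY|`
(linear). Note `DY φ y = fun i => S.Dy φ i y`, `e1` contains the factor `1/16`. -/
def FibOutStmt (S : Setup d F) (φ : Spl dh dm d) : Prop := ∀ _ : FiniteDimensional ℂ F, ∀ Y : Cfg dh, Std S φ Y →
  ∃ (Om : Matrix (Fin dm) (Fin dm) ℝ) (ε0 C : ℝ), IsOm S.κ (S.DY φ Y) Om ∧ Frz (S.DY φ Y) ∧ 0 < ε0 ∧ 0 ≤ C ∧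
    S.FibFacts φ Y ε0 C ∧
    ∀ R : ℝ, 0 < R → ∀ ε : ℝ, 0 ≤ ε → ε ≤ ε0 → ∀ y : Cfg dh, ‖y - R • Y‖ ≤ ε * R → ∀ f : Wsp dm → F, FT f →
      (R * nsf (fun w => f w - S.PR φ (S.DY φ Y) Om R f w) ≤ C * (S.e1 φ (S.DY φ y) f + ε ^ 2 * R * nsf f)) ∧
      ∀ β, nsf (fun w => S.q1 φ (S.DY φ y) β f w - S.q1 φ (fun i => R • S.Dy φ i Y) β f w) ≤
        C * ε ^ 2 * (S.e1 φ (S.DY φ y) f + R * nsf f)

/-- **C-FInt** integrated fibre facts. PROOF: `Q1_eq` (block B), integrate F1, F3 over `y` (CalcB `yw`); for `|y - RY| > ε0 R` the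
function `v y` vanishes. `E1 v = 16 ∫ e1 (DY y) (v y) dy`. -/
def FIntStmt (S : Setup d F) (φ : Spl dh dm d) : Prop := ∀ (Y : Cfg dh) (ε0 C0 C1 : ℝ), 0 < ε0 → S.CoefBd φ Y ε0 C0 →
  S.FibFacts φ Y ε0 C1 → 0 ≤ C1 → ∀ R : ℝ, 0 < R → ∀ v : Cfg dh → Wsp dm → F, Tst2 v → Sup2 Y ε0 R v →
    (D2w v + R ^ 2 * W2 v ≤ C1 * (S.E1 φ v + R * ns2 v)) ∧
    ((∀ y w, v y (-w) = -v y w) → R * ns2 v ≤ C1 * S.E1 φ v)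

/-- **C-Cross** the cross term: `{Q^h, Q¹}` only contains `∂_y` of the coefficients of `Q¹`.
PROOF. `Q¹_β g = ∑_k c_k(y) L_k g` with real functions `c_k` (`1`; `(D_8⁻¹D_j)_{BE}(y)`; `(D_i(y))_{BC}`) and operators `L_k`
(`-i(γ^jθ^B)_β∂_j^B`; `i(γ^8θ^B)_β∂_j^E`; `±½κ w_j^C(γ^{ij}θ^B)_β`) which do not contain `y`, are symmetric (`ip2 (L a) b = ip2 a (L b)`),
anticommute with all `θ^A`, `A ∈ h`, commute with functions of `y` and with `∂_y`; so with `T = Q^h_β` (with mass): `T L g = -L T g`, and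
`T(c g) = c T g - i∑_{iA}(∂_{iA}c)Γ g`, `Γ = (γ^iθ^A)_β` (`c` differentiable on the support of `g`; elsewhere both sides vanish). Hence
`⟨Tb, cLa⟩ = ⟨b, T(cLa)⟩ = ⟨b, cTLa⟩ - i∑⟨b,(∂c)ΓLa⟩ = -⟨b, cLTa⟩ + i∑⟨b,(∂c)LΓa⟩ = -⟨cLb, Ta⟩ + i∑⟨Lb,(∂c)Γa⟩` and
`⟨cLb, Ta⟩ = conj⟨Ta, cLb⟩`, so `Re(⟨Ta, cLb⟩ + ⟨Tb, cLa⟩) = Re(i∑_{iA}⟨Lb,(∂_{iA}c)Γa⟩)`. Now `|∂c| ≤ C/R` for the `∂_w` terms (`dcf`),
`≤ C` for the `w` terms (`D_i` is linear in `y`), `0` for `c = 1`; Cauchy–Schwarz with `s`. -/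
def CrossStmt (S : Setup d F) (φ : Spl dh dm d) : Prop := ∀ N : Fin 9 → Matrix (Fin 16) (Fin 16) ℂ,
  (∀ i α β, (N i α β).im = 0) → ∀ (Y : Cfg dh) (ε0 C0 : ℝ), 0 < ε0 → 0 ≤ C0 → S.CoefBd φ Y ε0 C0 →
  ∃ C : ℝ, 0 ≤ C ∧ ∀ R : ℝ, 1 ≤ R → ∀ m : ℝ, ∀ a b : Cfg dh → Wsp dm → F, Tst2 a → Tst2 b → Sup2 Y ε0 R a →
    Sup2 Y ε0 R b → ∀ s : ℝ, 0 < s →
      |∑ β, (ip2 (S.Qhm φ N m β a) (S.Q1 φ β b) + ip2 (S.Qhm φ N m β b) (S.Q1 φ β a)).re| ≤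
        C * (s * ns2 a + s⁻¹ * (1 / R ^ 2 * D2w b + W2 b))

/-- **C-Par** parity `w ↦ -w`: `Q^h` is even, `Q¹` is odd. PROOF: CalcA `py_neg`, `pw_neg`, `FL` is linear in `w`, CalcB `refl`. -/
def ParStmt (S : Setup d F) (φ : Spl dh dm d) : Prop := ∀ N : Fin 9 → Matrix (Fin 16) (Fin 16) ℂ,
  (∀ i α β, (N i α β).im = 0) → ∀ (Y : Cfg dh) (ε0 C0 : ℝ), 0 < ε0 → S.CoefBd φ Y ε0 C0 → ∀ R : ℝ, 0 < R → ∀ m : ℝ,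
  ∀ v : Cfg dh → Wsp dm → F, Tst2 v → Sup2 Y ε0 R v →
    Tst2 (evp v) ∧ Tst2 (odp v) ∧ Sup2 Y ε0 R (evp v) ∧ Sup2 Y ε0 R (odp v) ∧ (∀ y w, odp v y (-w) = -odp v y w) ∧
    ns2 v = ns2 (evp v) + ns2 (odp v) ∧ S.E1 φ v = S.E1 φ (evp v) + S.E1 φ (odp v) ∧
    ∑ β, (ip2 (S.Qhm φ N m β v) (S.Q1 φ β v)).re =
      ∑ β, (ip2 (S.Qhm φ N m β (evp v)) (S.Q1 φ β (odp v)) + ip2 (S.Qhm φ N m β (odp v)) (S.Q1 φ β (evp v))).re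

/-- **C-Gen** energy identity for a multiplier given by smooth real matrices. PROOF: as `Z/U/EnGen` (`sum_QTQT`, `energy_QT`), with
`NX N x A` replaced by `t A x`: `∑_β(Q0_β + T_β)² = -8Δ + ½∑_A tr(t^A t^{Aᵀ}) + Z`, `Z = -i∑_β∑_{jB}(γ^jθ^B)_β (∑_A (∂_{jB}t^A θ^A)_β)`. -/
def GenStmt (S : Setup d F) : Prop := ∀ t : Fin d → Cfg d → Matrix (Fin 16) (Fin 16) ℂ,
  (∀ A α β, ContDiff ℝ ∞ (fun x => t A x α β)) → (∀ A x α β, (t A x α β).im = 0) → (∀ i A x, (S.g i * (t A x).transpose).trace = 0) →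
  ∀ u : Cfg d → F, Setup.Tst u →
    ∑ β, nsq (fun x => S.Q0 β u x + ∑ A, S.vec (t A x) A β (u x)) =
      8 * (∑ i, ∑ A, nsq (pd i A u)) + (1 / 2) * (∫ x, (∑ A, (t A x * (t A x).transpose).trace).re * ‖u x‖ ^ 2) +
      (∫ x, inner ℂ (u x) ((-Complex.I) • ∑ β, ∑ j, ∑ B, S.vec (S.g j) B β
        (∑ A, S.vec (Matrix.of fun α α' => fderiv ℝ (fun z => t A z α α') x (EuclideanSpace.single (j, B) 1)) A β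
          (u x)))).re

/-- **C-EnH** gradient bound for the block model with mass. PROOF: for fixed `w` apply `GenStmt (S.sub φ h)` to `y ↦ v y w` with
`t^A(y) = ½∑_{ij}F^A_{ij}(y)γ^{ij} + m∑_iy_i^AN_i`: the second term is `≥ 0` (`tr(tt^*)`, `t` real), the last one `≥ -C(1+|y|)|u|²`
(`m ≤ 1`); `tr(γ^kγ^{ij}ᵀ) = 0`. Integrate over `w` (CalcB `wy`). `S.Qh φ β v y w = (S.sub φ h).Q β (fun y' => v y' w) y`. -/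
def EnHStmt (S : Setup d F) (φ : Spl dh dm d) : Prop := S.IsSub φ → ∀ N : Fin 9 → Matrix (Fin 16) (Fin 16) ℂ, S.IsMass N →
  ∃ C : ℝ, 0 ≤ C ∧ ∀ m : ℝ, 0 ≤ m → m ≤ 1 → ∀ v : Cfg dh → Wsp dm → F, Tst2 v →
    ∀ L : ℝ, 0 ≤ L → (∀ y w, v y w ≠ 0 → ‖y‖ ≤ L) → D2y v ≤ C * (S.EH φ N m v + (1 + L) * ns2 v)

/-- **C-Mass** gain from the mass in a central direction `c` (unit vector). PROOF. `∂_c = ∑c_A∂^A`, `θ_c = ∑c_Aθ^A`, `y_c = ∑c_Ay^A`.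
`Q^h_β + mM_β = Q^c_β + Q'_β`, `Q^c_β = -i∑_i(γ^iθ_c)_β∂_{i,c} + m∑_iy_{i,c}(N_iθ_c)_β`; `Q'_β` contains only `θ^A - c_Aθ_c`, `∂^A - c_A∂_c`,
`y^A - c_Ay_c` and `F^A_{ij}` (which does not depend on `y_c` and has `∑c_AF^A = 0`, since `c` is central), so `Q^cQ' + Q'Q^c = 0` for every `β`,
both symmetric: `∑|Q^h_βv|² = ∑|Q^cv|² + ∑|Q'v|² ≥ ∑|Q^cv|²`. And (as in `GenStmt` with one colour)
`∑_β|Q^c_βv|² = 8∑_i|∂_{i,c}v|² + ½m²∫∑y_{i,c}y_{j,c}tr(N_iN_jᵀ)|v|² + m⟨v,Z_0v⟩` with a constant matrix `Z_0`; use `IsMass.pos`.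
(Alternative: rotate the colour basis of `S.sub φ h` with `Setup.rot 1 O` so that `c` is a basis vector.) -/
def MassStmt (S : Setup d F) (φ : Spl dh dm d) : Prop := S.IsSub φ → ∀ N : Fin 9 → Matrix (Fin 16) (Fin 16) ℂ, S.IsMass N →
  ∀ c : Fin dh → ℝ, (∑ A, c A ^ 2 = 1) →
    (∀ B C, ∑ A, S.f (φ (Sum.inl A)) (φ (Sum.inl B)) (φ (Sum.inl C)) * c A = 0) →
  ∃ C : ℝ, 0 ≤ C ∧ ∀ m : ℝ, 0 ≤ m → m ≤ 1 → ∀ v : Cfg dh → Wsp dm → F, Tst2 v → ∀ L : ℝ, 0 ≤ L →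
    (∀ y w, v y w ≠ 0 → L ^ 2 ≤ ∑ i, (∑ A, c A * y (i, A)) ^ 2) →
      8 * m ^ 2 * L ^ 2 * ns2 v ≤ S.EH φ N m v + C * m * ns2 v

/-- **C-Rem** the remainder. PROOF. `|r_β| ≤ |Q^rv| + m|M^wv|`, `|M^wv| ≤ C|w||v|`, `CoefBd.rem`. With `g_k = w_kv` (`mw k v`):
(i) `W2 v ≤ CR⁻²(K + Rn)`, `D2w v ≤ C(K + Rn)` (FInt). (ii) `Q¹(w_kv) = w_kQ¹v + B_kv`, `|B_k| ≤ C` (`D_8⁻¹D_j = O(1)`), `|w_k| ≤ εR` on the
support, so `∑_kE1 g_k ≤ Cε²R²K + Cn`. (iii) FInt for `g_k`: `∑_kD2w g_k + R²‖|w|²v‖² ≤ C(ε²R²K + n + R·W2 v) ≤ C((ε²R² + R⁻¹)K + n)`;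
`w_k∂_lv = ∂_l(w_kv) - δ_{kl}v`. (iv) `Q^h(w_kv) = w_kQ^hv`, so `∑_kEH g_k ≤ Cε²R²H`; EnH for `g_k` (`L = CR`): `‖|w|∂_yv‖² = ∑_kD2y g_k ≤
C(ε²R²H + R·W2 v) ≤ C(ε²R²H + R⁻¹K + n)`. Sum: `∑|r_β|² ≤ C(ε² + R⁻³)(H + K) + CR⁻²n + Cm²R⁻²(K + Rn)`. -/
def RemStmt (S : Setup d F) (φ : Spl dh dm d) : Prop := S.IsSub φ → ∀ N : Fin 9 → Matrix (Fin 16) (Fin 16) ℂ, S.IsMass N →
  ∀ (Y : Cfg dh) (ε0 C0 C1 : ℝ), 0 < ε0 → 0 ≤ C0 → S.CoefBd φ Y ε0 C0 → S.FibFacts φ Y ε0 C1 → 0 ≤ C1 →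
  ∃ C : ℝ, 0 ≤ C ∧ ∀ ε : ℝ, 0 < ε → ε ≤ ε0 → ∀ R : ℝ, 1 ≤ R → ∀ m : ℝ, 0 ≤ m → m ≤ 1 →
    ∀ v : Cfg dh → Wsp dm → F, Tst2 v → Sup2 Y ε R v →
      ∑ β, ns2 (fun y w => S.Qr φ β v y w + (m : ℂ) • S.Mw φ N β w (v y w)) ≤
        C * (ε ^ 2 + 1 / R ^ 2) * (S.EH φ N m v + S.E1 φ v) + C * (1 / R ^ 2 + m ^ 2 / R) * ns2 v

/-- **C-Crude** the crude bound (S3). PROOF. `∑|Qv|² ≥ ½∑|(Q^h + Q¹)v|² - ∑|r_βv|²`; `∑|(Q^h+Q¹)v|² = H + K + 2X`, by C-Par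
`X = Re∑(⟨Q^hv_e,Q¹v_o⟩ + ⟨Q^hv_o,Q¹v_e⟩)`, by C-Cross `|X| ≤ C(s n(v_e) + s⁻¹(R⁻²D2w v_o + W2 v_o)) ≤ C s n + C s⁻¹R⁻²K(v_o)` (FInt for the odd
function `v_o`: `D2w v_o + R²W2 v_o ≤ C(K(v_o) + R n(v_o)) ≤ CK(v_o)`); `s = C'R⁻²`: `|X| ≤ ¼K + CR⁻²n`. Then C-Rem, `ε0` small, `R0` large. -/
def CrudeStmt (S : Setup d F) (φ : Spl dh dm d) : Prop := ∀ _ : FiniteDimensional ℂ F,
  ∀ N : Fin 9 → Matrix (Fin 16) (Fin 16) ℂ, S.IsMass N → ∀ (Y : Cfg dh) (ε0 C0 C1 : ℝ), Std S φ Y → 0 < ε0 → 0 ≤ C0 →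
  S.CoefBd φ Y ε0 C0 → S.FibFacts φ Y ε0 C1 → 0 ≤ C1 →
  ∃ ε1 R0 C : ℝ, 0 < ε1 ∧ ε1 ≤ ε0 ∧ 1 ≤ R0 ∧ 0 ≤ C ∧
    ∀ R : ℝ, R0 ≤ R → ∀ m : ℝ, 0 ≤ m → m ≤ 1 → ∀ v : Cfg dh → Wsp dm → F, Tst2 v → Sup2 Y ε1 R v →
      S.EH φ N m v + S.E1 φ v ≤ C * (S.ES φ N m v + (1 / R ^ 2 + m ^ 2 / R) * ns2 v)

/-- **C-Out** OUTPUT OF BLOCK C. PROOF: CoefStmt, FibOutStmt, CrudeStmt, FInt, EnH, Mass (`c = Y_8/|Y_8|`; `Y_8 ≠ 0` since `D_8(Y)` is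
invertible and `0 < dm`; `|y_8 - RY_8| ≤ εR`), integration of the fibre inequalities over `y`. `PR` commutes with nothing in `y`. -/
def OutStmt (S : Setup d F) (φ : Spl dh dm d) : Prop := ∀ _ : FiniteDimensional ℂ F,
  ∀ N : Fin 9 → Matrix (Fin 16) (Fin 16) ℂ, S.IsMass N → ∀ Y : Cfg dh, Std S φ Y →
  ∃ (Om : Matrix (Fin dm) (Fin dm) ℝ) (ε0 R0 C : ℝ), IsOm S.κ (S.DY φ Y) Om ∧ Frz (S.DY φ Y) ∧ 0 < ε0 ∧ 1 ≤ R0 ∧ 0 < C ∧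
    ∀ ε : ℝ, 0 < ε → ε ≤ ε0 → ∀ R : ℝ, R0 ≤ R → ∀ m : ℝ, 0 ≤ m → m ≤ 1 →
    ∀ v : Cfg dh → Wsp dm → F, Tst2 v → Sup2 Y ε R v →
      (S.EH φ N m v + S.E1 φ v ≤ C * (S.ES φ N m v + (1 / R ^ 2 + m ^ 2 / R) * ns2 v)) ∧
      (D2w v + R ^ 2 * W2 v ≤ C * (S.E1 φ v + R * ns2 v)) ∧
      (D2y v ≤ C * (S.EH φ N m v + R * ns2 v)) ∧
      (R * ns2 (fun y w => v y w - S.PR φ (S.DY φ Y) Om R (v y) w) ≤ C * (S.E1 φ v + ε ^ 2 * R * ns2 v)) ∧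
      (∀ β, ns2 (fun y w => S.Q1 φ β v y w - S.q1 φ (fun i => R • S.Dy φ i Y) β (v y) w) ≤
        C * ε ^ 2 * (S.E1 φ v + R * ns2 v)) ∧
      (0 < dm → m ^ 2 * R ^ 2 * ns2 v ≤ C * (S.EH φ N m v + m * ns2 v))

/-- mass matrices in the standard frame: `a_i γ^i Γ` -/
noncomputable def N0 (S : Setup d F) (i : Fin 9) : Matrix (Fin 16) (Fin 16) ℂ := ((aw i : ℝ) : ℂ) • (S.g i * S.Gam)

/-- mass matrices in a rotated frame -/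
noncomputable def rotN (R : Matrix (Fin 9) (Fin 9) ℝ) (N : Fin 9 → Matrix (Fin 16) (Fin 16) ℂ) (i : Fin 9) :
    Matrix (Fin 16) (Fin 16) ℂ := ∑ j, ((R i j : ℝ) : ℂ) • N j

/-- **C-Frame** mass operator in rotated frames and on the slice. PROOF: `Γ = γ^0γ^1γ^2` is real, `ΓΓᵀ = 1`,
`tr(γ^i(γ^jΓ)ᵀ) = tr(γ^iΓᵀγ^j) = 0` (product of 1, 3 or 5 different gammas: insert `γ^k` anticommuting with it, `Z/Gam`), `tr(γ^iΓΓᵀγ^j) = 16δ_{ij}`,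
`a_i ≥ 1`; orthogonality of `R`, `O`. Last part: A3 (`DecStmt S`) and `S.Mx N β (emb φ y w) = Mh + Mw`. -/
def FrameStmt (S : Setup d F) : Prop := S.IsMass (N0 S) ∧ (∀ β x, S.MM β x = S.Mx (N0 S) β x) ∧
  ∀ N : Fin 9 → Matrix (Fin 16) (Fin 16) ℂ,
  (∀ (R : Matrix (Fin 9) (Fin 9) ℝ) (hR : R * R.transpose = 1) (O : Matrix (Fin d) (Fin d) ℝ) (hO : O * O.transpose = 1),
    S.IsMass N → (S.rot R hR O hO).IsMass (rotN R N) ∧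
      ∀ β x, (S.rot R hR O hO).Mx (rotN R N) β (rox R O x) = S.Mx N β x) ∧
  ∀ (dh dm : ℕ) (φ : Spl dh dm d), (∀ β (y : Cfg dh) (w : Wsp dm), S.Mx N β (emb φ y w) = S.Mh φ N β y + S.Mw φ N β w) ∧
    (S.IsSub φ → DecStmt S → ∀ u : Cfg d → F, ContDiff ℝ ∞ u → (∀ C x, S.G C u x = 0) → ∀ (m : ℝ) (β : Fin 16) (y : Cfg dh) (w : Wsp dm),
      (S.Dy φ 8 y).det ≠ 0 →
      S.res φ (fun x => S.Q β u x + (m : ℂ) • S.Mx N β x (u x)) y w = S.QS φ N m β (S.res φ u) y w)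

end Vale.Agent.P353.Z.AN
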