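import Vale.Agent.P353.AN.C.Stmt

/-! # P353, all `N`, block C: fibre facts with UNIFORM constants for frozen points near a given one

For the vacuum `P(y_z)` at the (moving) scalar point. `D00` is a frozen point; all constants are uniform for frozen `D0` near `D00`. -/

open MeasureTheory Filter Topology Matrix
open scoped ContDiff

namespace Vale.Agent.P353.Z.AN

variable {d dh dm : ℕ} {F : Type*} [NormedAddCommGroup F] [InnerProductSpace ℂ F]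

/-- **C-U1** Poincaré inequality with constant `c1 · λ_min(M)`. PROOF. `PoiStmt` for `M = 1` gives `c1`. For general `M` take a linear bijection
`T` with `⟨Tz, M T z⟩ = |z|²` (`T = M^{-1/2}`, or an orthonormal eigenbasis of `M` scaled by `λ_k^{-1/2}`); then `c‖Tz‖² ≤ ‖z‖²`, so `‖T‖² ≤ 1/c`.
`u = f/g_M` (smooth, compact support): `∂_nf + (Mw)_nf = g_M ∂_nu`. Substitution `w = Tz`: `g_M(Tz) = g_1(z)`, `∇(u∘T) = Tᵗ(∇u)∘T`,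
`∑_n‖∂_n(u∘T)‖² ≤ ‖T‖²∑_n‖(∂_nu)∘T‖² ≤ c⁻¹∑…`. Apply `M = 1` to `f' = g_1·(u∘T)`; all integrals are multiplied with `|det T|⁻¹`. -/
def UPoiStmt (dm : ℕ) (F : Type*) [NormedAddCommGroup F] [InnerProductSpace ℂ F] : Prop :=
  ∃ c1 : ℝ, 0 < c1 ∧ ∀ M : Wsp dm →L[ℝ] Wsp dm, (∀ v w, inner ℝ (M v) w = inner ℝ v (M w)) →
  ∀ c : ℝ, 0 < c → (∀ w, c * ‖w‖ ^ 2 ≤ inner ℝ w (M w)) → ∀ f : Wsp dm → F, FT f →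
    c1 * c * nsf (fun w => f w - ((Real.exp (-(1 / 2) * inner ℝ w (M w)) /
      ∫ w' : Wsp dm, Real.exp (-(1 / 2) * inner ℝ w' (M w')) ^ 2 : ℝ) : ℂ) •
        ∫ w', ((Real.exp (-(1 / 2) * inner ℝ w' (M w')) : ℝ) : ℂ) • f w') ≤
      ∑ j, ∑ B, nsf (fun w => pf j B f w + ((M w (j, B) : ℝ) : ℂ) • f w)

/-- **C-U2** the gap of the fermionic energy is `≥ λ_min(Ω)`. PROOF. `[N, θ_r] = (Λᵀθ)_r - (Λθ)_r` (from `θ_pθ_q + θ_qθ_p = δ_{pq}`), `ΛΛᵀ =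
¼(Ω² + P² + i[Ω,P]) = 0` (`P² = -Ω²`), `Λ² = ΩΛ`, so `[N, (Λθ)_s] = -(ΩΛθ)_s`. For an eigenvector `x` of `Ω` (eigenvalue `ω ≥ c`) `B = ∑x_s(Λθ)_s`
satisfies `NB = B(N - ω)`. `N` is symmetric, `≥ 0`, with kernel `F0` (B-Lam: `⟨v,Nv⟩ ≥ ω_max⁻¹∑‖(Λθ)_pv‖²`). If `Nv = λv`, `λ ≠ 0`, some `Bv ≠ 0`
(the eigenvectors `x ⊗ e_α` span) and `N(Bv) = (λ-ω)Bv`, so `λ ≥ ω ≥ c`. Eigenbasis of `N`. -/
def ULamStmt (S : Setup d F) (φ : Spl dh dm d) : Prop := FiniteDimensional ℂ F →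
  ∀ (D : Fin 9 → Matrix (Fin dm) (Fin dm) ℝ) (Om : Matrix (Fin dm) (Fin dm) ℝ), Frz D → IsOm S.κ D Om →
  ∀ c : ℝ, 0 < c → (∀ x : Fin dm → ℝ, c * (x ⬝ᵥ x) ≤ x ⬝ᵥ (Om *ᵥ x)) →
  ∀ v : F, (∃ v0 ∈ S.F0 φ D Om, (∀ u ∈ S.F0 φ D Om, inner ℂ u (v - v0) = 0) ∧
    c * ‖v - v0‖ ^ 2 ≤ (inner ℂ v (S.NF φ D Om v)).re)

/-- **C-U3** lower bounds for `Ω` and for the quadratic form. PROOF. `Ω² = κ²∑D_iᵀD_i ≥ κ²s²` and `Ω > 0` symmetric, so all eigenvalues are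
`≥ κs`. With `|T_jx| ≤ K|x|`: `w_j = V_j - T_jV_8` gives `|w|² ≤ (2 + 16K²)∑_i|V_i|²`, and `qf ≥ κs∑_i|V_i|²`. -/
def UOmStmt : Prop := ∀ (dm : ℕ) (κ : ℝ) (D : Fin 9 → Matrix (Fin dm) (Fin dm) ℝ) (Om : Matrix (Fin dm) (Fin dm) ℝ),
  0 < κ → Frz D → IsOm κ D Om → ∀ s K : ℝ, 0 < s → 0 ≤ K → (∀ x : Fin dm → ℝ, s ^ 2 * (x ⬝ᵥ x) ≤ (D 8 *ᵥ x) ⬝ᵥ (D 8 *ᵥ x)) →
  (∀ (i : Fin 9) (x : Fin dm → ℝ), (tI D i *ᵥ x) ⬝ᵥ (tI D i *ᵥ x) ≤ K ^ 2 * (x ⬝ᵥ x)) →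
  (∀ x : Fin dm → ℝ, κ * s * (x ⬝ᵥ x) ≤ x ⬝ᵥ (Om *ᵥ x)) ∧
    ∀ w : Wsp dm, κ * s / (2 + 16 * K ^ 2) * ‖w‖ ^ 2 ≤ qf D Om w

/-- **C-U4** gap at `R = 1` with explicit constant. PROOF: the proof of B-Gap (`AN/B/Gap.lean`) with C-U1, C-U2, C-U3. -/
def UGapStmt (S : Setup d F) (φ : Spl dh dm d) : Prop := ∀ _ : FiniteDimensional ℂ F,
  ∀ s K : ℝ, 0 < s → 0 ≤ K → ∃ c : ℝ, 0 < c ∧
  ∀ (D : Fin 9 → Matrix (Fin dm) (Fin dm) ℝ) (Om : Matrix (Fin dm) (Fin dm) ℝ), Frz D → IsOm S.κ D Om →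
  (∀ x : Fin dm → ℝ, s ^ 2 * (x ⬝ᵥ x) ≤ (D 8 *ᵥ x) ⬝ᵥ (D 8 *ᵥ x)) →
  (∀ (i : Fin 9) (x : Fin dm → ℝ), (tI D i *ᵥ x) ⬝ᵥ (tI D i *ᵥ x) ≤ K ^ 2 * (x ⬝ᵥ x)) →
  ∀ f : Wsp dm → F, FT f → c * nsf (fun w => f w - S.PR φ D Om 1 f w) ≤ S.e1 φ D f

/-- **C-U5** local Lipschitz bound in `D`, `R = 1`. PROOF: as B-Pert (`AN/B/Pert.lean`): the coefficients are smooth functions of `D` near `D00`. -/
def UPertStmt (S : Setup d F) (φ : Spl dh dm d) : Prop :=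
  ∀ (D00 : Fin 9 → Matrix (Fin dm) (Fin dm) ℝ), (D00 8).det ≠ 0 →
  ∃ C δ : ℝ, 0 < C ∧ 0 < δ ∧ ∀ D D' : Fin 9 → Matrix (Fin dm) (Fin dm) ℝ,
    (∀ i A B, |D i A B - D00 i A B| ≤ δ) → (∀ i A B, |D' i A B - D00 i A B| ≤ δ) → (D 8).det ≠ 0 ∧
    ∀ ε : ℝ, 0 ≤ ε → (∀ i A B, |D' i A B - D i A B| ≤ ε) → ∀ f : Wsp dm → F, FT f →
    ∀ β, nsf (fun w => S.q1 φ D' β f w - S.q1 φ D β f w) ≤
      C * ε ^ 2 * ((∑ j, ∑ B, nsf (pf j B f)) + nsf (fun w => ((‖w‖ : ℝ) : ℂ) • f w))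

/-- **C-U6** UNIFORM FIBRE FACTS near a frozen point. PROOF. `R = 1` first: `FibStmt` at `D00` gives (F1) for all `D` near `D00`; C-U4 gives the
gap at `D0` (`s`, `K` by continuity near `D00`), C-U5 compares `D` with `D0`: `e1 D0 f ≤ 2 e1 D f + Cε²(e1 D f + |f|²)`. General `R` by `ScaleFStmt`. -/
def UFibStmt (S : Setup d F) (φ : Spl dh dm d) : Prop := ∀ _ : FiniteDimensional ℂ F,
  ∀ (D00 : Fin 9 → Matrix (Fin dm) (Fin dm) ℝ) (Om00 : Matrix (Fin dm) (Fin dm) ℝ), Frz D00 → IsOm S.κ D00 Om00 →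
  ∃ C δ : ℝ, 0 < C ∧ 0 < δ ∧
  ∀ (D0 : Fin 9 → Matrix (Fin dm) (Fin dm) ℝ) (Om : Matrix (Fin dm) (Fin dm) ℝ), Frz D0 → IsOm S.κ D0 Om →
  (∀ i A B, |D0 i A B - D00 i A B| ≤ δ) → ∀ R : ℝ, 0 < R → ∀ ε : ℝ, 0 ≤ ε → ε ≤ δ →
  ∀ D : Fin 9 → Matrix (Fin dm) (Fin dm) ℝ, (∀ i A B, |D i A B - R * D0 i A B| ≤ ε * R) → (D 8).det ≠ 0 ∧
  ∀ f : Wsp dm → F, FT f →
    ((∑ j, ∑ B, nsf (pf j B f)) + R ^ 2 * nsf (fun w => ((‖w‖ : ℝ) : ℂ) • f w) ≤ C * (S.e1 φ D f + R * nsf f)) ∧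
    (R * nsf (fun w => f w - S.PR φ D0 Om R f w) ≤ C * (S.e1 φ D f + ε ^ 2 * R * nsf f)) ∧
    (∀ β, nsf (fun w => S.q1 φ D β f w - S.q1 φ (fun i => R • D0 i) β f w) ≤ C * ε ^ 2 * (S.e1 φ D f + R * nsf f))

/-- **C-UOut** unfrozen vacuum on the slice: `z : Cfg dh → Cfg dh` is any map to scalar points with `|y - z y| ≤ ρ(y)` (in the application
`z y` = centre part of `y`, `ρ(y) = |y_s|`). PROOF: C-U6 fibrewise with `R`, `D0 = DY (R⁻¹ • z y)`, `ε = C ρ(y)/R` (if `ρ(y) ≤ δR`), integrated over `y`;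
measurability of the vacuum part: if the integrand on the left is not integrable the integral is `0`. For `ρ(y) > δR` use that the left side
is `≤ 4R nsf (v y)` (`PR` is a projection: `nsf (PR f) ≤ nsf f`). Rescaling: `PR (RD0) (ROm) 1 = PR D0 Om R` (`tI`, `VV` do not change, `F0Stmt`).
Second part: last inequality of C-U6, `Q¹(ρv) = ρQ¹v` (fibrewise). -/
def UOutStmt (S : Setup d F) (φ : Spl dh dm d) : Prop := ∀ _ : FiniteDimensional ℂ F, ∀ Y : Cfg dh, Std S φ Y →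
  ∃ ε0 C : ℝ, 0 < ε0 ∧ 0 < C ∧ ∀ (z : Cfg dh → Cfg dh) (Om : Cfg dh → Matrix (Fin dm) (Fin dm) ℝ) (ρ : Cfg dh → ℝ),
    (∀ y, Frz (S.DY φ (z y)) → IsOm S.κ (S.DY φ (z y)) (Om y)) → (∀ y, 0 ≤ ρ y) → Continuous ρ →
    ∀ R : ℝ, 1 ≤ R → ∀ v : Cfg dh → Wsp dm → F, Tst2 v → Sup2 Y ε0 R v →
    (∀ y w, v y w ≠ 0 → Frz (S.DY φ (z y)) ∧ ‖z y - R • Y‖ ≤ ε0 * R ∧ ‖y - z y‖ ≤ ρ y) →
      (R * ns2 (fun y w => v y w - S.PR φ (S.DY φ (z y)) (Om y) 1 (v y) w) ≤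
        C * (S.E1 φ v + 1 / R * ns2 (mul2 (fun y _ => ρ y) v))) ∧
      ((∀ y w, v y w ≠ 0 → ρ y ≤ ε0 * R) → ∀ β,
        ns2 (fun y w => S.Q1 φ β v y w - S.q1 φ (S.DY φ (z y)) β (v y) w) ≤
          C / R ^ 2 * (S.E1 φ (mul2 (fun y _ => ρ y) v) + R * ns2 (mul2 (fun y _ => ρ y) v)))

end Vale.Agent.P353.Z.AN
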